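import Crest.Agent.X277.BD.BrA
import Crest.Agent.X277.BD.Cyc
import Crest.Agent.X277.Pst.Fin
import Crest.Prelude.Def_CubicLines

/-!
# Row 262, TOP (helper70): the shared language and the statements of the layers

Language of row 277: function fields over `ℂ`, smooth models `PModel ℂ F`, Cartier b-divisors
`BD ℂ F` (`Br.On P` : those which live on `P`, `Br.oP P` : hyperplane class, `Br.kP P b` :
canonical class), valuation rings `RZ ℂ F` with residue fields `Rf V`; an arbitrary (normal,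
projective) model is a free birational b-divisor `H`, `Prm H V` are its prime divisors.

* `K3 F d`      : `F` is the field of a K3 surface of Picard number one and degree `d`;
* `Typ D κ`     : `κ = F(t)` with `K3 F d`, `D ≤ d`;
* `BalS D A B`  : the members of type `Typ D` of `A \ B` and of `B \ A` cancel;
* `Bal D H H'`  : the primes of type `Typ D` extracted and contracted by `H ⇢ H'` cancel;
* `Fano1 P b`   : smooth Fano of Picard number one;
* `Hyp N G K`   : `K` is the field of the hypersurface `G = 0` of `P^N` (`G = 0` : `P^N` itself);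
* the statements `BrgStmt`, `FanoPStmt`, `FanoXStmt`, `BirStmt` (FG + SARK + BND + SURF),
  `GWStmt HX`, `G4Stmt HX` (`HX` : the input on the cubic);
* `Lines G F L`, `HXL D G` : the algebraic form of `HX`; `G4LStmt`, `SymStmt`, `GWLStmt`, `LinStmt`,
  the glue `main_ofL`.
-/

set_option autoImplicit false

open MvPolynomial AlgebraicGeometry
open scoped KaehlerDifferential

noncomputable section

namespace Crest.Agent.X262.Top

open Crest.AlgGeometry
open Crest.Agent.X277 Crest.Agent.X277.Lef Crest.Agent.X277.AN.G1 Crest.Agent.X277.BD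
open Crest.Agent.X277.BD.Br (On oP kP)
open Crest.Agent.X277.BD.Cyc (Rf)
open Crest.Agent.X277.Pst (Prm Bir)

/-! ### K3 surfaces of Picard number one -/

/-- regular one-forms on a model -/
def Reg1 {F : Type} [Field F] [Algebra ℂ F] (P : PModel ℂ F) (ω : Ω[F⁄ℂ]) : Prop :=
  ∀ x : Pts P, ω ∈ Submodule.span ℂ
    {η : Ω[F⁄ℂ] | ∃ a ∈ (lp x).O, ∃ c ∈ (lp x).O, η = a • KaehlerDifferential.D ℂ F c}

/-- a K3 surface with function field `F`, `Num = ℤ L`, `L² = d` -/
structure K3 (F : Type) [Field F] [Algebra ℂ F] [Algebra.EssFiniteType ℂ F] (d : ℕ) where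
  /-- the surface -/
  P : PModel ℂ F
  /-- a basis of the differentials -/
  b : Module.Basis (Fin 2) F Ω[F⁄ℂ]
  can : Lin (kP P b) 0
  irr : ∀ ω, Reg1 P ω → ω = 0
  /-- the ample generator -/
  L : BD ℂ F
  L_on : L ∈ On P
  L_sq : bnum [L, L] = d
  L_pos : 0 < bnum [L, oP P]
  gen : ∀ a ∈ On P, ∃ c : ℤ, ∀ a' ∈ On P, bnum [a - c • L, a'] = 0

/-- `κ` is the field of `S × P¹`, `S` a K3 surface of Picard number one and degree `≥ D` -/
def Typ (D : ℕ) (κ : Type) [Field κ] [Algebra ℂ κ] : Prop :=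
  ∃ (F : Type) (_ : Field F) (_ : Algebra ℂ F) (_ : Algebra.EssFiniteType ℂ F) (d : ℕ),
    D ≤ d ∧ Nonempty (K3 F d) ∧ Nonempty (κ ≃ₐ[ℂ] RatFunc F)

/-! ### the balance of extracted and contracted divisors -/

section Bal

variable {K : Type} [Field K] [Algebra ℂ K]

/-- `τ` depends only on the residue field -/
def Inv (τ : RZ ℂ K → Prop) : Prop :=
  ∀ V V' : RZ ℂ K, Nonempty (Rf V ≃ₐ[ℂ] Rf V') → τ V → τ V'

/-- the members of `A` of type `τ` which are not in `B` -/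
def ExS (τ : RZ ℂ K → Prop) (A B : Set (RZ ℂ K)) : Set (RZ ℂ K) := {V | V ∈ A ∧ V ∉ B ∧ τ V}

/-- the members of type `Typ D` of the two differences cancel -/
def BalS (D : ℕ) (A B : Set (RZ ℂ K)) : Prop :=
  ∀ τ : RZ ℂ K → Prop, Inv τ → (∀ V, τ V → Typ D (Rf V)) →
    (ExS τ A B).ncard = (ExS τ B A).ncard

/-- the primes of the model `H` of type `τ` which are contracted on the model `H'` -/
def Ex (τ : RZ ℂ K → Prop) (H H' : BD ℂ K) : Set (RZ ℂ K) := {V | Prm H V ∧ ¬ Prm H' V ∧ τ V}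

/-- the primes of type `Typ D` which are contracted and extracted by `H ⇢ H'` cancel -/
def Bal (D : ℕ) (H H' : BD ℂ K) : Prop :=
  ∀ τ : RZ ℂ K → Prop, Inv τ → (∀ V, τ V → Typ D (Rf V)) →
    (Ex τ H H').ncard = (Ex τ H' H).ncard


end Bal

/-! ### Fano models, hypersurfaces -/

/-- a smooth Fano variety of Picard number one (`ℚ`-linear equivalence) -/
structure Fano1 {K : Type} [Field K] [Algebra ℂ K] {n : ℕ} (P : PModel ℂ K)
    (b : Module.Basis (Fin n) K Ω[K⁄ℂ]) : Prop where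
  anti : ∃ r : ℕ, 0 < r ∧ Lin (kP P b + r • oP P) 0
  rho : ∀ a ∈ On P, ∃ m : ℕ, 0 < m ∧ ∃ c : ℤ, Lin (m • a) (c • oP P)

/-- `K` is the function field of the smooth hypersurface `G = 0` in `P^N` (of `P^N` if `G = 0`) -/
structure Hyp (N : ℕ) (G : MvPolynomial (Fin (N + 1)) ℂ) (K : Type) [Field K] [Algebra ℂ K] where
  /-- homogeneous coordinates -/
  y : Fin (N + 1) → K
  y_ne : ∀ i, y i ≠ 0
  frac : ∀ f : K, ∃ a ∈ chart ℂ y 0, ∃ c ∈ chart ℂ y 0, c ≠ 0 ∧ f = a / c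
  smooth : ∀ i, Algebra.Smooth ℂ (chart ℂ y i)
  ker : ∀ (m : ℕ) (q : MvPolynomial (Fin (N + 1)) ℂ), q.IsHomogeneous m →
    (aeval y q = 0 ↔ G ∣ q)

/-- the model -/
abbrev Hyp.P {N : ℕ} {G : MvPolynomial (Fin (N + 1)) ℂ} {K : Type} [Field K] [Algebra ℂ K]
    (X : Hyp N G K) : PModel ℂ K := ⟨N, X.y, X.y_ne, X.frac, X.smooth⟩

/-- a smooth cubic fourfold -/
def SmCub (G : MvPolynomial (Fin 6) ℂ) : Prop :=
  G.IsHomogeneous 3 ∧ ∀ p : Fin 6 → ℂ, p ≠ 0 → eval p G = 0 → ∃ i, eval p (pderiv i G) ≠ 0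

/-- the variety of lines is birational to the symmetric square of a surface -/
def SymSq (G : MvPolynomial (Fin 6) ℂ) : Prop :=
  ∃ (A : Type) (_ : CommRing A) (_ : Algebra ℂ A),
    IsDomain A ∧ Algebra.FiniteType ℂ A ∧ ringKrullDim A = 2 ∧
    Scheme.BirationalOver (toSpecComplex (fanoChart G)) (toSpecComplex ↥(symmSquare A))

/-! ### the statements -/

/-- BRIDGE: a rational cubic gives a field with the two models -/
def BrgStmt : Prop := ∀ G : MvPolynomial (Fin 6) ℂ, SmCub G →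
  Scheme.IsRationalOver (toSpecComplex (cubicAffineChart G)) →
    ∃ (K : Type) (_ : Field K) (_ : Algebra ℂ K), Nonempty (Hyp 4 0 K) ∧ Nonempty (Hyp 5 G K) ∧
      Nonempty (Module.Basis (Fin 4) K Ω[K⁄ℂ])

/-- projective space is a Fano variety of Picard number one -/
def FanoPStmt : Prop := ∀ (K : Type) [Field K] [Algebra ℂ K]
  (b : Module.Basis (Fin 4) K Ω[K⁄ℂ]) (Y : Hyp 4 0 K), Fano1 Y.P b

/-- a rational smooth cubic is a Fano variety of Picard number one -/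
def FanoXStmt : Prop := ∀ (G : MvPolynomial (Fin 6) ℂ) (K : Type) [Field K] [Algebra ℂ K]
  (b : Module.Basis (Fin 4) K Ω[K⁄ℂ]) (X : Hyp 5 G K), SmCub G → Nonempty (Hyp 4 0 K) →
    Fano1 X.P b

/-- FG + SARK + BND + SURF: K3 centres of large degree cancel (`K` is rational) -/
def BirStmt : Prop := ∃ C : ℕ, ∀ (K : Type) [Field K] [Algebra ℂ K]
  (b : Module.Basis (Fin 4) K Ω[K⁄ℂ]) (P X : PModel ℂ K), Nonempty (Hyp 4 0 K) → Fano1 P b →
    Fano1 X b → Bal C (oP P) (oP X)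

/-- GW: the net count is not zero -/
def GWStmt (HX : ℕ → MvPolynomial (Fin 6) ℂ → Prop) : Prop :=
  ∀ (D : ℕ) (G : MvPolynomial (Fin 6) ℂ), SmCub G → HX D G →
    ∀ (K : Type) [Field K] [Algebra ℂ K] (Y : Hyp 4 0 K) (X : Hyp 5 G K),
      ¬ Bal D (oP Y.P) (oP X.P)

/-- G4: cubics of unbounded discriminant whose variety of lines is a symmetric square -/
def G4Stmt (HX : ℕ → MvPolynomial (Fin 6) ℂ → Prop) : Prop :=
  ∀ D : ℕ, ∃ G : MvPolynomial (Fin 6) ℂ, SmCub G ∧ SymSq G ∧ HX D G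

/-- the statement S0400 -/
def Main : Prop := ∃ G : MvPolynomial (Fin 6) ℂ, G.IsHomogeneous 3 ∧
  (∀ p : Fin 6 → ℂ, p ≠ 0 → eval p G = 0 → ∃ i : Fin 6, eval p (pderiv i G) ≠ 0) ∧
  ¬ Scheme.IsRationalOver (toSpecComplex (cubicAffineChart G)) ∧
  ∃ (A : Type) (_ : CommRing A) (_ : Algebra ℂ A),
    IsDomain A ∧ Algebra.FiniteType ℂ A ∧ ringKrullDim A = 2 ∧
    Scheme.BirationalOver (toSpecComplex (fanoChart G)) (toSpecComplex ↥(symmSquare A))

/-- **the glue** -/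
theorem main_of {HX : ℕ → MvPolynomial (Fin 6) ℂ → Prop} (h1 : BrgStmt) (h2 : FanoPStmt)
    (h3 : FanoXStmt) (h4 : BirStmt) (h5 : GWStmt HX) (h6 : G4Stmt HX) : Main := by
  obtain ⟨C, hC⟩ := h4
  obtain ⟨G, hG, hS, hX⟩ := h6 C
  refine ⟨G, hG.1, hG.2, fun h => ?_, hS⟩
  obtain ⟨K, _, _, ⟨Y⟩, ⟨X⟩, ⟨b⟩⟩ := h1 G hG h
  exact h5 C G hG hX K Y X (hC K b Y.P X.P ⟨Y⟩ (h2 K b Y) (h3 G K b X hG ⟨Y⟩))

/-! ### the algebraic form of the input on the cubic -/

/-- `L = ℂ(S × S)` with the swap `τ`, `F = ℂ(S)`, and a line on the cubic with chart coordinates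
`a` which generate the fixed field of `τ` -/
structure Lines (G : MvPolynomial (Fin 6) ℂ) (F L : Type) [Field F] [Algebra ℂ F] [Field L]
    [Algebra ℂ L] where
  /-- the first projection -/
  ι : F →ₐ[ℂ] L
  /-- the swap -/
  τ : L →ₐ[ℂ] L
  inv : ∀ x, τ (τ x) = x
  gen : IntermediateField.adjoin ℂ (Set.range ι ∪ Set.range fun x => τ (ι x)) = ⊤
  dim : Algebra.trdeg ℂ L = 4
  /-- the chart coordinates of the line -/
  a : Fin 8 → L
  on : ∀ q ∈ fanoChartIdeal G, aeval a q = 0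
  fix : ∀ x, τ x = x ↔ x ∈ IntermediateField.adjoin ℂ (Set.range a)

namespace Lines

variable {G : MvPolynomial (Fin 6) ℂ} {F L : Type} [Field F] [Algebra ℂ F] [Field L] [Algebra ℂ L]
  (Λ : Lines G F L)

/-- the first point of the line -/
def p : Fin 6 → L := ![1, 0, Λ.a 0, Λ.a 1, Λ.a 2, Λ.a 3]

/-- the second point of the line -/
def q : Fin 6 → L := ![0, 1, Λ.a 4, Λ.a 5, Λ.a 6, Λ.a 7]

/-- the Plücker coordinates -/
def plk (ij : Fin 6 × Fin 6) : L := Λ.p ij.1 * Λ.q ij.2 - Λ.p ij.2 * Λ.q ij.1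

/-- the moving point -/
def pt (i : Fin 6) : RatFunc L := RatFunc.C (Λ.p i) + RatFunc.X * RatFunc.C (Λ.q i)

/-- the hyperplane class of the cubic on the universal line -/
def xi : BD ℂ (RatFunc L) := mxf ℂ Λ.pt

/-- the Plücker class on the universal line -/
def g : BD ℂ (RatFunc L) := mxf ℂ fun ij => RatFunc.C (Λ.plk ij)

end Lines

/-- the variety of lines is birational to the symmetric square of a K3 surface of Picard number
one and degree `≥ D` -/
def HXL (D : ℕ) (G : MvPolynomial (Fin 6) ℂ) : Prop :=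
  ∃ (F : Type) (_ : Field F) (_ : Algebra ℂ F) (_ : Algebra.EssFiniteType ℂ F) (d : ℕ)
    (L : Type) (_ : Field L) (_ : Algebra ℂ L), D ≤ d ∧ Nonempty (K3 F d) ∧ Nonempty (Lines G F L)

/-- G4, final form -/
def G4LStmt : Prop := ∀ D : ℕ, ∃ G : MvPolynomial (Fin 6) ℂ, SmCub G ∧ HXL D G

/-- the scheme statement on the variety of lines -/
def SymStmt : Prop := ∀ (D : ℕ) (G : MvPolynomial (Fin 6) ℂ), SmCub G → HXL D G → SymSq G

/-- GW, final form -/
def GWLStmt : Prop := ∀ D : ℕ, ∃ D' : ℕ, ∀ G : MvPolynomial (Fin 6) ℂ, SmCub G → HXL D' G →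
  ∀ (K : Type) [Field K] [Algebra ℂ K] (Y : Hyp 4 0 K) (X : Hyp 5 G K),
    ¬ Bal D (oP Y.P) (oP X.P)

/-- LIN: the moving point is the generic point of the cubic, and the curve of the lines through it
has degree between `1` and `12` -/
def LinStmt : Prop := ∀ (G : MvPolynomial (Fin 6) ℂ) (F L : Type) [Field F] [Algebra ℂ F]
  [Field L] [Algebra ℂ L] [Algebra.EssFiniteType ℂ (RatFunc L)] (Λ : Lines G F L), SmCub G →
    (∀ (m : ℕ) (r : MvPolynomial (Fin 6) ℂ), r.IsHomogeneous m → (aeval Λ.pt r = 0 ↔ G ∣ r)) ∧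
      0 < bnum [Λ.xi, Λ.xi, Λ.xi, Λ.xi, Λ.g] ∧ bnum [Λ.xi, Λ.xi, Λ.xi, Λ.xi, Λ.g] ≤ 36

/-- **the glue, final form** -/
theorem main_ofL (h1 : BrgStmt) (h2 : FanoPStmt) (h3 : FanoXStmt) (h4 : BirStmt) (h5 : GWLStmt)
    (h6 : G4LStmt) (h7 : SymStmt) : Main := by
  choose D' hD using h5
  exact main_of (HX := fun D G => HXL (D' D) G) h1 h2 h3 h4 (fun D G => hD D G) fun D =>
    (h6 (D' D)).imp fun G hG => ⟨hG.1, h7 _ G hG.1 hG.2, hG.2⟩

end Crest.Agent.X262.Top
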