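import Crest.Agent.X262.Top.Defs

/-!
# Row 262, TOP (helper70): the calculus of `BalS`

* `Fd D A B`      : the differences have finitely many members of type `Typ D`;
* `BalS.symm`, `BalS.trans`, `balS_compl`, `BalS.congr`, `balS_of_same`, `balS_of_pair`;
* `balS_of_chain` : a chain of balanced steps is balanced;
* `fin_prm`       : a model has finitely many primes which are contracted on another model;
* `balS_iff_sup`  : the count inside a common larger set.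
-/

set_option autoImplicit false

open Set

noncomputable section

namespace Crest.Agent.X262.Top

open Crest.Agent.X277 Crest.Agent.X277.BD
open Crest.Agent.X277.BD.Cyc (Rf)
open Crest.Agent.X277.Pst (Prm Bir)

section Typ

variable {D D' : ℕ} {κ κ' : Type} [Field κ] [Algebra ℂ κ] [Field κ'] [Algebra ℂ κ']

theorem Typ.mono (h : Typ D κ) (hD : D' ≤ D) : Typ D' κ := by
  obtain ⟨F, _, _, _, d, h1, h2, h3⟩ := h
  exact ⟨F, _, _, inferInstance, d, hD.trans h1, h2, h3⟩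

theorem Typ.of_equiv (h : Typ D κ) (e : κ ≃ₐ[ℂ] κ') : Typ D κ' := by
  obtain ⟨F, _, _, _, d, h1, h2, ⟨e'⟩⟩ := h
  exact ⟨F, _, _, inferInstance, d, h1, h2, ⟨e.symm.trans e'⟩⟩

end Typ

variable {K : Type} [Field K] [Algebra ℂ K] {D : ℕ} {A B C A' B' W : Set (RZ ℂ K)}

theorem inv_typ (D : ℕ) : Inv fun V : RZ ℂ K => Typ D (Rf V) := fun _ _ ⟨e⟩ h => h.of_equiv e

/-- the differences have finitely many members of type `Typ D` -/
def Fd (D : ℕ) (A B : Set (RZ ℂ K)) : Prop :=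
  (ExS (fun V => Typ D (Rf V)) A B).Finite ∧ (ExS (fun V => Typ D (Rf V)) B A).Finite

theorem Fd.refl (D : ℕ) (A : Set (RZ ℂ K)) : Fd D A A :=
  ⟨finite_empty.subset fun _ h => h.2.1 h.1, finite_empty.subset fun _ h => h.2.1 h.1⟩

theorem Fd.symm (h : Fd D A B) : Fd D B A := ⟨h.2, h.1⟩

theorem Fd.trans (h : Fd D A B) (h' : Fd D B C) : Fd D A C := by
  refine ⟨(h.1.union h'.1).subset fun V hV => ?_, (h.2.union h'.2).subset fun V hV => ?_⟩
  · by_cases hB : V ∈ B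
    · exact Or.inr ⟨hB, hV.2⟩
    · exact Or.inl ⟨hV.1, hB, hV.2.2⟩
  · by_cases hB : V ∈ B
    · exact Or.inl ⟨hB, hV.2⟩
    · exact Or.inr ⟨hV.1, hB, hV.2.2⟩

theorem fd_of_finite (h : (A \ B).Finite) (h' : (B \ A).Finite) : Fd D A B :=
  ⟨h.subset fun _ hV => ⟨hV.1, hV.2.1⟩, h'.subset fun _ hV => ⟨hV.1, hV.2.1⟩⟩



theorem Fd.fin {τ : RZ ℂ K → Prop} (h : Fd D A B) (hτ : ∀ V, τ V → Typ D (Rf V)) :
    (ExS τ A B).Finite := h.1.subset fun V hV => ⟨hV.1, hV.2.1, hτ V hV.2.2⟩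

theorem BalS.refl (D : ℕ) (A : Set (RZ ℂ K)) : BalS D A A := fun _ _ _ => rfl

theorem BalS.symm (h : BalS D A B) : BalS D B A := fun τ h1 h2 => (h τ h1 h2).symm


theorem BalS.mono {D' : ℕ} (h : BalS D A B) (hD : D ≤ D') : BalS D' A B :=
  fun τ h1 h2 => h τ h1 fun V hV => (h2 V hV).mono hD

theorem Fd.mono {D' : ℕ} (h : Fd D A B) (hD : D ≤ D') : Fd D' A B :=
  ⟨h.fin fun _ hV => hV.mono hD, h.symm.fin fun _ hV => hV.mono hD⟩

theorem exS_split {τ : RZ ℂ K → Prop} (h : (ExS τ A B).Finite) (C : Set (RZ ℂ K)) :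
    (ExS τ A B).ncard = (ExS τ A B ∩ C).ncard + (ExS τ A B \ C).ncard :=
  (ncard_inter_add_ncard_sdiff_eq_ncard _ _ h).symm

theorem exS_inter (τ : RZ ℂ K → Prop) (A B C : Set (RZ ℂ K)) :
    ExS τ A B ∩ C = ExS τ C B ∩ A := by
  ext V
  simp only [ExS, mem_inter_iff, mem_ofPred_eq]
  tauto

theorem exS_diff (τ : RZ ℂ K → Prop) (A B C : Set (RZ ℂ K)) :
    ExS τ A B \ C = ExS τ A C \ B := by
  ext V
  simp only [ExS, mem_sdiff, mem_ofPred_eq]
  tauto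

/-- the cocycle identity -/
theorem exS_cyc {τ : RZ ℂ K → Prop} (hτ : ∀ V, τ V → Typ D (Rf V)) (h : Fd D A B)
    (h' : Fd D B C) : (ExS τ A B).ncard + (ExS τ B C).ncard + (ExS τ C A).ncard =
      (ExS τ B A).ncard + (ExS τ C B).ncard + (ExS τ A C).ncard := by
  have h'' := h.trans h'
  rw [exS_split (h.fin hτ) C, exS_split (h'.fin hτ) A, exS_split (h''.symm.fin hτ) B,
    exS_split (h.symm.fin hτ) C, exS_split (h'.symm.fin hτ) A, exS_split (h''.fin hτ) B,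
    exS_inter τ A B C, exS_diff τ A B C, exS_inter τ B C A, exS_diff τ B C A, exS_inter τ C A B,
    exS_diff τ C A B]
  omega

theorem BalS.trans (h : BalS D A B) (h' : BalS D B C) (f : Fd D A B) (f' : Fd D B C) :
    BalS D A C := fun τ h1 h2 => by
  have := exS_cyc h2 f f'
  rw [h τ h1 h2, h' τ h1 h2] at this
  omega

theorem exS_congr {τ : RZ ℂ K → Prop} (hτ : ∀ V, τ V → Typ D (Rf V))
    (hA : ∀ V, Typ D (Rf V) → (V ∈ A ↔ V ∈ A')) (hB : ∀ V, Typ D (Rf V) → (V ∈ B ↔ V ∈ B')) :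
    ExS τ A B = ExS τ A' B' := by
  ext V
  exact ⟨fun h => ⟨(hA V (hτ V h.2.2)).1 h.1, fun h' => h.2.1 ((hB V (hτ V h.2.2)).2 h'), h.2.2⟩,
    fun h => ⟨(hA V (hτ V h.2.2)).2 h.1, fun h' => h.2.1 ((hB V (hτ V h.2.2)).1 h'), h.2.2⟩⟩

/-- only the members of type `Typ D` matter -/
theorem BalS.congr (h : BalS D A B) (hA : ∀ V, Typ D (Rf V) → (V ∈ A ↔ V ∈ A'))
    (hB : ∀ V, Typ D (Rf V) → (V ∈ B ↔ V ∈ B')) : BalS D A' B' := fun τ h1 h2 => by
  rw [← exS_congr h2 hA hB, ← exS_congr h2 hB hA]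
  exact h τ h1 h2

theorem Fd.congr (h : Fd D A B) (hA : ∀ V, Typ D (Rf V) → (V ∈ A ↔ V ∈ A'))
    (hB : ∀ V, Typ D (Rf V) → (V ∈ B ↔ V ∈ B')) : Fd D A' B' := by
  unfold Fd
  rw [← exS_congr (fun _ h => h) hA hB, ← exS_congr (fun _ h => h) hB hA]
  exact h

/-- no member of type `Typ D` changes -/
theorem balS_of_same (h : ∀ V, Typ D (Rf V) → (V ∈ A ↔ V ∈ B)) : BalS D A B :=
  (BalS.refl D A).congr (fun _ _ => Iff.rfl) h


/-- one member is replaced by a birational one -/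
theorem balS_of_pair {E E' : RZ ℂ K} (h1 : E ∈ A) (h2 : E ∉ B) (h3 : E' ∈ B) (h4 : E' ∉ A)
    (e : Nonempty (Rf E ≃ₐ[ℂ] Rf E'))
    (h : ∀ V, Typ D (Rf V) → V ≠ E → V ≠ E' → (V ∈ A ↔ V ∈ B)) : BalS D A B := fun τ i1 i2 => by
  have a1 : ∀ V ∈ ExS τ A B, V = E := fun V hV => by_contra fun hc =>
    hV.2.1 ((h V (i2 V hV.2.2) hc fun hd => h4 (hd ▸ hV.1)).1 hV.1)
  have a2 : ∀ V ∈ ExS τ B A, V = E' := fun V hV => by_contra fun hc =>
    hV.2.1 ((h V (i2 V hV.2.2) (fun hd => h2 (hd ▸ hV.1)) hc).2 hV.1)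
  by_cases hE : τ E
  · have b1 : ExS τ A B = {E} := eq_singleton_iff_unique_mem.2 ⟨⟨h1, h2, hE⟩, a1⟩
    have b2 : ExS τ B A = {E'} := eq_singleton_iff_unique_mem.2 ⟨⟨h3, h4, i1 E E' e hE⟩, a2⟩
    rw [b1, b2, ncard_singleton, ncard_singleton]
  · have b1 : ExS τ A B = ∅ := eq_empty_iff_forall_notMem.2 fun V hV => hE (a1 V hV ▸ hV.2.2)
    have b2 : ExS τ B A = ∅ := eq_empty_iff_forall_notMem.2 fun V hV =>
      hE (i1 E' E (e.map AlgEquiv.symm) (a2 V hV ▸ hV.2.2))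
    rw [b1, b2]

/-- **a chain of balanced steps is balanced** -/
theorem balS_of_chain {St : Type*} (A : St → Set (RZ ℂ K)) {R : St → St → Prop}
    (h : ∀ s t, R s t → Fd D (A s) (A t) ∧ BalS D (A s) (A t)) {s t : St}
    (hc : Relation.ReflTransGen R s t) : Fd D (A s) (A t) ∧ BalS D (A s) (A t) := by
  induction hc with
  | refl => exact ⟨Fd.refl _ _, BalS.refl _ _⟩
  | tail _ h2 ih => exact ⟨ih.1.trans (h _ _ h2).1, ih.2.trans (h _ _ h2).2 ih.1 (h _ _ h2).1⟩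



variable [Algebra.EssFiniteType ℂ K] {H H' : BD ℂ K}

/-- a model has finitely many primes which are contracted on another model -/
theorem fin_prm (hH : H.Free) (hB : Bir H) (hB' : Bir H') :
    {V : RZ ℂ K | Prm H V ∧ ¬ Prm H' V}.Finite := by
  obtain ⟨S, h1, h2⟩ := Pst.exists_fin_rk hH
  obtain ⟨T, h3, h4⟩ := Pst.exists_loc_triv hB' h1
  refine (Pst.fin_units hH hB h3).subset fun V hV => ⟨hV.1, by_contra fun hc => hV.2 ?_⟩
  have h5 := h4 V (by simpa using hc)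
  exact Pst.prm_iff.2 ⟨hV.1.1, (h2 V hV.1).trans (add_le_add_left ((Pst.rm V).eRk_mono h5) _)⟩

theorem fd_prm (hH : H.Free) (hB : Bir H) (hH' : H'.Free) (hB' : Bir H') :
    Fd D {V | Prm H V} {V | Prm H' V} :=
  fd_of_finite (fin_prm hH hB hB') (fin_prm hH' hB' hB)

theorem Bal.trans {H'' : BD ℂ K} (h : Bal D H H') (h' : Bal D H' H'') (hH : H.Free) (hB : Bir H)
    (hH' : H'.Free) (hB' : Bir H') (hH'' : H''.Free) (hB'' : Bir H'') : Bal D H H'' :=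
  BalS.trans h h' (fd_prm hH hB hH' hB') (fd_prm hH' hB' hH'' hB'')

end Crest.Agent.X262.Top
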