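import Crest.Agent.X262.Fam6.Main_Mg
import Crest.Agent.X262.Bl41.Diag_Mg
import Crest.Agent.X262.G4.Defs
import Crest.Agent.X262.Mv99.Wrap_Mg
import Crest.Agent.X262.Geo.Val
import Crest.Agent.X277.Tri.BC
import Crest.Agent.X262.Rig38.Rho
import Crest.Agent.X262.StAmp.Main
import Crest.Agent.X262.KV.Qch
import Crest.Agent.X262.Noe83.Main
import Crest.Agent.X262.Int23.K3
import Crest.Agent.X262.Irr93.Bet
import Crest.Agent.X262.Lift8.Defs
import Crest.Agent.X262.Mv99.Ten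
import Crest.Agent.X262.Mv99.Mon
import Crest.Agent.X277.Cns.Kun
import Crest.Agent.X262.Fano.K
import Crest.Agent.X277.AN.G1Conn
import Crest.Agent.X262.Rho82.Main_Mg
import Crest.Agent.X262.Rl57.SubS
import Crest.Agent.X262.Brg.Main
import Crest.Agent.X262.Pf19.Main_Mg
import Crest.Agent.X262.Pic28.Main_Mg

-- ▼ part X262/Alg44/Fin
section

/-!
# Row 262, G4 / ALG (helper44), part 5: `G4.Alg2Stmt` from the vanishing of one-forms
-/

set_option autoImplicit false

namespace Crest.Agent.X262.Alg44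

theorem alg2_of (hQ : KV.IrrQ) : G4.Alg2Stmt := by
  intro F L _ _ _ _ _ B D n hA N hk hl
  obtain ⟨P, T, h1, h2, -, h3, h4, ⟨N'⟩⟩ := Fam6.exists_all (D := D) Bl41.nuStmt B.qt B.b B.Λ B.pf
    B.LL_on B.pos hA.1 hA.2 B.u_ne B.par B.plk N.sy N.c0 N.a0 N.on N.w0
    (fun i j => (N.sc i j).sym) (fun i j => (N.sc i j).kn) (fun i j => (N.sc i j).dg) hk hl
  exact alg_of hQ B.b T h1 h2 h3 h4 B.cub N'

end Crest.Agent.X262.Alg44
end

-- ▼ part X262/Be94/Cnn
section

/-!
# Row 262, G4 / TR (helper94), part 3: connections, the obstruction, `H2Stmt`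

* `exists_conn` : every line bundle has a connection on each chart;
* `op_iff`      : first order operators in terms of a connection;
* `ob η α`, `lifts_iff` : the obstruction to lifting a line bundle;
* `h2Stmt`, `mvStmt`.
-/

set_option autoImplicit false
set_option linter.unusedSectionVars false

open MvPolynomial Submodule
open scoped KaehlerDifferential

noncomputable section

namespace Crest.Agent.X262.Be94

open Crest.Agent.X277 Crest.Agent.X277.Lef Crest.Agent.X277.AN.G1 Crest.Agent.X277.BD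
open Crest.Agent.X277.BD.Br (On oP kP At at_y)
open Crest.Agent.X262.Top (Hyp)
open Crest.Agent.X262.Mv99

variable {F : Type} [Field F] [Algebra ℂ F] {Γ : MvPolynomial (Fin 4) ℂ} {S : Hyp 3 Γ F}
  {I : Finset (Fin 3)} {D : Derivation ℂ F F} {M : BD ℂ F} {η α' : Fin 3 → Derivation ℂ F F}
  {α : Fin 3 → Ω[F⁄ℂ]} {x : Pts S.P} {ζ : Ω[F⁄ℂ]}

local notation "dd" => KaehlerDifferential.D ℂ F

theorem r1_mem {a c : F} (ha : a ∈ oR x) (hc : c ∈ oR x) : a • dd c ∈ R1 x :=
  subset_span ⟨a, ha, c, hc, rfl⟩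

theorem r1_smul (h : ζ ∈ R1 x) : ∀ u ∈ oR x, u • ζ ∈ R1 x := by
  induction h using Submodule.span_induction with
  | mem _ h =>
    obtain ⟨a, ha, c, hc, rfl⟩ := h
    intro u hu
    rw [smul_smul]
    exact r1_mem (mul_mem hu ha) hc
  | zero => exact fun u _ => by rw [smul_zero]; exact zero_mem _
  | add _ _ _ _ h1 h2 => exact fun u hu => by rw [smul_add]; exact add_mem (h1 u hu) (h2 u hu)
  | smul c _ _ h => exact fun u hu => by rw [smul_comm]; exact smul_mem _ c (h u hu)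

theorem pg_mem (hD : RV x D) (h : ζ ∈ R1 x) : pg D ζ ∈ oR x := by
  induction h using Submodule.span_induction with
  | mem _ h =>
    obtain ⟨a, ha, c, hc, rfl⟩ := h
    rw [map_smul, pg_D]
    exact mul_mem ha (hD c hc)
  | zero => rw [map_zero]; exact zero_mem _
  | add _ _ _ _ h1 h2 => rw [map_add]; exact add_mem h1 h2
  | smul c _ _ h => rw [LinearMap.map_smul_of_tower]; exact (lp x).O.smul_mem h c

theorem exists_gen {a : Fin 3} (hM : M ∈ On S.P) (hx : x ∈ U S a) :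
    ∃ s ∈ GmM S M {a}, At M x s := by
  obtain ⟨k, hk⟩ := Br.serre hM
  obtain ⟨g, hg⟩ := add_mem hM (nsmul_mem Br.oP_mem k) x
  obtain ⟨σ, h1, h2⟩ := hg.exists_sec (hk k le_rfl)
  refine ⟨σ / S.y a.castSucc ^ k, fun x' hx' => ?_,
    by simpa using h2.sub ((at_y (P := S.P) hx).nsmul k)⟩
  obtain ⟨g', hg'⟩ := hM x'
  rw [mem_nS_iff hg', div_div, mul_comm]
  exact (hg'.add ((at_y (P := S.P) (mem_UI_one.1 hx')).nsmul k)).div_mem h1

theorem exists_conn (hM : M ∈ On S.P) : ∃ α, Conn S M α := by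
  have key : ∀ a : Fin 3, ∃ α : Ω[F⁄ℂ], ∀ x ∈ U S a, ∀ g, At M x g → α - g⁻¹ • dd g ∈ R1 x := by
    intro a
    let N : AddSubgroup F :=
      { carrier := {f | ∃ α : Ω[F⁄ℂ], ∀ x ∈ U S a, ∀ g, At M x g → α - f • g⁻¹ • dd g ∈ R1 x}
        zero_mem' := ⟨0, fun x _ g _ => by simp⟩
        add_mem' := by
          rintro f f' ⟨α, h⟩ ⟨α', h'⟩
          refine ⟨α + α', fun x hx g hg => ?_⟩
          rw [add_smul, add_sub_add_comm]
          exact add_mem (h x hx g hg) (h' x hx g hg)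
        neg_mem' := by
          rintro f ⟨α, h⟩
          refine ⟨-α, fun x hx g hg => ?_⟩
          rw [neg_smul, neg_sub_neg, ← neg_sub]
          exact neg_mem (h x hx g hg) }
    obtain ⟨k, α, h⟩ := exists_pow_mul_mem (P := S.P) (i := a.castSucc) N (f := (1 : F))
      (by
        rintro c hc f ⟨α, h⟩
        refine ⟨c • α, fun x hx g hg => ?_⟩
        rw [smul_assoc, ← smul_sub]
        exact r1_smul (h x hx g hg) c (A_le (P := S.P) hx hc))
      (one_mem _) fun x hx _ => by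
        obtain ⟨s, hs, h1⟩ := exists_gen (a := a) hM hx
        obtain ⟨t, ht, h2⟩ := exists_gen (a := a) (neg_mem hM) hx
        refine ⟨s * t, (mem_A_iff (P := S.P)).2 fun x' hx' => ?_, ?_, t • dd s,
          fun x' hx' g hg => ?_⟩
        · have := mul_mem_nS (hs x' (mem_UI_one.2 hx')) (ht x' (mem_UI_one.2 hx'))
          rwa [add_neg_cancel, mem_nS_zero] at this
        · have := (h1.add h2).ev_div_ne (g' := 1) (by rw [add_neg_cancel]; exact Br.at_zero x)
          rwa [div_one] at this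
        · have h3 := (mem_nS_iff hg).1 (hs x' (mem_UI_one.2 hx'))
          have h4 := (mem_nS_iff hg.neg).1 (ht x' (mem_UI_one.2 hx'))
          have h5 := hg.ne
          convert r1_mem h4 h3 using 1
          rw [Derivation.leibniz_div, smul_sub, smul_sub, smul_smul, smul_smul, smul_smul,
            smul_smul, smul_smul, smul_eq_mul]
          congr 2 <;> field_simp
    exact ⟨α, fun x hx g hg => by simpa using h x hx g hg⟩
  choose α h using key
  exact ⟨α, h⟩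

theorem conn_sub {a b : Fin 3} (hM : M ∈ On S.P) (h : Conn S M α) (ha : x ∈ U S a)
    (hb : x ∈ U S b) : α a - α b ∈ R1 x := by
  obtain ⟨g, hg⟩ := hM x
  simpa using sub_mem (h a x ha g hg) (h b x hb g hg)

theorem op_iff {a : Fin 3} {r : F} (hM : M ∈ On S.P) (h : Conn S M α) (ha : x ∈ U S a) :
    Op (oR x) (nS M x) D r ↔ RV x D ∧ r + pg D (α a) ∈ oR x := by
  obtain ⟨g, hg⟩ := hM x
  have h0 := hg.ne
  refine and_congr_right fun hD => ?_
  have h1 := pg_mem hD (h a x ha g hg)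
  rw [map_sub, map_smul, pg_D, smul_eq_mul] at h1
  constructor
  · intro h2
    have h3 := (mem_nS_iff hg).1 (h2 g ((mem_nS_iff hg).2 (by rw [div_self h0]; exact one_mem _)))
    convert add_mem h1 h3 using 1
    field_simp
    ring
  · intro h2 z hz
    rw [mem_nS_iff hg] at hz ⊢
    convert add_mem (hD _ hz) (mul_mem hz (sub_mem h2 h1)) using 1
    rw [Derivation.leibniz_div, smul_eq_mul, smul_eq_mul, smul_eq_mul]
    field_simp
    ring

/-- the obstruction -/
def ob (η : Fin 3 → Derivation ℂ F F) (α : Fin 3 → Ω[F⁄ℂ]) : F := pg (η 1 - η 2) (α 1 - α 0)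

theorem ob_mem (hη : Coc S η) (h : ∀ x ∈ U S 1, x ∈ U S 0 → α 1 - α 0 ∈ R1 x) :
    ob η α ∈ Gm S 0 Finset.univ := mem_Gm_zero.2 fun x hx =>
  pg_mem (hη 1 2 x (mem_UI_univ.1 hx 1) (mem_UI_univ.1 hx 2))
    (h x (mem_UI_univ.1 hx 1) (mem_UI_univ.1 hx 0))

theorem lifts_iff (hM : M ∈ On S.P) (h : Conn S M α) (hη : Coc S η) :
    Lifts S η M ↔ ob η α ∈ Cob S 0 := by
  constructor
  · rintro ⟨r, hr⟩
    have key : ∀ a b, r a - r b + pg (η a - η b) (α a) ∈ Gm S 0 {a, b} := fun a b =>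
      mem_Gm_zero.2 fun x hx => ((op_iff hM h (mem_UI_two.1 hx).1).1
        (hr a b x (mem_UI_two.1 hx).1 (mem_UI_two.1 hx).2)).2
    convert sub_mem (add_mem (cob01 (key 0 1)) (cob12 (key 1 2))) (cob02 (key 0 2)) using 1
    simp only [ob, map_sub, LinearMap.sub_apply]
    ring
  · intro h1
    obtain ⟨p, hp, q, hq, c, hc, e⟩ := mem_cob.1 h1
    simp only [ob, map_sub, LinearMap.sub_apply] at e
    let r : Fin 3 → F := ![-p - pg (η 0 - η 1) (α 0), 0, q + pg (η 1 - η 2) (α 1)]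
    have key : ∀ a b, r a - r b + pg (η a - η b) (α a) ∈ Gm S 0 {a, b} → ∀ x ∈ U S a, x ∈ U S b →
        Op (oR x) (nS M x) (η a - η b) (r a - r b) := fun a b h2 x ha hb =>
      (op_iff hM h ha).2 ⟨hη a b x ha hb, mem_Gm_zero.1 h2 x (mem_UI_two.2 ⟨ha, hb⟩)⟩
    have k0 := fun a => key a a (by simp)
    have k1 := key 0 1 (by simpa [r] using hp)
    have k2 := key 1 2 (by
      convert neg_mem hq using 1
      change 0 - (q + pg (η 1 - η 2) (α 1)) + _ = _
      ring)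
    have k3 := key 0 2 (by
      convert neg_mem hc using 1
      change -p - pg (η 0 - η 1) (α 0) - (q + pg (η 1 - η 2) (α 1)) + _ = _
      simp only [map_sub, LinearMap.sub_apply]
      linear_combination -e)
    have k4 : ∀ a b, (∀ x ∈ U S a, x ∈ U S b → Op (oR x) (nS M x) (η a - η b) (r a - r b)) →
        ∀ x ∈ U S b, x ∈ U S a → Op (oR x) (nS M x) (η b - η a) (r b - r a) :=
      fun a b h2 x hb ha => by simpa only [neg_sub] using (h2 x ha hb).neg
    refine ⟨r, fun a b => ?_⟩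
    fin_cases a <;> fin_cases b
    exacts [k0 0, k1, k3, k4 0 1 k1, k0 1, k2, k4 0 2 k3, k4 1 2 k2, k0 2]

theorem RV.add_smul {D' : Derivation ℂ F F} (h : RV x D) (h' : RV x D') (c : ℂ) :
    RV x (D + algebraMap ℂ F c • D') := fun f hf =>
  add_mem (h f hf) (mul_mem ((lp x).O.algebraMap_mem c) (h' f hf))

theorem h2Stmt : H2Stmt := by
  intro F _ _ Γ S B hΓ M hM ⟨η, hη, h0⟩ D r h
  obtain ⟨α, hα⟩ := exists_conn hM
  obtain ⟨tr, -, t1, t2⟩ := exists_tr (S := S) hΓ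
  have hob := ob_mem (α := α) hη fun x h1 h2 => conn_sub hM hα h1 h2
  have h1 : tr (ob η α) ≠ 0 := fun h1 => h0 ((lifts_iff hM hα hη).2 (t2 _ hob h1))
  obtain ⟨D₁, D₂, D₃, d1, d2, d3, rfl⟩ := h2_tangent (S := S) (D := D) hΓ B
    fun x hx => (h x (mem_UI_univ.1 hx)).1
  have hs : r + pg (D₃ - D₁ - D₂) (α 0) - pg D₂ (α 1 - α 0) ∈ Gm S 0 Finset.univ :=
    mem_Gm_zero.2 fun x hx => by
      have h2 := mem_UI_univ.1 hx
      exact sub_mem ((op_iff hM hα (h2 0)).1 (h x h2)).2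
        (pg_mem (d2 x (mem_UI_two.2 ⟨h2 1, h2 2⟩)) (conn_sub hM hα (h2 1) (h2 0)))
  obtain ⟨c, hc⟩ : ∃ c : ℂ, r + pg (D₃ - D₁ - D₂) (α 0) - pg D₂ (α 1 - α 0) - c • ob η α ∈
      Cob S 0 := ⟨_, t2 _ (sub_mem hs (smul_mem _ _ hob)) (by
        rw [map_sub, map_smul, smul_eq_mul, div_mul_cancel₀ _ h1, sub_self])⟩
  obtain ⟨p, hp, q, hq, u, hu, e⟩ := mem_cob.1 hc
  have key : ∀ (a b : Fin 3) (E : Derivation ℂ F F) (g : F), Fld S {a, b} E → g ∈ Gm S 0 {a, b} →
      ∀ x, x ∈ U S a → x ∈ U S b → Op (oR x) (nS M x) (E + algebraMap ℂ F c • (η a - η b))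
        (g - pg (E + algebraMap ℂ F c • (η a - η b)) (α a)) := fun a b E g hE hg x ha hb =>
    (op_iff hM hα ha).2 ⟨RV.add_smul (hE x (mem_UI_two.2 ⟨ha, hb⟩)) (hη a b x ha hb) c, by
      rw [sub_add_cancel]
      exact mem_Gm_zero.1 hg x (mem_UI_two.2 ⟨ha, hb⟩)⟩
  refine ⟨_, _, _, _, _, _, key 0 1 D₁ p d1 hp, key 1 2 D₂ q d2 hq, key 0 2 D₃ u d3 hu, ?_, ?_⟩
  · simp only [smul_sub]
    abel
  · simp only [ob, map_sub, map_add, map_smul, LinearMap.sub_apply, LinearMap.add_apply,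
      LinearMap.smul_apply, smul_eq_mul, Algebra.smul_def c] at e ⊢
    linear_combination e

theorem mvStmt : MvStmt := mv_of_h2 h2Stmt

end Crest.Agent.X262.Be94
end
end

-- ▼ part X262/Be94/Inj
section

/-!
# Row 262, G4 / TR (helper94), part 4: the pairing `H¹(T) × H¹(Ω¹) → ℂ` has no kernel on the right

* `Cf S ζ c`  : the covector `c` represents the one-form `ζ`;
* `exists_cf`, `exists_form` : regular forms and regular covectors;
* `inj`       : a finite family of first order deformations detects the class of a cocycle of forms.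
-/

set_option autoImplicit false
set_option linter.unusedSectionVars false

open MvPolynomial Submodule
open scoped KaehlerDifferential

noncomputable section

namespace Crest.Agent.X262.Be94

open Crest.Agent.X277 Crest.Agent.X277.Lef Crest.Agent.X277.AN.G1 Crest.Agent.X277.BD
open Crest.Agent.X277.BD.Br (On oP kP At at_y)
open Crest.Agent.X262.Top (Hyp)
open Crest.Agent.X262.Mv99

variable {F : Type} [Field F] [Algebra ℂ F] {Γ : MvPolynomial (Fin 4) ℂ} {S : Hyp 3 Γ F}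
  {I : Finset (Fin 3)} {ζ ζ' : Ω[F⁄ℂ]} {c c' : Fin 4 → F}

local notation "dd" => KaehlerDifferential.D ℂ F

variable (S) in
/-- `c` represents `ζ` -/
def Cf (ζ : Ω[F⁄ℂ]) (c : Fin 4 → F) : Prop := ∀ D b, Rep S D b → pg D ζ = c ⬝ᵥ b

theorem Cf.sub (h : Cf S ζ c) (h' : Cf S ζ' c') : Cf S (ζ - ζ') (c - c') := fun D b hb => by
  rw [map_sub, h D b hb, h' D b hb, sub_dotProduct]

theorem Cf.sub_pd (hΓ : Qt Γ) (h : Cf S ζ c) (g : F) : Cf S ζ (c - g • pd S) := fun D b hb => by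
  rw [h D b hb, sub_dotProduct, smul_dotProduct, dotProduct_comm (pd S), hb.tan hΓ, smul_zero,
    sub_zero]

theorem Cf.y (h : Cf S ζ c) : c ⬝ᵥ S.y = 0 := by
  have := h 0 _ (rep_y 1)
  rwa [one_smul, map_zero, LinearMap.zero_apply, eq_comm] at this

theorem Cf.uniq (h : Cf S ζ c) (h' : Cf S ζ' c) : ζ = ζ' :=
  sub_eq_zero.1 (eq_zero_of_pg fun D => by
    rw [h.sub h' D _ (rep_self D), sub_self, zero_dotProduct])

theorem tan_single {w : Fin 4 → F} (hw : w ⬝ᵥ pd S = 1) (i : Fin 4) :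
    (Pi.single i 1 - pd S i • w) ⬝ᵥ pd S = 0 := by
  rw [sub_dotProduct, smul_dotProduct, hw, single_dotProduct, one_mul, smul_eq_mul, mul_one,
    sub_self]

theorem Cf.zero (hΓ : Qt Γ) (B : Module.Basis (Fin 2) F Ω[F⁄ℂ]) (h : Cf S 0 c) {w : Fin 4 → F}
    (hw : w ⬝ᵥ pd S = 1) : c = (c ⬝ᵥ w) • pd S := funext fun i => by
  obtain ⟨D, hD⟩ := exists_rep hΓ B (tan_single hw i)
  have := h D _ hD
  rw [map_zero, dotProduct_sub, dotProduct_smul, dotProduct_single, mul_one, smul_eq_mul] at this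
  rw [Pi.smul_apply, smul_eq_mul]
  linear_combination -this

theorem exists_cf (hΓ : Qt Γ) (B : Module.Basis (Fin 2) F Ω[F⁄ℂ]) (hI : I.Nonempty)
    (h : ∀ x ∈ UI S I, ζ ∈ R1 x) : ∃ c, Cf S ζ c ∧ ∀ i, c i ∈ Gm S (-1) I := by
  obtain ⟨a, ha⟩ := hI
  obtain ⟨w, hw, hw1⟩ := exists_w (S := S) hΓ a
  choose E hE using fun i => exists_rep hΓ B (tan_single hw1 i)
  have h0 := S.y_ne a.castSucc
  refine ⟨fun i => pg (E i) ζ, fun D b hb => ?_, fun i => ?_⟩
  · have h1 : ∑ i, b i • (Pi.single i 1 - pd S i • w : Fin 4 → F) = b := by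
      simp only [smul_sub, Finset.sum_sub_distrib, smul_smul, ← Finset.sum_smul]
      rw [show ∑ i, b i * pd S i = 0 from hb.tan hΓ, zero_smul, sub_zero]
      exact (pi_eq_sum_univ' b).symm
    rw [hb.uniq (h1 ▸ Rep.sum Finset.univ fun i => (hE i).smul (b i)), map_sum,
      LinearMap.sum_apply, dotProduct_comm]
    simp only [map_smul, LinearMap.smul_apply, smul_eq_mul, dotProduct]
  · have h1 : Fld S I (S.y a.castSucc • E i) := ((hE i).smul _).fld ⟨a, ha⟩ fun j => by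
      refine gm_mul (gm_y _) (sub_mem ?_ (gm_mul (pd_mem hΓ ⟨a, ha⟩ i)
        (GmM.mono (Finset.singleton_subset_iff.2 ha) (hw j)) rfl)) (add_zero _)
      rw [Pi.single_apply]
      split_ifs
      exacts [gm_unit ⟨a, ha⟩, zero_mem _]
    have h2 := gm_div (e := -1) ha (mem_Gm_zero.2 fun x hx => pg_mem (h1 x hx) (h x hx)) rfl
    rwa [map_smul, LinearMap.smul_apply, smul_eq_mul, mul_div_cancel_left₀ _ h0] at h2

theorem exists_form {a : Fin 3} (hc : ∀ i, c i ∈ Gm S (-1) {a}) (h0 : c ⬝ᵥ S.y = 0) :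
    ∃ ρ, Cf S ρ c ∧ ∀ x ∈ U S a, ρ ∈ R1 x := by
  refine ⟨∑ i, (c i * S.y a.castSucc) • dd (S.y i / S.y a.castSucc), fun D b hb => ?_,
    fun x hx => sum_mem fun i _ => r1_mem (S := S)
      (mem_Gm_zero.1 (gm_mul (hc i) (gm_y _) rfl) x (mem_UI_one.2 hx)) (y_mem (P := S.P) hx i)⟩
  have h1 := S.y_ne a.castSucc
  have h2 : ∀ i : Fin 4, pg D ((c i * S.y a.castSucc) • dd (S.y i / S.y a.castSucc)) =
      c i * b i - b a.castSucc / S.y a.castSucc * (c i * S.y i) := fun i => by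
    rw [map_smul, pg_D, hb.div, smul_eq_mul]
    field_simp
  rw [map_sum, Finset.sum_congr rfl fun i _ => h2 i, Finset.sum_sub_distrib, ← Finset.mul_sum,
    show ∑ i : Fin 4, c i * S.y i = 0 from h0, mul_zero, sub_zero]
  rfl

/-- the deformations which are dual to the quartic forms -/
theorem exists_kap (hΓ : Qt Γ) (B : Module.Basis (Fin 2) F Ω[F⁄ℂ]) {m : Fin 4 → ℤ}
    (hm : m ∈ Ex 4 ∅) : ∃ (η : Fin 3 → Derivation ℂ F F) (v₁ v₂ : Fin 4 → F), Coc S η ∧
      Rep S (η 1 - η 2) (v₁ - v₂) ∧ (∀ i, v₁ i ∈ Gm S 1 {1}) ∧ (∀ i, v₂ i ∈ Gm S 1 {2}) ∧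
      v₂ ⬝ᵥ pd S = mon S.y m := by
  choose w hw hw1 using exists_w (S := S) hΓ
  have hv : ∀ a i, (mon S.y m • w a) i ∈ Gm S 1 {a} := fun a i =>
    gm_mul (gm_mon (by simp) hm) (hw a i) rfl
  have hd : ∀ a, (mon S.y m • w a) ⬝ᵥ pd S = mon S.y m := fun a => by
    rw [smul_dotProduct, hw1, smul_eq_mul, mul_one]
  choose η hη using fun a => exists_rep (S := S) (b := mon S.y m • w a - mon S.y m • w 2) hΓ B
    (by rw [sub_dotProduct, hd, hd, sub_self])
  have h1 : ∀ a b, Rep S (η a - η b) (mon S.y m • w a - mon S.y m • w b) := fun a b => by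
    simpa only [sub_sub_sub_cancel_right] using (hη a).sub (hη b)
  have h2 : ∀ a b, Fld S {a, b} (η a - η b) := fun a b =>
    (h1 a b).fld (by simp) fun i => sub_mem (gm_left (hv a i)) (gm_right (hv b i))
  exact ⟨η, _, _, coc_of (h2 0 1) (h2 1 2) (h2 0 2), h1 1 2, hv 1, hv 2, hd 2⟩

/-- a finite family of deformations which detects the classes of cocycles of forms -/
theorem inj (hΓ : Qt Γ) (B : Module.Basis (Fin 2) F Ω[F⁄ℂ]) :
    ∃ (J : Type) (_ : Finite J) (κ : J → Fin 3 → Derivation ℂ F F), (∀ j, Coc S (κ j)) ∧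
      ∀ ω : Fin 3 → Ω[F⁄ℂ], (∀ a b, ∀ x ∈ U S a, x ∈ U S b → ω a - ω b ∈ R1 x) →
        (∀ j, ob (κ j) ω ∈ Cob S 0) → ∃ ω₀, ∀ a, ∀ x ∈ U S a, ω a - ω₀ ∈ R1 x := by
  obtain ⟨θ, p, q, r, hθ, t1, hp, hq, hr, t2⟩ := exists_theta (S := S) hΓ B
  choose κ v₁ v₂ hκ k1 k2 k3 k4 using fun m : Ex 4 ∅ => exists_kap (S := S) hΓ B m.2
  have := finite_ex.to_subtype
  refine ⟨Option (Ex 4 ∅), inferInstance, fun j => j.elim θ κ, fun j => j.rec hθ hκ,
    fun ω hω h => ?_⟩
  have h1 : ∀ a b, ∃ c, Cf S (ω a - ω b) c ∧ ∀ i, c i ∈ Gm S (-1) {a, b} := fun a b =>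
    exists_cf hΓ B (by simp) fun x hx => hω a b x (mem_UI_two.1 hx).1 (mem_UI_two.1 hx).2
  obtain ⟨c₁, a1, b1⟩ := h1 0 1
  obtain ⟨c₂, a2, b2⟩ := h1 1 2
  obtain ⟨c₃, a3, b3⟩ := h1 0 2
  obtain ⟨w, hw, hw1⟩ := exists_w (S := S) hΓ 0
  have h2 : Cf S 0 (c₃ - c₁ - c₂) := by
    simpa only [sub_sub_sub_cancel_left, sub_sub_sub_cancel_right, sub_self] using
      (a3.sub a1).sub a2
  obtain ⟨g, hg, e⟩ : ∃ g ∈ Gm S (-4) Finset.univ, c₃ - c₁ - c₂ = g • pd S :=
    ⟨_, gm_dot (fun i => sub_mem (sub_mem (gm_univ (b3 i)) (gm_univ (b1 i))) (gm_univ (b2 i)))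
      (fun i => gm_univ (hw i)) rfl, h2.zero hΓ B hw1⟩
  have hob : ∀ {η : Fin 3 → Derivation ℂ F F} {c b : Fin 4 → F}, Cf S (ω 0 - ω 1) c →
      Rep S (η 1 - η 2) b → ob η ω = -(c ⬝ᵥ b) := fun hc hb => by
    rw [ob, ← neg_sub (ω 0), map_neg, hc _ _ hb]
  obtain ⟨g₁, f1, g₂, f2, g₃, f3, rfl⟩ := mem_cob.1 (perfect hΓ hg fun m hm => by
    have h3 : ob (κ ⟨m, hm⟩) ω ∈ Cob S 0 := h (some ⟨m, hm⟩)
    have h4 := congrArg (· ⬝ᵥ v₂ ⟨m, hm⟩) e
    simp only [sub_dotProduct, smul_dotProduct, dotProduct_comm (pd S), k4, smul_eq_mul] at h4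
    rw [hob a1 (k1 _), dotProduct_sub] at h3
    convert sub_mem (sub_mem (sub_mem
      (cob02 (gm_dot (e := 0) b3 (fun i => gm_right (k3 ⟨m, hm⟩ i)) rfl))
      (cob12 (gm_dot (e := 0) b2 (fun i => gm_right (k3 ⟨m, hm⟩ i)) rfl)))
      (cob01 (gm_dot (e := 0) b1 (fun i => gm_right (k2 ⟨m, hm⟩ i)) rfl))) h3 using 1
    linear_combination -h4)
  have e1 : c₁ - g₁ • pd S + (c₂ - g₂ • pd S) = c₃ - g₃ • pd S := by
    rw [sub_sub, sub_eq_iff_eq_add] at e
    rw [e, sub_smul, sub_smul]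
    abel
  have hc : ∀ {a b : Fin 3} {c : Fin 4 → F} {g : F}, (∀ i, c i ∈ Gm S (-1) {a, b}) →
      g ∈ Gm S (-4) {a, b} → ∀ i, (c - g • pd S) i ∈ Gm S (-1) {a, b} := fun hc hg i =>
    sub_mem (hc i) (gm_mul hg (pd_mem hΓ (by simp) i) rfl)
  choose u hu u1 u2 using fun i => Mv99.h1 hΓ (-1) (hc b1 f1 i) (hc b2 f2 i)
    ((congrFun e1 i).symm ▸ hc b3 f3 i : (c₁ - g₁ • pd S + (c₂ - g₂ • pd S)) i ∈ _)
  have a1' := a1.sub_pd hΓ g₁
  have a2' := a2.sub_pd hΓ g₂
  rw [show c₁ - g₁ • pd S = (fun i => u i 0) - fun i => u i 1 from funext u1] at a1'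
  rw [show c₂ - g₂ • pd S = (fun i => u i 1) - fun i => u i 2 from funext u2] at a2'
  have s1 := a1'.y
  have s2 := a2'.y
  rw [sub_dotProduct, sub_eq_zero] at s1 s2
  have hs : ∀ a, (fun i => u i a) ⬝ᵥ S.y = (fun i => u i 0) ⬝ᵥ S.y := fun a => by
    fin_cases a
    exacts [rfl, s1.symm, (s1.trans s2).symm]
  obtain ⟨t, ht⟩ := h0_zero (f := (fun i => u i 0) ⬝ᵥ S.y) hΓ fun a =>
    hs a ▸ gm_dot (fun i => hu i a) (fun i => gm_y i) rfl
  have h3 : t = 0 := by
    by_contra h3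
    refine eH_notMem (S := S) hΓ ((smul_mem_iff _ h3).1 ?_)
    have h4 : ob θ ω ∈ Cob S 0 := h none
    have h5 := congrArg ((fun i => u i 0) ⬝ᵥ ·) t2
    simp only [dotProduct_sub, dotProduct_smul, ht, smul_eq_mul] at h5
    rw [hob a1' t1, sub_dotProduct] at h4
    convert add_mem (sub_mem (sub_mem
      (cob02 (gm_dot (e := 0) (fun i => gm_left (hu i 0)) hr rfl))
      (cob01 (gm_dot (e := 0) (fun i => gm_left (hu i 0)) hp rfl)))
      (cob12 (gm_dot (e := 0) (fun i => gm_left (hu i 1)) hq rfl))) h4 using 1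
    rw [Algebra.smul_def]
    linear_combination h5
  choose ρ r1 r2 using fun a => exists_form (S := S) (fun i => hu i a)
    (by rw [hs, ht, h3, map_zero])
  have e2 := a1'.uniq ((r1 0).sub (r1 1))
  have e3 := a2'.uniq ((r1 1).sub (r1 2))
  refine ⟨ω 0 - ρ 0, fun a x hx => ?_⟩
  convert r2 a x hx using 1
  fin_cases a
  · exact sub_sub_cancel _ _
  · change ω 1 - _ = ρ 1
    linear_combination (norm := abel) -e2
  · change ω 2 - _ = ρ 2
    linear_combination (norm := abel) -e2 - e3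

end Crest.Agent.X262.Be94
end
end

-- ▼ part X262/Rsd/Loc
section

/-!
# Row 262, RSD (helper86), part 1: derivations at a divisorial valuation

* `Rd δ V`    : the values `∑ x * δ y`, `x, y ∈ V`;
* `der_bdd`   : a derivation is bounded on `V`; `exists_res_der` : the induced derivation;
* `der_le`    : a bound on residual coordinates and on a uniformiser is a bound on `V`;
* `exists_lift` : derivations of the residue field lift;
* `res_unique`  : uniqueness of residues on a curve.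
-/

set_option autoImplicit false

noncomputable section

namespace Crest.Agent.X262.Rsd

open Crest.Agent.X277 Crest.Agent.X277.BD Crest.Agent.X277.Pst Crest.Agent.X277.BD.Cyc
open Crest.Agent.X277.Neg (nv nv_triv IsNv isNv_nv)
open Crest.Agent.X262.Geo
open WithZero KaehlerDifferential

variable {k F : Type} [Field k] [Field F] [Algebra k F]

/-- the values of the regular forms on a derivation -/
def Rd (δ : Derivation k F F) (V : RZ k F) : AddSubgroup F :=
  AddSubgroup.closure {z | ∃ x ∈ V.1, ∃ y ∈ V.1, z = x * δ y}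

variable {δ : Derivation k F F} {V : RZ k F} {x y z : F}

theorem Rd.le {Γ : Type} [LinearOrderedCommGroupWithZero Γ] {v : Valuation F Γ} {β : Γ}
    (h1 : ∀ x ∈ V.1, v x ≤ 1) (h2 : ∀ x ∈ V.1, v (δ x) ≤ β) (hz : z ∈ Rd δ V) : v z ≤ β := by
  induction hz using AddSubgroup.closure_induction with
  | mem z hz =>
    obtain ⟨x, hx, y, hy, rfl⟩ := hz
    rw [map_mul]
    exact (mul_le_of_le_one_left' (h1 x hx)).trans (h2 y hy)
  | zero => simp
  | add a b _ _ ha hb => exact (v.map_add a b).trans (max_le ha hb)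
  | neg a _ ha => rwa [Valuation.map_neg]

theorem dlog_mul (hx : x ≠ 0) (hy : y ≠ 0) : δ (x * y) / (x * y) = δ x / x + δ y / y := by
  rw [Derivation.leibniz, smul_eq_mul, smul_eq_mul]
  field_simp
  ring

theorem dlog_div (hx : x ≠ 0) (hy : y ≠ 0) : δ (x / y) / (x / y) = δ x / x - δ y / y := by
  have h := dlog_mul (δ := δ) (div_ne_zero hx hy) hy
  rw [div_mul_cancel₀ _ hy] at h
  rw [h, add_sub_cancel_right]

theorem dlog_zpow (hx : x ≠ 0) (m : ℤ) : δ (x ^ m) / x ^ m = m * (δ x / x) := by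
  rw [Derivation.leibniz_zpow, zpow_sub_one₀ hx, smul_eq_mul, zsmul_eq_mul]
  have := zpow_ne_zero m hx
  field_simp

theorem dlog_mem (hx : V.v x = 1) : δ x / x ∈ Rd δ V :=
  AddSubgroup.subset_closure ⟨x⁻¹, RZ.le_one_iff.1 (by rw [map_inv₀, hx, inv_one]), x,
    RZ.le_one_iff.1 hx.le, by rw [div_eq_inv_mul]⟩

/-- the derivation induced on the residue field -/
theorem exists_res_der (h1 : ∀ x ∈ V.1, δ x ∈ V.1) (h2 : ∀ x, V.v x < 1 → V.v (δ x) < 1) :
    ∃ d : Rf V →+ Rf V, (∀ x ∈ V.1, d ((plV V).r x) = (plV V).r (δ x)) ∧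
      (∀ a b, d (a * b) = a * d b + b * d a) ∧ ∀ c : k, d (algebraMap k (Rf V) c) = 0 := by
  choose s hs using surj_plV V
  have hs' : ∀ a, (plV V).r (s a : F) = a := fun a => ((plV V).r_coe _).trans (hs a)
  have key : ∀ x ∈ V.1, (plV V).r (δ (s ((plV V).r x) : F)) = (plV V).r (δ x) := fun x hx => by
    have h3 : (s ((plV V).r x) : F) ∈ V.1 := (s _).2
    have h4 := (Pl.r_eq_zero (p := plV V) (sub_mem h3 hx)).1
      (by rw [Pl.r_sub (p := plV V) h3 hx, hs', sub_self])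
    have h5 := (Pl.r_eq_zero (p := plV V) (h1 _ (sub_mem h3 hx))).2 (h2 _ h4)
    rwa [map_sub, Pl.r_sub (p := plV V) (h1 _ h3) (h1 _ hx), sub_eq_zero] at h5
  have hm : ∀ a, (s a : F) ∈ V.1 := fun a => (s a).2
  refine ⟨AddMonoidHom.mk' (fun a => (plV V).r (δ (s a : F))) fun a b => ?_, key, fun a b => ?_,
    fun c => ?_⟩
  · have h := key _ (add_mem (hm a) (hm b))
    rwa [Pl.r_add (p := plV V) (hm a) (hm b), hs', hs', map_add,
      Pl.r_add (p := plV V) (h1 _ (hm a)) (h1 _ (hm b))] at h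
  · have h := key _ (mul_mem (hm a) (hm b))
    rw [Pl.r_mul (p := plV V) (hm a) (hm b), hs', hs', Derivation.leibniz, smul_eq_mul, smul_eq_mul,
      Pl.r_add (p := plV V) (mul_mem (hm a) (h1 _ (hm b))) (mul_mem (hm b) (h1 _ (hm a))),
      Pl.r_mul (p := plV V) (hm a) (h1 _ (hm b)), Pl.r_mul (p := plV V) (hm b) (h1 _ (hm a)),
      hs', hs'] at h
    exact h
  · have h := key _ (V.2 c)
    rw [lnr_plV V c, Derivation.map_algebraMap, Pl.r_zero] at h
    exact h

variable [CharZero k] [Algebra.EssFiniteType k F]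

/-- a derivation is bounded on a divisorial valuation ring -/
theorem der_bdd (hV : Dvs V) (δ : Derivation k F F) : ∃ γ, ∀ x ∈ V.1, nv V (δ x) ≤ γ := by
  classical
  obtain ⟨M, D, rfl⟩ := exists_mdl_pdiv hV
  rw [nv_rzD]
  obtain ⟨i, hi⟩ := AN.G2.exists_ch (X := M.X) D.2.ov
  obtain ⟨s, hs⟩ := M.X.A_fg (Finset.singleton_nonempty i)
  let γ := s.sup (fun a => D.v (δ a)) ⊔ Finset.univ.sup fun j => D.v (δ (M.X.t j / M.X.t i))
  have h0 : ∀ a ∈ M.X.A {i}, D.v a ≤ 1 := hi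
  have hR := M.X.R_le (Finset.singleton_nonempty i)
  have h1 : ∀ a ∈ M.X.toCoord.R {i}, D.v (δ a) ≤ γ := fun a ha => by
    induction ha using Algebra.adjoin_induction with
    | mem a ha =>
      obtain ⟨i', hi', j, rfl⟩ := ha
      rw [Finset.mem_singleton.1 hi']
      exact le_sup_of_le_right
        (Finset.le_sup (f := fun j => D.v (δ (M.X.t j / M.X.t i))) (Finset.mem_univ j))
    | algebraMap c => simp
    | add a b _ _ ha hb => rw [map_add]; exact (D.v.map_add _ _).trans (max_le ha hb)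
    | mul a b ha' hb' ha hb =>
      rw [Derivation.leibniz, smul_eq_mul, smul_eq_mul]
      refine (D.v.map_add _ _).trans (max_le ?_ ?_) <;> rw [map_mul]
      · exact (mul_le_of_le_one_left' (h0 _ (hR ha'))).trans hb
      · exact (mul_le_of_le_one_left' (h0 _ (hR hb'))).trans ha
  have h2 : ∀ a ∈ M.X.A {i}, D.v (δ a) ≤ γ := fun a ha => by
    have h3 : a ∈ Submodule.span (M.X.toCoord.R {i}) (s : Set F) := by rwa [← SetLike.mem_coe, hs]
    clear ha
    induction h3 using Submodule.span_induction with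
    | mem a ha => exact le_sup_of_le_left (Finset.le_sup (f := fun a => D.v (δ a)) ha)
    | zero => simp
    | add a b _ _ ha hb => rw [map_add]; exact (D.v.map_add _ _).trans (max_le ha hb)
    | smul c a ha' ha =>
      have h4 : a ∈ M.X.A {i} := by rwa [← SetLike.mem_coe, ← hs]
      change D.v (δ ((c : F) * a)) ≤ γ
      rw [Derivation.leibniz, smul_eq_mul, smul_eq_mul]
      refine (D.v.map_add _ _).trans (max_le ?_ ?_) <;> rw [map_mul]
      · exact (mul_le_of_le_one_left' (h0 _ (hR c.2))).trans ha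
      · exact (mul_le_of_le_one_left' (h0 _ h4)).trans (h1 _ c.2)
  refine ⟨γ, fun x hx => ?_⟩
  obtain ⟨b, hb, hb1, hbx⟩ := D.2.loc i hi x hx
  have h3 : b * δ x = δ (b * x) - x * δ b := by
    rw [Derivation.leibniz, smul_eq_mul, smul_eq_mul, add_sub_cancel_right]
  have h4 : D.v (δ x) = D.v (b * δ x) := by rw [map_mul, show D.v b = 1 from hb1, one_mul]
  rw [h4, h3]
  refine (D.v.map_sub _ _).trans (max_le (h2 _ hbx) ?_)
  rw [map_mul]
  exact (mul_le_of_le_one_left' hx).trans (h2 _ hb)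

theorem div_mem_of_lt (hV : Dvs V) (hz : nv V z = exp (-1)) (hx : V.v x < 1) : x / z ∈ V.1 := by
  rw [← nv_le_one hV, map_div₀, hz, div_le_one₀ exp_pos]
  have h := (nv_lt_one hV).2 hx
  by_cases h0 : nv V x = 0
  · simp [h0]
  · rw [← exp_log h0, ← exp_zero, exp_lt_exp] at h
    rw [← exp_log h0, exp_le_exp]
    omega

omit [CharZero k] [Algebra.EssFiniteType k F] in
theorem ne_of_unif (hz : nv V z = exp (-1)) : z ≠ 0 := fun h => by
  rw [h, map_zero] at hz
  exact exp_ne_zero hz.symm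

/-- a bound on residual coordinates and on a uniformiser is a bound on the valuation ring -/
theorem der_le (hV : Dvs V) {ι : Type} {y : ι → F} (hy : ∀ i, y i ∈ V.1)
    (hb : IsTranscendenceBasis k fun i => (plV V).r (y i)) (hz : nv V z = exp (-1)) {β : ℤᵐ⁰}
    (h1 : ∀ i, nv V (δ (y i)) ≤ β) (h2 : nv V (δ z) ≤ β) : ∀ x ∈ V.1, nv V (δ x) ≤ β := by
  by_contra hc
  push Not at hc
  obtain ⟨γ, hγ⟩ := der_bdd hV δ
  obtain ⟨m, ⟨x0, hx0, h3, h4⟩, h5⟩ := Int.exists_greatest_of_bdd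
    (P := fun m => ∃ x ∈ V.1, nv V (δ x) = exp m ∧ β < exp m)
    ⟨log γ, fun m ⟨x, hx, h, _⟩ => le_log_of_exp_le (h ▸ hγ x hx)⟩ (by
      obtain ⟨x, hx, h⟩ := hc
      have h0 := (zero_le.trans_lt h).ne'
      exact ⟨log (nv V (δ x)), x, hx, (exp_log h0).symm, by rwa [exp_log h0]⟩)
  have h6 : ∀ x ∈ V.1, nv V (δ x) ≤ exp m := fun x hx => by
    rcases le_or_gt (nv V (δ x)) β with h | h
    · exact h.trans h4.le
    · have h0 := (zero_le.trans_lt h).ne'
      rw [← exp_log h0, exp_le_exp]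
      exact h5 _ ⟨x, hx, (exp_log h0).symm, by rwa [exp_log h0]⟩
  have hπ : δ x0 ≠ 0 := fun h => by
    rw [h, map_zero] at h3
    exact exp_ne_zero h3.symm
  let D : Derivation k F F := (δ x0)⁻¹ • δ
  have hD : ∀ x, nv V (D x) = nv V (δ x) / exp m := fun x => by
    rw [Derivation.smul_apply, smul_eq_mul, map_mul, map_inv₀, h3, div_eq_inv_mul]
  have h7 : ∀ x ∈ V.1, D x ∈ V.1 := fun x hx => by
    rw [← nv_le_one hV, hD, div_le_one₀ exp_pos]
    exact h6 x hx
  have h8 : ∀ x, nv V (δ x) ≤ β → V.v (D x) < 1 := fun x hx => by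
    rw [← nv_lt_one hV, hD, div_lt_one₀ exp_pos]
    exact hx.trans_lt h4
  have hz1 : V.v z < 1 := by rw [← nv_lt_one hV, hz, ← exp_zero, exp_lt_exp]; omega
  obtain ⟨d, hd, hm, h0⟩ := exists_res_der h7 fun x hx => by
    have hu := div_mem_of_lt hV hz hx
    rw [← div_mul_cancel₀ x (ne_of_unif hz), Derivation.leibniz, smul_eq_mul, smul_eq_mul]
    refine V.v.map_add_lt ?_ ?_ <;> rw [map_mul]
    · exact (mul_le_of_le_one_left' (RZ.le_one_iff.2 hu)).trans_lt (h8 z h2)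
    · exact (mul_le_of_le_one_right' (RZ.le_one_iff.2 (h7 _ hu))).trans_lt hz1
  have h9 := Tri.BC.zero_of_tb hb (RingHom.id _) d hm h0
    (fun i => (hd _ (hy i)).trans ((Pl.r_eq_zero (p := plV V) (h7 _ (hy i))).2 (h8 _ (h1 i))))
    ((plV V).r x0)
  rw [hd _ hx0, Derivation.smul_apply, smul_eq_mul, inv_mul_cancel₀ hπ, Pl.r_one] at h9
  exact one_ne_zero h9

omit [CharZero k] [Algebra.EssFiniteType k F] in
theorem eq_zero_of_on (h : ∀ x ∈ V.1, δ x = 0) : δ = 0 := by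
  ext x
  rcases V.1.mem_or_inv_mem x with hx | hx
  · exact h x hx
  · rw [← inv_inv x, Derivation.leibniz_inv, h _ hx, smul_zero, Derivation.zero_apply]

theorem exists_tb (F : Type) [Field F] [Algebra k F] [Algebra.EssFiniteType k F] :
    ∃ t : Fin (dim k F) → F, IsTranscendenceBasis k t := by
  obtain ⟨t, ht⟩ := exists_isTranscendenceBasis k F
  have h1 := ht.cardinalMk_eq_trdeg
  rw [trdeg_eq_dim] at h1
  obtain ⟨e⟩ := Cardinal.mk_eq_nat_iff.1 h1
  exact ⟨_, ht.comp_equiv e.symm⟩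

/-- residual coordinates -/
theorem exists_crd (hV : Dvs V) : ∃ y : Fin (dim k (Rf V)) → F, (∀ i, y i ∈ V.1) ∧
    IsTranscendenceBasis k fun i => (plV V).r (y i) := by
  have := essFT_Rf hV
  obtain ⟨t, ht⟩ := exists_tb (k := k) (Rf V)
  choose y hy using fun i => surj_plV V (t i)
  refine ⟨fun i => y i, fun i => (y i).2, ?_⟩
  simpa only [Pl.r_coe, hy] using ht

/-- derivations of the residue field lift -/
theorem exists_lift (hV : Dvs V) (d : Derivation k (Rf V) (Rf V)) : ∃ δ : Derivation k F F,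
    ∀ x ∈ V.1, δ x ∈ V.1 ∧ (plV V).r (δ x) = d ((plV V).r x) := by
  have := essFT_Rf hV
  obtain ⟨y, hy, hb⟩ := exists_crd hV
  obtain ⟨z, hz⟩ := nv_unif hV
  obtain ⟨t, ht⟩ := exists_tb (k := k) F
  obtain ⟨b0, -⟩ := R023.Ax952.exists_diffBasis ht
  let w : Option (Fin (dim k (Rf V))) → Ω[F⁄k] := fun o => D k F (o.elim z y)
  have h1 : ⊤ ≤ Submodule.span F (Set.range w) := by
    by_contra h
    obtain ⟨f, hf, h2⟩ := Submodule.exists_le_ker_of_lt_top _
      (lt_top_iff_ne_top.2 fun h' => h h'.ge)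
    have h3 : ∀ o, f (w o) = 0 := fun o => h2 (Submodule.subset_span ⟨o, rfl⟩)
    have h4 : linearMapEquivDerivation k F f = 0 := eq_zero_of_on fun x hx => by
      have h5 := der_le (δ := linearMapEquivDerivation k F f) hV hy hb hz (β := 0)
        (fun i => by simpa [w] using h3 (some i)) (by simpa [w] using h3 none) x hx
      simpa using h5
    exact hf ((linearMapEquivDerivation k F).map_eq_zero_iff.1 h4)
  have hcd : Fintype.card (Option (Fin (dim k (Rf V)))) = Module.finrank F Ω[F⁄k] := by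
    rw [Module.finrank_eq_card_basis b0]
    simp [dim_Rf' hV]
  let b := basisOfTopLeSpanOfCardEqFinrank w h1 hcd
  choose s hs using surj_plV V
  let δ := linearMapEquivDerivation k F
    (b.constr F fun o => o.elim (0 : F) fun i => s (d ((plV V).r (y i))))
  have h2 : ∀ o, δ (Option.elim o z y) = o.elim (0 : F) fun i => s (d ((plV V).r (y i))) :=
    fun o => by
      change b.constr F _ (w o) = _
      rw [← congrFun (coe_basisOfTopLeSpanOfCardEqFinrank w h1 hcd) o, Module.Basis.constr_basis]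
  have h3 : δ z = 0 := h2 none
  have h4 : ∀ i, δ (y i) = s (d ((plV V).r (y i))) := fun i => h2 (some i)
  have h5 : ∀ x ∈ V.1, δ x ∈ V.1 := fun x hx => (nv_le_one hV).1
    (der_le hV hy hb hz (fun i => (nv_le_one hV).2 (h4 i ▸ (s _).2)) (by simp [h3]) x hx)
  have hz1 : V.v z < 1 := by rw [← nv_lt_one hV, hz, ← exp_zero, exp_lt_exp]; omega
  obtain ⟨d', hd, hm, h0⟩ := exists_res_der h5 fun x hx => by
    have hu := div_mem_of_lt hV hz hx
    rw [← div_mul_cancel₀ x (ne_of_unif hz), Derivation.leibniz, h3, smul_zero, zero_add,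
      smul_eq_mul, map_mul]
    exact (mul_le_of_le_one_right' (RZ.le_one_iff.2 (h5 _ hu))).trans_lt hz1
  refine ⟨δ, fun x hx => ⟨h5 x hx, ?_⟩⟩
  have h6 := Tri.BC.zero_of_tb hb (RingHom.id _) (d' - d.toLinearMap.toAddMonoidHom)
    (fun a b => by
      change d' (a * b) - d (a * b) = a * (d' b - d b) + b * (d' a - d a)
      rw [hm, Derivation.leibniz, smul_eq_mul, smul_eq_mul]
      ring)
    (fun c => by
      change d' _ - d _ = 0
      rw [h0, Derivation.map_algebraMap, sub_self])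
    (fun i => by
      change d' _ - d _ = 0
      rw [hd _ (hy i), h4, Pl.r_coe, hs, sub_self]) ((plV V).r x)
  rw [← hd x hx]
  exact sub_eq_zero.1 h6

/-- **uniqueness of residues** at a point of a curve -/
theorem res_unique (hV : Dvs V) (hd : dim k F = 1) (hδ : δ ≠ 0) {J : Type} [Fintype J] (g : F)
    {y : J → F} (hy : ∀ j, y j ≠ 0) (c : J → k)
    (h : δ g + ∑ j, c j • (δ (y j) / y j) ∈ Rd δ V) :
    ∑ j, c j * ((log (nv V (y j)) : ℤ) : k) = 0 := by
  obtain ⟨t, ht, hb⟩ := exists_crd hV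
  obtain ⟨z, hz⟩ := nv_unif hV
  have hz0 := ne_of_unif hz
  have he : IsEmpty (Fin (dim k (Rf V))) := by
    have h1 := dim_Rf' hV
    rw [show dim k (Rf V) = 0 by omega]
    infer_instance
  have h1 := der_le (δ := δ) hV ht hb hz (fun i => he.elim i) le_rfl
  have h2 : ∀ w ∈ Rd δ V, nv V w ≤ nv V (δ z) := fun w => Rd.le (fun _ => (nv_le_one hV).2) h1
  have h3 : δ z ≠ 0 := fun h0 => hδ (eq_zero_of_on fun x hx => by simpa [h0] using h1 x hx)
  have h4 : ∀ x, x ≠ 0 → δ x / x + ((log (nv V x) : ℤ) : F) * (δ z / z) ∈ Rd δ V := fun x hx => by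
    rw [← dlog_zpow hz0, ← dlog_mul hx (zpow_ne_zero _ hz0)]
    refine dlog_mem ((nv_eq_one hV).1 ?_)
    rw [map_mul, map_zpow₀, hz, ← exp_zsmul, smul_neg, zsmul_one, Int.cast_id, exp_neg,
      exp_log ((map_ne_zero _).2 hx), mul_inv_cancel₀ ((map_ne_zero _).2 hx)]
  have h5 : nv V (δ z) < nv V (δ z / z) := by
    rw [map_div₀, hz, exp_neg, div_inv_eq_mul]
    exact lt_mul_of_one_lt_right (zero_lt_iff.2 ((map_ne_zero _).2 h3))
      (by rw [← exp_zero, exp_lt_exp]; omega)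
  have hc : ∀ c : k, c ≠ 0 → nv V (algebraMap k F c) = 1 := fun c hc =>
    (nv_eq_one hV).2 (V.v_alg hc)
  have h6 : nv V (δ g - (∑ j, c j * ((log (nv V (y j)) : ℤ) : k)) • (δ z / z)) ≤ nv V (δ z) := by
    have h7 : δ g - (∑ j, c j * ((log (nv V (y j)) : ℤ) : k)) • (δ z / z) =
        δ g + ∑ j, c j • (δ (y j) / y j) -
          ∑ j, c j • (δ (y j) / y j + ((log (nv V (y j)) : ℤ) : F) * (δ z / z)) := by
      simp only [smul_add, Finset.sum_add_distrib, Finset.sum_smul, mul_smul, ← zsmul_eq_mul,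
        Int.cast_smul_eq_zsmul]
      abel
    rw [h7]
    refine ((nv V).map_sub _ _).trans (max_le (h2 _ h) ((nv V).map_sum_le fun j _ => ?_))
    rw [Algebra.smul_def, map_mul]
    exact (mul_le_of_le_one_left' (nv_triv V _)).trans (h2 _ (h4 _ (hy j)))
  generalize ∑ j, c j * ((log (nv V (y j)) : ℤ) : k) = C at h6
  by_cases hg : g ∈ V.1
  · by_contra hC
    have h7 : C • (δ z / z) = δ g - (δ g - C • (δ z / z)) := by abel
    have h8 := (h7 ▸ (nv V).map_sub _ _).trans (max_le (h1 g hg) h6)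
    rw [Algebra.smul_def, map_mul, hc C hC, one_mul] at h8
    exact absurd h5 h8.not_gt
  · exfalso
    have hg0 : g ≠ 0 := fun h0 => hg (h0 ▸ zero_mem _)
    have h7 : 1 < nv V g := not_le.1 fun h => hg ((nv_le_one hV).1 h)
    have h8 : ((log (nv V g) : ℤ) : k) ≠ 0 := by
      have := lt_log_of_exp_lt (show exp (0 : ℤ) < nv V g by rwa [exp_zero])
      exact Int.cast_ne_zero.2 this.ne'
    have h9 : nv V (((log (nv V g) : ℤ) : F) * (δ z / z)) = nv V (δ z / z) := by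
      rw [map_mul, ← map_intCast (algebraMap k F), hc _ h8, one_mul]
    have h10 : nv V (δ g / g) = nv V (δ z / z) := by
      rw [← h9, ← Valuation.map_neg _ (_ * _)]
      refine Valuation.map_eq_of_sub_lt _ ?_
      rw [sub_neg_eq_add, Valuation.map_neg, h9]
      exact (h2 _ (h4 g hg0)).trans_lt h5
    have h11 : nv V (δ g) ≤ nv V (δ z / z) := by
      rw [← sub_add_cancel (δ g) (C • (δ z / z))]
      refine ((nv V).map_add _ _).trans (max_le (h6.trans h5.le) ?_)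
      rw [Algebra.smul_def, map_mul]
      exact mul_le_of_le_one_left' (nv_triv V _)
    rw [← div_mul_cancel₀ (δ g) hg0, map_mul, h10] at h11
    exact absurd (lt_mul_of_one_lt_right (zero_le.trans_lt h5) h7) h11.not_gt

end Crest.Agent.X262.Rsd
end
end

-- ▼ part X262/Rsd/Main
section

/-!
# Row 262, RSD (helper86), part 2: the residue theorem

* `exists_pf`    : partial fractions; `sum_of_od` : a local relation is a numerical relation;
* `curve`        : the residue theorem on a curve (average over the Galois group);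
* `Lg a c`, `bnum_of_lg` : any dimension, logarithmic poles, derivations;
* `Rg V`, `bnum_of_log`  : the same for a differential form.
-/

set_option autoImplicit false

noncomputable section

namespace Crest.Agent.X262.Rsd

open Crest.Agent.X277 Crest.Agent.X277.BD Crest.Agent.X277.Pst Crest.Agent.X277.BD.Cyc
open Crest.Agent.X277.Neg (nv nv_triv IsNv isNv_nv)
open Crest.Agent.X262.Geo
open WithZero KaehlerDifferential Polynomial

variable {k F : Type} [Field k] [Field F] [Algebra k F] [CharZero k]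

section PF

variable {δ : Derivation k F F} {t : F}

/-- exact values and simple fractions -/
def PF (δ : Derivation k F F) (t : F) : Submodule k F :=
  LinearMap.range δ.toLinearMap ⊔ Submodule.span k (Set.range fun α : k => (t - algebraMap k F α)⁻¹)

theorem zpow_mem (ht : δ t = 1) (α : k) (m : ℤ) : (t - algebraMap k F α) ^ m ∈ PF δ t := by
  have h1 : δ (t - algebraMap k F α) = 1 := by rw [map_sub, ht, Derivation.map_algebraMap, sub_zero]
  by_cases hm : m = -1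
  · rw [hm, zpow_neg_one]
    exact Submodule.mem_sup_right (Submodule.subset_span ⟨α, rfl⟩)
  · have h2 : ((m + 1 : ℤ) : k) ≠ 0 := Int.cast_ne_zero.2 (by omega)
    refine Submodule.mem_sup_left ⟨((m + 1 : ℤ) : k)⁻¹ • (t - algebraMap k F α) ^ (m + 1), ?_⟩
    change δ _ = _
    rw [Derivation.map_smul, Derivation.leibniz_zpow, h1, smul_eq_mul, mul_one, add_sub_cancel_right,
      ← Int.cast_smul_eq_zsmul k, smul_smul, inv_mul_cancel₀ h2, one_smul]

theorem aeval_mem (ht : δ t = 1) (p : k[X]) : aeval t p ∈ PF δ t := by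
  induction p using Polynomial.induction_on' with
  | add p q hp hq => exact map_add (aeval t) p q ▸ add_mem hp hq
  | monomial n c =>
    rw [aeval_monomial, ← Algebra.smul_def]
    simpa using Submodule.smul_mem _ c (zpow_mem ht 0 n)

theorem div_mem [IsAlgClosed k] (ht : δ t = 1) (h0 : Transcendental k t) (n : ℕ) :
    ∀ p q : k[X], q.natDegree = n → aeval t p / aeval t q ∈ PF δ t := by
  induction n with
  | zero =>
    intro p q hq
    rw [eq_C_of_natDegree_eq_zero hq, aeval_C, div_eq_inv_mul, ← map_inv₀, ← Algebra.smul_def]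
    exact Submodule.smul_mem _ _ (aeval_mem ht p)
  | succ n ih =>
    intro p q hq
    have hq0 : q ≠ 0 := fun h => by simp [h] at hq
    obtain ⟨α, hα⟩ := IsAlgClosed.exists_root q (by rw [degree_eq_natDegree hq0, hq]; norm_cast)
    obtain ⟨q1, h1, h2⟩ := exists_eq_pow_rootMultiplicity_mul_and_not_dvd q hq0 α
    obtain ⟨m, hm⟩ := Nat.exists_eq_succ_of_ne_zero ((rootMultiplicity_pos hq0).2 hα).ne'
    rw [hm] at h1
    have h3 : q1.eval α ≠ 0 := fun h => h2 (dvd_iff_isRoot.2 h)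
    have h4 : q1 ≠ 0 := fun h => h3 (by simp [h])
    obtain ⟨p1, h5⟩ : X - C α ∣ p - C (p.eval α / q1.eval α) * q1 :=
      dvd_iff_isRoot.2 (by simp [div_mul_cancel₀ _ h3])
    have h6 : ∀ r : k[X], r ≠ 0 → aeval t r ≠ 0 := fun r hr h => h0 ⟨r, hr, h⟩
    have h7 := h6 _ (X_sub_C_ne_zero α)
    have h8 := h6 _ h4
    have h9 := ih p1 ((X - C α) ^ m * q1) (by
      rw [h1, pow_succ, mul_right_comm, natDegree_mul
        (mul_ne_zero (pow_ne_zero _ (X_sub_C_ne_zero α)) h4) (X_sub_C_ne_zero α),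
        natDegree_X_sub_C] at hq
      omega)
    have h10 := Submodule.smul_mem _ (p.eval α / q1.eval α) (zpow_mem ht α (-(m + 1 : ℕ)))
    generalize p.eval α / q1.eval α = e at h5 h10
    convert add_mem h9 h10 using 1
    rw [h1, eq_add_of_sub_eq h5, zpow_neg, zpow_natCast, Algebra.smul_def, Nat.succ_eq_add_one]
    simp only [map_add, map_mul, map_pow, map_sub, aeval_X, aeval_C] at h7 ⊢
    field_simp
    ring

omit [CharZero k] in
/-- partial fractions -/
theorem exists_pf {h : F} (hh : h ∈ PF δ t) : ∃ (G : F) (n : ℕ) (ρ α : Fin n → k),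
    h = δ G + ∑ i, ρ i • (t - algebraMap k F (α i))⁻¹ := by
  obtain ⟨_, ⟨G, rfl⟩, w, hw, rfl⟩ := Submodule.mem_sup.1 hh
  obtain ⟨n, ρ, g, rfl⟩ := Submodule.mem_span_set'.1 hw
  choose α hα using fun i => (g i).2
  exact ⟨G, n, ρ, α, by simp only [← hα]; rfl⟩

end PF

variable [Algebra.EssFiniteType k F]

/-- the cycle formula for a finite set of classes, with one set of primes -/
theorem exists_cyc' (L : List (BD k F)) : ∃ T : Finset (RZ k F), (∀ V ∈ T, Dvs V) ∧
    ∀ a ∈ L, ∀ l : List (BD k F), (∀ b ∈ l, b ∈ L) → bnum (a :: l) = ∑ V ∈ T, od V a * dg V l := by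
  obtain ⟨H, h1, -, -, -, h4⟩ := exists_model Free.zero ∅ (by simp) L
  have h5 : {V | Prm H V ∧ ∃ a ∈ L, od V a ≠ 0}.Finite :=
    ((List.finite_toSet L).biUnion fun a _ => fin_od h1 a).subset fun V ⟨h, a, ha, h'⟩ =>
      Set.mem_biUnion ha ⟨h, h'⟩
  exact ⟨h5.toFinset, fun V hV => (h5.mem_toFinset.1 hV).1.dvs, fun a ha l hl =>
    bnum_cyc h1 (h4 a ha) (fun b hb => h4 b (hl b hb)) (fun V hV => (h5.mem_toFinset.1 hV).1)
      fun V hV h => h5.mem_toFinset.2 ⟨hV, a, ha, h⟩⟩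

variable {J : Type} [Fintype J]

theorem sum_of_od {a : J → BD k F} {c : J → k}
    (h : ∀ V, Dvs V → ∑ j, c j * (od V (a j) : k) = 0) (l : List (BD k F)) :
    ∑ j, c j * (bnum (a j :: l) : k) = 0 := by
  obtain ⟨T, h1, h2⟩ := exists_cyc' (Finset.univ.toList.map a ++ l)
  have h3 : ∀ j, bnum (a j :: l) = ∑ V ∈ T, od V (a j) * dg V l := fun j =>
    h2 _ (by simp) l fun b hb => by simp [hb]
  simp only [h3, Int.cast_sum, Int.cast_mul, Finset.mul_sum, ← mul_assoc]
  rw [Finset.sum_comm]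
  exact Finset.sum_eq_zero fun V hV => by rw [← Finset.sum_mul, h V (h1 V hV), zero_mul]

/-- the local condition: `h` has the residue divisor `∑ c j • a j` -/
def Res (δ : Derivation k F F) (h : F) (a : J → BD k F) (c : J → k) : Prop :=
  ∀ V : RZ k F, ∃ (g : F) (y : J → F), (∀ j, V.v (y j) = (a j).val V) ∧
    h - δ g - ∑ j, c j • (δ (y j) / y j) ∈ Rd δ V

/-- averaging over a family of embeddings -/
theorem avg {L : Type} [Field L] [Algebra k L] [Algebra.EssFiniteType k L] (hF : dim k F = 1)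
    (hL : dim k L = 1) {δ : Derivation k F F} {D : Derivation k L L} {t : L} (ht : D t = 1)
    {I : Type} [Fintype I] [Nonempty I] (α : I → F →ₐ[k] L) (hα : ∀ i x, D (α i x) = α i (δ x))
    {h : F} (hh : ∑ i, α i h ∈ PF D t) {a : J → BD k F} {c : J → k} (H : Res δ h a c) :
    ∑ j, c j * (bnum [a j] : k) = 0 := by
  obtain ⟨G, n, ρ, β, hG⟩ := exists_pf hh
  have h1 : ∀ i, D (t - algebraMap k L (β i)) = 1 := fun i => by
    rw [map_sub, ht, Derivation.map_algebraMap, sub_zero]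
  have h2 : ∀ i, t - algebraMap k L (β i) ≠ 0 := fun i h => by simpa [h] using h1 i
  have key := sum_of_od (J := (I × J) ⊕ Fin n)
    (a := Sum.elim (fun p => pb (α p.1) (a p.2)) fun i => pr k (t - algebraMap k L (β i)))
    (c := Sum.elim (fun p => -c p.2) ρ) (fun W hW => ?_) []
  · simp only [Fintype.sum_sum_type, Sum.elim_inl, Sum.elim_inr, bnum_pr, Int.cast_zero, mul_zero,
      Finset.sum_const_zero, add_zero, Fintype.sum_prod_type] at key
    have h3 : ∀ i j, bnum [pb (α i) (a j)] = deg (α i) * bnum [a j] := fun i j =>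
      bnum_pb (α i) [a j]
    have h4 : ((∑ i, deg (α i) : ℕ) : k) ≠ 0 := Nat.cast_ne_zero.2 (Finset.sum_pos
      (fun i _ => (deg_pos_iff (α i)).2 (hL.trans hF.symm)) Finset.univ_nonempty).ne'
    refine (mul_eq_zero.1 ?_).resolve_left h4
    rw [← neg_eq_zero, ← key, Nat.cast_sum, Finset.sum_mul, ← Finset.sum_neg_distrib]
    refine Finset.sum_congr rfl fun i _ => ?_
    rw [Finset.mul_sum, ← Finset.sum_neg_distrib]
    refine Finset.sum_congr rfl fun j _ => ?_
    rw [h3]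
    push_cast
    ring
  choose g y h3 h4 using fun i => H (cm (α i : F →+* L) (alg_ov (α i)) W)
  have h5 : ∀ i j, W.v (α i (y i j)) = (pb (α i) (a j)).val W := fun i j => (val_mp (h3 i j)).symm
  have h6 : ∀ i, ∀ z ∈ Rd δ (cm (α i : F →+* L) (alg_ov (α i)) W), α i z ∈ Rd D W := fun i z hz => by
    induction hz using AddSubgroup.closure_induction with
    | mem z hz =>
      obtain ⟨x, hx, x', hx', rfl⟩ := hz
      exact AddSubgroup.subset_closure ⟨α i x, hx, α i x', hx', by rw [map_mul, hα]⟩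
    | zero => simp
    | add a b _ _ ha hb => exact map_add (α i) a b ▸ add_mem ha hb
    | neg a _ ha => exact map_neg (α i) a ▸ neg_mem ha
  have h7 := res_unique (δ := D) hW hL (fun h => by simp [h] at ht) (J := (I × J) ⊕ Fin n)
    (G - ∑ i, α i (g i))
    (y := Sum.elim (fun p => α p.1 (y p.1 p.2)) fun i => t - algebraMap k L (β i))
    (fun p => p.rec (fun p => ne_of_val (h5 p.1 p.2)) h2) (Sum.elim (fun p => -c p.2) ρ) (by
      convert sum_mem fun i (_ : i ∈ Finset.univ) => h6 i _ (h4 i) using 1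
      simp only [Fintype.sum_sum_type, Sum.elim_inl, Sum.elim_inr, h1, map_sub (α _), map_sum,
        map_smul, map_div₀, ← hα, Finset.sum_sub_distrib, hG, map_sub D G, Fintype.sum_prod_type,
        neg_smul, Finset.sum_neg_distrib, one_div]
      abel)
  rw [← h7]
  refine Finset.sum_congr rfl fun p _ => ?_
  rcases p with p | i
  · simp only [Sum.elim_inl, od_of_gen hW (h5 p.1 p.2)]
  · simp only [Sum.elim_inr, od_pr (h2 i)]

theorem exists_gal (K E : Type) [Field K] [Field E] [Algebra K E] [FiniteDimensional K E]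
    [CharZero K] : ∃ (L : Type) (_ : Field L) (_ : Algebra K L) (_ : Algebra E L),
      IsScalarTower K E L ∧ FiniteDimensional K L ∧ IsGalois K L :=
  ⟨IntermediateField.normalClosure K E (AlgebraicClosure E), inferInstance, inferInstance,
    inferInstance, inferInstance, inferInstance, IsGalois.mk⟩

theorem tb_of (hF : dim k F = 1) {t : F} (ht : Transcendental k t) :
    IsTranscendenceBasis k fun _ : Unit => t :=
  (algebraicIndependent_unique_type_iff.2 ht).isTranscendenceBasis_of_trdeg_le_of_finite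
    (by rw [trdeg_eq_dim, hF]; simp)

theorem curve_aux [IsAlgClosed k] (hF : dim k F = 1) {δ : Derivation k F F} {t : F} (ht : δ t ≠ 0)
    (h0 : Transcendental k t) (K : Type) [Field K] [Algebra k K] [Algebra K F]
    [IsScalarTower k K F] [FiniteDimensional K F] (h1K : ∃ s : K, algebraMap K F s = t)
    (h2K : ∀ w : K, ∃ p q : k[X], algebraMap K F w = aeval t p / aeval t q) {h : F}
    {a : J → BD k F} {c : J → k} (H : Res δ h a c) : ∑ j, c j * (bnum [a j] : k) = 0 := by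
  have : CharZero K := charZero_of_injective_algebraMap (algebraMap k K).injective
  obtain ⟨L, _, _, _, _, _, _⟩ := exists_gal K F
  have : FiniteDimensional F L := Module.Finite.of_restrictScalars_finite K F L
  let _ : Algebra k L := ((algebraMap F L).comp (algebraMap k F)).toAlgebra
  have : IsScalarTower k F L := IsScalarTower.of_algebraMap_eq fun c => rfl
  have : IsScalarTower k K L := IsScalarTower.of_algebraMap_eq fun c => by
    rw [IsScalarTower.algebraMap_apply K F L, ← IsScalarTower.algebraMap_apply k K F]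
    rfl
  have : Algebra.EssFiniteType k L := Algebra.EssFiniteType.comp k F L
  let ι := IsScalarTower.toAlgHom k F L
  have hL : dim k L = 1 := ((deg_pos_iff ι).1 (deg_tower (k := k) (F := F) (E := L) ▸
    Module.finrank_pos)).trans hF
  have h1 : Transcendental k (ι t) := (transcendental_algebraMap_iff (algebraMap F L).injective).2 h0
  obtain ⟨D, hD⟩ := R023.Ax952.exists_derivation_of_transcendental h1
  let α : (L ≃ₐ[K] L) → F →ₐ[k] L := fun σ => ((σ : L →ₐ[K] L).restrictScalars k).comp ι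
  have h2 : ∀ x : K, ι (algebraMap K F x) = algebraMap K L x := fun x =>
    (IsScalarTower.algebraMap_apply K F L x).symm
  have h3 : ∀ σ, α σ t = ι t := fun σ => by
    obtain ⟨s, rfl⟩ := h1K
    change σ (ι _) = ι _
    rw [h2, AlgEquiv.commutes]
  refine avg hF hL (δ := (δ t)⁻¹ • δ) hD α (fun σ x => sub_eq_zero.1 ?_) (h := (δ t)⁻¹ * h) ?_
    fun V => ?_
  · exact Tri.BC.zero_of_tb (tb_of hF h0) (α σ : F →+* L)
      (AddMonoidHom.mk' (fun x => D (α σ x) - α σ (((δ t)⁻¹ • δ) x)) fun a b => by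
        simp only [map_add]
        abel)
      (fun a b => by
        simp only [AddMonoidHom.mk'_apply, map_mul, Derivation.leibniz, smul_eq_mul, map_add,
          RingHom.coe_coe]
        ring)
      (fun c => by simp) (fun _ => by
        rw [AddMonoidHom.mk'_apply, h3, hD, Derivation.smul_apply, smul_eq_mul,
          inv_mul_cancel₀ ht, map_one, sub_self]) x
  · change ∑ σ : L ≃ₐ[K] L, σ (ι _) ∈ _
    rw [← trace_eq_sum_automorphisms, ← h2]
    obtain ⟨p, q, hw⟩ := h2K (Algebra.trace K L (ι ((δ t)⁻¹ * h)))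
    rw [hw, map_div₀, ← aeval_algHom_apply, ← aeval_algHom_apply]
    exact div_mem hD h1 _ p q rfl
  · obtain ⟨g, y, h4, h5⟩ := H V
    refine ⟨g, y, h4, ?_⟩
    have h6 : ∀ z ∈ Rd δ V, (δ t)⁻¹ * z ∈ Rd ((δ t)⁻¹ • δ) V := fun z hz => by
      induction hz using AddSubgroup.closure_induction with
      | mem z hz =>
        obtain ⟨x, hx, x', hx', rfl⟩ := hz
        exact AddSubgroup.subset_closure ⟨x, hx, x', hx', by simp [mul_left_comm]⟩
      | zero => simp
      | add a b _ _ ha hb => exact mul_add _ a b ▸ add_mem ha hb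
      | neg a _ ha => exact mul_neg _ a ▸ neg_mem ha
    convert h6 _ h5 using 1
    simp only [Derivation.smul_apply, smul_eq_mul, mul_sub, Finset.mul_sum, mul_smul_comm,
      mul_div_assoc]

/-- **the residue theorem** on a curve -/
theorem curve [IsAlgClosed k] (hF : dim k F = 1) {δ : Derivation k F F} (hδ : δ ≠ 0) {h : F}
    {a : J → BD k F} {c : J → k} (H : Res δ h a c) : ∑ j, c j * (bnum [a j] : k) = 0 := by
  obtain ⟨t, ht⟩ : ∃ t, δ t ≠ 0 := by
    by_contra h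
    push Not at h
    exact hδ (Derivation.ext h)
  have h0 : Transcendental k t := fun h => ht (R023.Ax952.derivation_eq_zero_of_isAlgebraic δ h)
  let K := IntermediateField.adjoin k (Set.range fun _ : Unit => t)
  have := (tb_of hF h0).isAlgebraic_field
  have : Algebra.EssFiniteType K F := Algebra.EssFiniteType.of_comp k K F
  have : FiniteDimensional K F := Algebra.finite_of_essFiniteType_of_isAlgebraic
  exact curve_aux hF ht h0 K ⟨⟨t, IntermediateField.subset_adjoin _ _ ⟨(), rfl⟩⟩, rfl⟩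
    (fun w => (IntermediateField.mem_adjoin_simple_iff k (α := t) w.1).1
      (by rw [← Set.range_const (ι := Unit)]; exact w.2)) H

/-- `∑ c j • a j` is the residue divisor of a logarithmic form -/
def Lg (a : J → BD k F) (c : J → k) : Prop :=
  ∀ δ : Derivation k F F, ∃ h : F, ∀ V : RZ k F, ∃ y : J → F, (∀ j, V.v (y j) = (a j).val V) ∧
    h - ∑ j, c j • (δ (y j) / y j) ∈ Rd δ V

/-- restriction to a prime divisor -/
theorem Lg.rs {a : J → BD k F} {c : J → k} (H : Lg a c) {V : RZ k F} (hV : Dvs V) :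
    Lg (fun j => (plV V).rs (a j)) c := fun d => by
  obtain ⟨δ, hδ⟩ := exists_lift hV d
  obtain ⟨h, hh⟩ := H δ
  refine ⟨(plV V).r (h - ∑ j, c j • (δ ((a j).gen V) / (a j).gen V)), fun W => ?_⟩
  obtain ⟨y, h1, h2⟩ := hh ((plV V).cm W)
  have h3 : ∀ j, ((plV V).cm W).v (y j / (a j).gen V) =
      (a j - pr k ((a j).gen V)).val ((plV V).cm W) := fun j => by
    rw [map_div₀, val_sub, val_pr ((a j).gen_ne V), h1]
  have h4 : ∀ j, (a j - pr k ((a j).gen V)).val (plV V).V = 1 := fun j =>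
    Pl.val_sub_gen ((a j).v_gen V)
  have h5 : ∀ j, V.v (y j / (a j).gen V) = 1 := fun j => Pl.unit_of_gen (h4 j) (h3 j)
  refine ⟨fun j => (plV V).r (y j / (a j).gen V), fun j => (Pl.val_res (h4 j) (h3 j)).symm, ?_⟩
  have h6 : ∀ z ∈ Rd δ ((plV V).cm W), z ∈ V.1 ∧ (plV V).r z ∈ Rd d W := fun z hz => by
    induction hz using AddSubgroup.closure_induction with
    | mem z hz =>
      obtain ⟨x, hx, x', hx', rfl⟩ := hz
      exact ⟨mul_mem hx.1 (hδ _ hx'.1).1, AddSubgroup.subset_closure ⟨_, hx.2, _, hx'.2, by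
        rw [Pl.r_mul (p := plV V) hx.1 (hδ _ hx'.1).1, (hδ _ hx'.1).2]⟩⟩
    | zero => simp
    | add a b _ _ ha hb =>
      exact ⟨add_mem ha.1 hb.1, Pl.r_add (p := plV V) ha.1 hb.1 ▸ add_mem ha.2 hb.2⟩
    | neg a _ ha => exact ⟨neg_mem ha.1, Pl.r_neg (p := plV V) ha.1 ▸ neg_mem ha.2⟩
  have h7 : ∀ s : Finset J, ∑ j ∈ s, c j • (δ (y j / (a j).gen V) / (y j / (a j).gen V)) ∈ V.1 ∧
      (plV V).r (∑ j ∈ s, c j • (δ (y j / (a j).gen V) / (y j / (a j).gen V))) =
        ∑ j ∈ s, c j • (d ((plV V).r (y j / (a j).gen V)) / (plV V).r (y j / (a j).gen V)) := by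
    intro s
    induction s using Finset.cons_induction with
    | empty => simp
    | cons j s hj ih =>
      have e1 := RZ.le_one_iff.1 (h5 j).le
      have e2 : δ (y j / (a j).gen V) / (y j / (a j).gen V) ∈ V.1 := RZ.le_one_iff.1 (by
        rw [map_div₀ _ (δ _), h5, div_one]
        exact RZ.le_one_iff.2 (hδ _ e1).1)
      have e3 := mul_mem (V.2 (c j)) e2
      rw [Finset.sum_cons, Finset.sum_cons, Algebra.smul_def, Algebra.smul_def,
        Pl.r_add (p := plV V) e3 ih.1, ih.2, Pl.r_mul (p := plV V) (V.2 (c j)) e2, lnr_plV,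
        Pl.r_div (p := plV V) (hδ _ e1).1 (h5 j), (hδ _ e1).2]
      exact ⟨add_mem e3 ih.1, rfl⟩
  have h8 : h - ∑ j, c j • (δ ((a j).gen V) / (a j).gen V) = h - ∑ j, c j • (δ (y j) / y j) +
      ∑ j, c j • (δ (y j / (a j).gen V) / (y j / (a j).gen V)) := by
    simp only [dlog_div (ne_of_val (h1 _)) (gen_ne _ _), smul_sub, Finset.sum_sub_distrib]
    abel
  rw [h8, Pl.r_add (p := plV V) (h6 _ h2).1 (h7 _).1, (h7 _).2, add_sub_cancel_right]
  exact (h6 _ h2).2

/-- the residue divisor of a logarithmic form is numerically trivial -/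
theorem bnum_of_lg [IsAlgClosed k] (c : J → k) (n : ℕ) : ∀ (F : Type) [Field F] [Algebra k F]
    [Algebra.EssFiniteType k F] (a : J → BD k F), Lg a c → ∀ l : List (BD k F), l.length = n →
    ∑ j, c j * (bnum (a j :: l) : k) = 0 := by
  induction n with
  | zero =>
    intro F _ _ _ a H l hl
    rw [List.length_eq_zero_iff.1 hl]
    by_cases hF : dim k F = 1
    · obtain ⟨t, ht⟩ := exists_tb (k := k) F
      obtain ⟨δ, hδ⟩ := R023.Ax952.exists_derivation_of_transcendental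
        (ht.1.transcendental ⟨0, by omega⟩)
      obtain ⟨h, hh⟩ := H δ
      refine curve hF (δ := δ) (fun h => by simp [h] at hδ) (h := h) fun V => ?_
      obtain ⟨y, h1, h2⟩ := hh V
      exact ⟨0, y, h1, by simpa using h2⟩
    · exact Finset.sum_eq_zero fun j _ => by
        rw [bnum_of_ne (by simpa using Ne.symm hF), Int.cast_zero, mul_zero]
  | succ n ih =>
    intro F _ _ _ a H l hl
    obtain ⟨b, l, rfl⟩ := List.exists_cons_of_length_eq_add_one hl
    obtain ⟨T, h1, h2⟩ := exists_cyc' (b :: (Finset.univ.toList.map a ++ l))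
    have h3 : ∀ j, bnum (a j :: b :: l) = ∑ V ∈ T, od V b * dg V (a j :: l) := fun j => by
      rw [bnum_swap]
      refine h2 _ (by simp) _ fun x hx => List.mem_cons_of_mem _ ?_
      rcases List.mem_cons.1 hx with rfl | hx
      · simp
      · simp [hx]
    simp only [h3, Int.cast_sum, Int.cast_mul, Finset.mul_sum, mul_left_comm (c _)]
    rw [Finset.sum_comm]
    refine Finset.sum_eq_zero fun V hV => ?_
    have := essFT_Rf (h1 V hV)
    have h4 := ih (Rf V) _ (H.rs (h1 V hV)) (l.map (plV V).rs) (by simpa using hl)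
    simp only [Geo.dg_eq, List.map_cons]
    rw [← Finset.mul_sum, h4, mul_zero]

omit [CharZero k] [Algebra.EssFiniteType k F] in
/-- the forms which are regular at `V` -/
def Rg (V : RZ k F) : AddSubgroup Ω[F⁄k] :=
  AddSubgroup.closure {ω | ∃ x ∈ V.1, ∃ y ∈ V.1, ω = x • D k F y}

omit [CharZero k] [Algebra.EssFiniteType k F] in
theorem Rg.rd {V : RZ k F} {ω : Ω[F⁄k]} (h : ω ∈ Rg V) (δ : Derivation k F F) :
    δ.liftKaehlerDifferential ω ∈ Rd δ V := by
  induction h using AddSubgroup.closure_induction with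
  | mem z hz =>
    obtain ⟨x, hx, y, hy, rfl⟩ := hz
    exact AddSubgroup.subset_closure ⟨x, hx, y, hy, by simp⟩
  | zero => simp
  | add a b _ _ ha hb => exact map_add δ.liftKaehlerDifferential a b ▸ add_mem ha hb
  | neg a _ ha => exact map_neg δ.liftKaehlerDifferential a ▸ neg_mem ha

/-- **the residue theorem**, any dimension -/
theorem bnum_of_log [IsAlgClosed k] (ω : Ω[F⁄k]) (a : J → BD k F) (c : J → k)
    (h : ∀ V : RZ k F, ∃ y : J → F, (∀ j, V.v (y j) = (a j).val V) ∧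
      ω - ∑ j, c j • ((y j)⁻¹ • D k F (y j)) ∈ Rg V) (l : List (BD k F)) :
    ∑ j, c j * (bnum (a j :: l) : k) = 0 :=
  bnum_of_lg c _ F a (fun δ => ⟨δ.liftKaehlerDifferential ω, fun V => by
    obtain ⟨y, h1, h2⟩ := h V
    refine ⟨y, h1, ?_⟩
    convert Rg.rd h2 δ using 1
    simp [div_eq_inv_mul]⟩) l rfl

end Crest.Agent.X262.Rsd
end
end

-- ▼ part X262/Be94/Kap
section

/-!
# Row 262, G4 / TR (helper94), part 5: a very general direction, `KapStmt`

* `exists_dir` : the intersection with a line bundle is the trace of the obstruction in a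
  direction taken from a finite dimensional space;
* `exists_gen_dir` : linear algebra, `kap_of`, `kapStmt`.
-/

set_option autoImplicit false
set_option linter.unusedSectionVars false

open MvPolynomial Submodule
open scoped KaehlerDifferential

noncomputable section

namespace Crest.Agent.X262.Be94

open Crest.Agent.X277 Crest.Agent.X277.Lef Crest.Agent.X277.AN.G1 Crest.Agent.X277.BD
open Crest.Agent.X277.BD.Br (On oP kP At at_y)
open Crest.Agent.X277.Cns (Ov)
open Crest.Agent.X262.Top (Hyp)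
open Crest.Agent.X262.Mv99

variable {F : Type} [Field F] [Algebra ℂ F] {Γ : MvPolynomial (Fin 4) ℂ} {S : Hyp 3 Γ F}

theorem r1_rg {x : Pts S.P} {V : RZ ℂ F} (hV : Ov x V.1) {ζ : Ω[F⁄ℂ]} (h : ζ ∈ R1 x) :
    ∀ c : ℂ, c • ζ ∈ Rsd.Rg V := by
  induction h using Submodule.span_induction with
  | mem _ h =>
    obtain ⟨a, ha, b, hb, rfl⟩ := h
    exact fun c => AddSubgroup.subset_closure
      ⟨c • a, hV _ ((lp x).O.smul_mem ha c), b, hV _ hb, (smul_assoc _ _ _).symm⟩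
  | zero => exact fun c => by rw [smul_zero]; exact zero_mem _
  | add _ _ _ _ h1 h2 => exact fun c => by rw [smul_add]; exact add_mem (h1 c) (h2 c)
  | smul c' _ _ h => exact fun c => by rw [smul_smul]; exact h _

/-- a general member of a finite dimensional space spanned by integer valued functions -/
theorem exists_gen_dir {X Y : Type} (q : Y → X → ℤ) (W : Submodule ℂ (X → ℂ)) (hW : W.FG)
    (hq : ∀ y, (fun x => (q y x : ℂ)) ∈ W) :
    ∃ φ ∈ W, ∀ x, φ x = 0 ↔ ∀ y, q y x = 0 := by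
  obtain ⟨T, hT, e⟩ := (fg_span_iff_fg_span_finset_subset
    (Set.range fun y x => (q y x : ℂ))).1 (hW.of_le (span_le.2 (Set.range_subset_iff.2 hq)))
  obtain ⟨t, ht⟩ := exists_linearIndependent_of_le_rank (R := ℚ) (M := ℂ) (n := T.card) (by
    rw [Complex.rank_rat_complex]
    exact Cardinal.nat_lt_continuum _ |>.le)
  choose y hy using fun s : T => hT s.2
  refine ⟨∑ s : T, t (T.equivFin s) • fun x => (q (y s) x : ℂ),
    sum_mem fun s _ => smul_mem _ _ (hq _), fun x => ⟨fun h y' => ?_, fun h => by simp [h]⟩⟩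
  have h1 := Fintype.linearIndependent_iff.1 (ht.comp _ T.equivFin.injective)
    (fun s => (q (y s) x : ℚ)) (by simpa [mul_comm, Rat.smul_def] using h)
  have h2 : span ℂ (T : Set (X → ℂ)) ≤ LinearMap.ker (LinearMap.proj x) := span_le.2 fun s hs => by
    have h3 := congrFun (hy ⟨s, hs⟩) x
    have h4 : q (y ⟨s, hs⟩) x = 0 := by exact_mod_cast h1 ⟨s, hs⟩
    simpa [h4] using h3.symm
  rw [← e] at h2
  simpa using h2 (subset_span ⟨y', rfl⟩)

theorem exists_dir [Algebra.EssFiniteType ℂ F] (hΓ : Qt Γ) (B : Module.Basis (Fin 2) F Ω[F⁄ℂ]) :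
    ∃ W : Submodule ℂ (On S.P → ℂ), W.FG ∧ (∀ N', (fun N => (bnum [N.1, N'] : ℂ)) ∈ W) ∧
      ∀ φ ∈ W, ∃ η, Coc S η ∧ ∀ N : On S.P, Lifts S η N ↔ φ N = 0 := by
  classical
  obtain ⟨J, _, κ, hκ, H⟩ := inj (S := S) hΓ B
  obtain ⟨tr, -, t1, t2⟩ := exists_tr (S := S) hΓ
  choose α hα using fun N : On S.P => exists_conn N.2
  refine ⟨span ℂ (Set.range fun j N => tr (ob (κ j) (α N))), fg_span (Set.finite_range _),
    fun N' => ?_, fun φ hφ => ?_⟩
  · have h1 := mem_span_of_iInf_ker_le_ker (𝕜 := ℂ)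
      (L := fun j => Finsupp.linearCombination ℂ fun N => tr (ob (κ j) (α N)))
      (K := Finsupp.linearCombination ℂ fun N : On S.P => (bnum [N.1, N'] : ℂ)) fun l hl => by
        have h2 : ∀ a b, ∀ x ∈ U S a, x ∈ U S b → (∑ N : l.support, l N • α N a) -
            ∑ N : l.support, l N • α N b ∈ R1 x := fun a b x ha hb => by
          rw [← Finset.sum_sub_distrib]
          exact sum_mem fun N _ => smul_sub (l N) (α N a) (α N b) ▸
            smul_mem _ _ (conn_sub N.1.2 (hα N) ha hb)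
        obtain ⟨ω, hω⟩ := H (fun a => ∑ N : l.support, l N • α N a) h2 fun j =>
          t2 _ (ob_mem (hκ j) (h2 1 0)) (by
            have h3 := LinearMap.mem_ker.1 ((mem_iInf _).1 hl j)
            rw [Finsupp.linearCombination_apply, Finsupp.sum, ← Finset.sum_coe_sort] at h3
            simpa only [ob, ← Finset.sum_sub_distrib, ← smul_sub, map_sum,
              LinearMap.map_smul_of_tower, map_smul, smul_comm] using h3)
        have h3 := Rsd.bnum_of_log ω (fun N : l.support => (N.1.1 : BD ℂ F)) (fun N => l N)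
          (fun V => by
            obtain ⟨x, hx⟩ := Br.exists_ov' S.P V
            obtain ⟨a, ha⟩ := exists_U hΓ x
            choose g hg using fun N : l.support => N.1.2 x
            refine ⟨g, fun N => hg N V hx, ?_⟩
            have h4 := r1_rg hx (sub_mem (sum_mem (t := Finset.univ) fun (N : l.support) _ =>
              smul_mem _ (l N) (hα N a x ha _ (hg N))) (hω a x ha)) 1
            simp only [one_smul, smul_sub, Finset.sum_sub_distrib] at h4
            rwa [sub_sub_sub_cancel_left] at h4) [N']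
        rw [LinearMap.mem_ker, Finsupp.linearCombination_apply, Finsupp.sum,
          ← Finset.sum_coe_sort]
        exact h3
    have := Fintype.ofFinite J
    obtain ⟨c, hc⟩ := (mem_span_range_iff_exists_fun ℂ).1 h1
    refine (mem_span_range_iff_exists_fun ℂ).2 ⟨c, funext fun N => ?_⟩
    simpa using LinearMap.congr_fun hc (Finsupp.single N 1)
  · suffices h : ∃ η, Coc S η ∧ ∀ N, tr (ob η (α N)) = φ N by
      obtain ⟨η, h1, h2⟩ := h
      exact ⟨η, h1, fun N => (lifts_iff N.2 (hα N) h1).trans (h2 N ▸ ⟨t1 _,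
        t2 _ (ob_mem h1 fun x ha hb => conn_sub N.2 (hα N) ha hb)⟩)⟩
    induction hφ using Submodule.span_induction with
    | mem _ h =>
      obtain ⟨j, rfl⟩ := h
      exact ⟨κ j, hκ j, fun _ => rfl⟩
    | zero => exact ⟨0, fun a b x _ _ f _ => by simp, fun N => by simp [ob]⟩
    | add _ _ _ _ h1 h2 =>
      obtain ⟨η, a1, a2⟩ := h1
      obtain ⟨η', b1, b2⟩ := h2
      refine ⟨η + η', fun a b x ha hb f hf => ?_, fun N => ?_⟩
      · rw [Pi.add_apply, Pi.add_apply, add_sub_add_comm]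
        exact add_mem (a1 a b x ha hb f hf) (b1 a b x ha hb f hf)
      · rw [Pi.add_apply, ← a2, ← b2, ob, Pi.add_apply, Pi.add_apply, add_sub_add_comm, map_add,
          LinearMap.add_apply, map_add, ob, ob]
    | smul c _ _ h =>
      obtain ⟨η, a1, a2⟩ := h
      refine ⟨algebraMap ℂ F c • η, fun a b x ha hb f hf => ?_, fun N => ?_⟩
      · rw [Pi.smul_apply, Pi.smul_apply, ← smul_sub]
        exact mul_mem ((lp x).O.algebraMap_mem c) (a1 a b x ha hb f hf)
      · rw [Pi.smul_apply, ← a2, ob, Pi.smul_apply, Pi.smul_apply, ← smul_sub, map_smul,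
          LinearMap.smul_apply, algebraMap_smul, map_smul, ob]

theorem kap_of (H : MvStmt) : KapStmt := by
  intro F _ _ _ Γ S B hΓ M hM h0
  obtain ⟨W, h1, h2, h3⟩ := exists_dir (S := S) hΓ B
  obtain ⟨φ, hφ, h4⟩ := exists_gen_dir
    (fun (N' : BD ℂ F) (N : On S.P) =>
      bnum [M, M] * bnum [N.1, N'] - bnum [N.1, M] * bnum [M, N']) W h1 fun N' => by
      convert sub_mem (smul_mem W (bnum [M, M] : ℂ) (h2 N'))
        (smul_mem W (bnum [M, N'] : ℂ) (h2 M)) using 1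
      funext N
      simp [mul_comm]
  obtain ⟨η₀, a1, a2⟩ := h3 _ (h2 M)
  obtain ⟨η, b1, b2⟩ := h3 φ hφ
  obtain ⟨D, hD⟩ := H F Γ S B hΓ M hM
    ⟨η₀, a1, fun h => h0 (by exact_mod_cast (a2 ⟨M, hM⟩).1 h)⟩ η
    ((b2 ⟨M, hM⟩).2 ((h4 _).2 fun _ => sub_self _))
  refine ⟨D, fun N hN ⟨r, hr⟩ N' _ => sub_eq_zero.1
    ((h4 ⟨N, hN⟩).1 ((b2 ⟨N, hN⟩).1 ⟨r, fun a b x ha hb => ?_⟩) N')⟩
  simpa only [hD, sub_sub_sub_cancel_right] using hr a b x ha hb

theorem kapStmt : KapStmt := kap_of mvStmt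

end Crest.Agent.X262.Be94
end
end

-- ▼ part X262/Rig38/Fst
section

/-!
# Row 262, G4, RIG (helper38): the first order statements

* `thA` : `H⁰(Λ² V ⊗ O(1)) → H⁰(Λ² Q(1))` is onto;
* `thC` : `H⁰(Sym³ S^*)` consists of cubic forms;
* `wedge_zero` : the obstruction to the Pluecker relations is divisible by the Pluecker point.
-/

set_option autoImplicit false
set_option linter.unusedSectionVars false

open MvPolynomial

noncomputable section

namespace Crest.Agent.X262.Rig38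

variable {G : MvPolynomial (Fin 6) ℂ} {K : Type} [Field K] [Algebra ℂ K] {a : Fin 8 → K}

theorem lift_inv (hG : G.IsHomogeneous 3) (R : RSq (ten G)) (g : GenPt G a) {s : K}
    (hs : s ∈ Sec (plk (pv a) (qv a)) 2) :
    ∃ r, BH r 2 2 ∧ rho a r = dt K ^ 2 * C s ∧ eD r = 0 := by
  obtain ⟨r, hr, e⟩ := lift_sec hG R g hs
  have he : eD r ∈ II (ten G) := (rho_eq_zero hG R g).1 (by
    rw [rho_e, e, sq]
    simp [Derivation.leibniz, e_dt])
  obtain ⟨r', h1, h2, h3⟩ := lift22 (ten_sy G) hr he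
  refine ⟨r', h1, ?_, h3⟩
  have := (rho_eq_zero hG R g).2 h2
  rw [map_sub, e] at this
  exact (sub_eq_zero.1 this).symm

theorem thA (hG : G.IsHomogeneous 3) (R : RSq (ten G)) (g : GenPt G a) {θ : T4 K}
    (hs : ∀ i j k l, θ i j k l ∈ Sec (plk (pv a) (qv a)) 2) (ht : Alt4 θ)
    (hp : ∀ i j k l m, W4 (pv a) θ i j k l m = 0) (hq : ∀ i j k l m, W4 (qv a) θ i j k l m = 0) :
    ∃ M : Fin 6 × Fin 6 → Fin 6 × Fin 6 → ℂ, (∀ i j m, M (j, i) m = -M (i, j) m) ∧
      ∀ i j k l, θ i j k l = P2 (plk (pv a) (qv a))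
        (fun i j => ∑ m, algebraMap ℂ K (M (i, j) m) * plk (pv a) (qv a) m.1 m.2) i j k l := by
  choose T hT e he using fun i j k l => lift_inv hG R g (hs i j k l)
  have alt : ∀ i j k l i' j' k' l', θ i' j' k' l' = -θ i j k l → T i' j' k' l' = -T i j k l :=
    fun i j k l i' j' k' l' h => eq_neg_of_add_eq_zero_left (uniq22 (ten_sy G) R
      ((hT ..).add (hT ..)) ((rho_eq_zero hG R g).1 (by rw [map_add, e, e, h, map_neg]; ring))
      (by rw [map_add, he, he, add_zero]))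
  have hI : ∀ i j k l m, W4 xx T i j k l m ∈ II (ten G) := fun i j k l m =>
    (rho_eq_zero hG R g).1 (by
      have h1 := congrArg (C : K →+* BP (Fin 2) K) (hp i j k l m)
      have h2 := congrArg (C : K →+* BP (Fin 2) K) (hq i j k l m)
      simp only [W4, map_add, map_sub, map_mul, map_zero, e, rho_xx] at h1 h2 ⊢
      linear_combination dt K ^ 2 * X (0, 0) * h1 + dt K ^ 2 * X (0, 1) * h2)
  obtain ⟨Z, hZ, hZ', eZ⟩ := homotopy hT ⟨fun i j k l => alt _ _ _ _ _ _ _ _ (ht.s1 ..),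
    fun i j k l => alt _ _ _ _ _ _ _ _ (ht.s2 ..), fun i j k l => alt _ _ _ _ _ _ _ _ (ht.s3 ..)⟩
    (fun i j k l => (hT i j k l).f_zero (he i j k l)) (kill (ten_sy G) R hT he hI)
  obtain ⟨z, hz⟩ : ∃ z : Fin 6 → Fin 6 → Fin 6 → Fin 6 → ℂ, ∀ i j s t,
    z i j s t = constantCoeff (pderiv (1, t) (pderiv (0, s) (Z i j))) := ⟨_, fun _ _ _ _ => rfl⟩
  have eZ' : ∀ i j, Z i j = ∑ s, ∑ t, C (z i j s t) * xx s * yy t := fun i j => by
    simp only [hz]
    exact (hZ i j).eq11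
  refine ⟨fun m m' => (1 / 40 : ℂ) * z m.1 m.2 m'.1 m'.2, fun i j m => ?_, fun i j k l => ?_⟩
  · simp only [hz, hZ' i j, map_neg, mul_neg]
  · have ev : ∀ (γ : Fin 2 × Fin 2 → K) i j, eval γ (rho a (Z i j)) = ∑ s, ∑ t,
        algebraMap ℂ K (z i j s t) * (γ (0, 0) * pv a s + γ (0, 1) * qv a s) *
          (γ (1, 0) * pv a t + γ (1, 1) * qv a t) := fun γ i j => by
      rw [eZ']
      simp only [map_sum, map_mul, rho_xx, rho_yy, map_add, eval_X, eval_C, algHom_C]
      simp [MvPolynomial.algebraMap_apply]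
    have df : ∀ i j, ∑ m : Fin 6 × Fin 6, algebraMap ℂ K ((1 / 40 : ℂ) * z i j m.1 m.2) *
        plk (pv a) (qv a) m.1 m.2 = algebraMap ℂ K (1 / 40) *
        (eval (fun m : Fin 2 × Fin 2 => if m.1 = m.2 then (1 : K) else 0) (rho a (Z i j)) -
          eval (fun m : Fin 2 × Fin 2 => if m.1 = m.2 then (0 : K) else 1) (rho a (Z i j))) := by
      intro i j
      rw [ev, ev, Fintype.sum_prod_type]
      simp only [← Finset.sum_sub_distrib, Finset.mul_sum]
      refine Finset.sum_congr rfl fun s _ => Finset.sum_congr rfl fun t _ => ?_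
      simp [plk]
      ring
    have h0 := congrArg (rho a) (eZ i j k l)
    have h1 := congrArg (eval fun m : Fin 2 × Fin 2 => if m.1 = m.2 then (1 : K) else 0) h0
    have h2 := congrArg (eval fun m : Fin 2 × Fin 2 => if m.1 = m.2 then (0 : K) else 1) h0
    have d1 : eval (fun m : Fin 2 × Fin 2 => if m.1 = m.2 then (1 : K) else 0) (dt K) = 1 := by
      simp [dt]
    have d2 : eval (fun m : Fin 2 × Fin 2 => if m.1 = m.2 then (0 : K) else 1) (dt K) = -1 := by
      simp [dt]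
    simp only [P2, map_add, map_sub, map_mul, e, rho_plk, map_pow, d1, d2, eval_C,
      map_ofNat] at h1 h2
    simp only [P2, df]
    have h40 : algebraMap ℂ K (1 / 40) * 40 = 1 := by
      rw [show (40 : K) = algebraMap ℂ K 40 from (map_ofNat _ 40).symm, ← map_mul]
      norm_num
    linear_combination algebraMap ℂ K (1 / 40) * (h1 + h2) - θ i j k l * h40

theorem bt_inj {A : Type} [CommRing A] [Algebra ℂ A] {b0 b1 b2 b3 c0 c1 c2 c3 : A}
    (e : ∀ s t : A, bt b0 b1 b2 b3 s t s t s t = bt c0 c1 c2 c3 s t s t s t) :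
    b0 = c0 ∧ b1 = c1 ∧ b2 = c2 ∧ b3 = c3 := by
  have e1 := e 1 0
  have e2 := e 0 1
  have e3 := e 1 1
  have e4 := e 1 (-1)
  simp only [bt] at e1 e2 e3 e4
  have h6 : algebraMap ℂ A (1 / 6) * 6 = 1 := by
    rw [show (6 : A) = algebraMap ℂ A 6 from (map_ofNat _ 6).symm, ← map_mul]
    norm_num
  refine ⟨by linear_combination e1, ?_, ?_, by linear_combination e2⟩
  · linear_combination algebraMap ℂ A (1 / 6) * (e3 - e4 - 2 * e2) - (b1 - c1) * h6
  · linear_combination algebraMap ℂ A (1 / 6) * (e3 + e4 - 2 * e1) - (b2 - c2) * h6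

theorem thC (hG : G.IsHomogeneous 3) (R : RSq (ten G)) (g : GenPt G a) {b0 b1 b2 b3 : K}
    (hs : ∀ i j k, bt b0 b1 b2 b3 (-qv a i) (pv a i) (-qv a j) (pv a j) (-qv a k) (pv a k) ∈
      Sec (plk (pv a) (qv a)) 3) :
    ∃ s : T3 ℂ, Sy s ∧ tri s (pv a) (pv a) (pv a) = b0 ∧ tri s (pv a) (pv a) (qv a) = b1 ∧
      tri s (pv a) (qv a) (qv a) = b2 ∧ tri s (qv a) (qv a) (qv a) = b3 := by
  choose Γ _ e using fun i j k => lift_sec hG R g (hs i j k)
  have hb : BH (bt (C b0) (C b1) (C b2) (C b3) (X (0, 0)) (X (0, 1)) (X (0, 0)) (X (0, 1))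
      (X (0, 0)) (X (0, 1)) : BP (Fin 2) K) 3 0 := by
    have h3 : ∀ i j k : Fin 2, BH (X (0, i) * X (0, j) * X (0, k) : BP (Fin 2) K) 3 0 :=
      fun i j k => ((bh_x i).mul (bh_x j)).mul (bh_x k)
    exact ((((h3 ..).C_mul _).add ((((h3 ..).add (h3 ..)).add (h3 ..)).C_mul _)).add
      ((((h3 ..).add (h3 ..)).add (h3 ..)).C_mul _)).add ((h3 ..).C_mul _)
  obtain ⟨r, hr, er⟩ := ext_bh hG R g hb fun i j =>
    ⟨3, xx j ^ 3 * Γ i i i - 3 * xx j ^ 2 * xx i * Γ i i j + 3 * xx j * xx i ^ 2 * Γ i j j -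
      xx i ^ 3 * Γ j j j, by
      simp only [map_add, map_sub, map_mul, map_pow, map_ofNat, map_neg, e, rho_xx, rho_plk, bt]
      simp only [plk, map_sub, map_mul]
      ring⟩
  obtain ⟨s, hs, rfl⟩ := hr.eq30
  refine ⟨s, hs, bt_inj fun u v => ?_⟩
  have := congrArg (eval fun m : Fin 2 × Fin 2 => if m.2 = 0 then u else v) er
  rw [tri_alg, tri_map (eval fun m : Fin 2 × Fin 2 => if m.2 = 0 then u else v) s s
    (fun _ _ _ => by simp [MvPolynomial.algebraMap_apply])] at this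
  rw [← hs.tri_comb]
  simpa [rho_xx, bt] using this

theorem alt6_zero {L : Type} [Field L] [CharZero L] (F : Fin 6 → (Fin 5 → Fin 6) → L)
    (sw : ∀ i I r, F (I r) (Function.update I r i) = -F i I) (p q : Fin 6 → L)
    (h : ∀ i I, F i I = p i * F 0 I + q i * F 1 I) (i : Fin 6) (I : Fin 5 → Fin 6) :
    F i I = 0 := by
  have Z : ∀ i I r, I r = i → F i I = 0 := fun i I r e => by
    have := sw i I r
    rw [e, ← e, Function.update_eq_self, e] at this
    linear_combination (1 / 2 : L) * this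
  have Y : ∀ i I r s, I r = 0 → I s = 1 → F i I = 0 := fun i I r s e e' => by
    rw [h, Z 0 I r e, Z 1 I s e', mul_zero, mul_zero, add_zero]
  have P : ∀ i I, (∀ r, I r ≠ 0) → (∀ r, I r ≠ 1) → F i I = 0 := fun i I h0 h1 => by
    obtain ⟨r, -, s, -, hrs, e⟩ := Finset.exists_ne_map_eq_of_card_lt_of_maps_to
      (s := (Finset.univ : Finset (Fin 5))) (t := ((Finset.univ : Finset (Fin 6)).erase 0).erase 1)
      (by decide) (f := I) (fun r _ => by simp [h0 r, h1 r])
    rw [← neg_eq_zero, ← sw i I r]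
    exact Z _ _ s (by rw [Function.update_of_ne hrs.symm, e])
  have X0 : F 0 I = 0 := by
    by_cases h0 : ∃ r, I r = 0
    · obtain ⟨r, e⟩ := h0
      exact Z 0 I r e
    by_cases h1 : ∃ s, I s = 1
    · obtain ⟨s, e⟩ := h1
      obtain ⟨r, hr⟩ := exists_ne s
      rw [← neg_eq_zero, ← sw 0 I r]
      exact Y _ _ r s (Function.update_self ..) (by rw [Function.update_of_ne hr.symm, e])
    · exact P 0 I (fun r e => h0 ⟨r, e⟩) fun r e => h1 ⟨r, e⟩
  have X1 : F 1 I = 0 := by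
    by_cases h1 : ∃ r, I r = 1
    · obtain ⟨r, e⟩ := h1
      exact Z 1 I r e
    by_cases h0 : ∃ s, I s = 0
    · obtain ⟨s, e⟩ := h0
      obtain ⟨r, hr⟩ := exists_ne s
      rw [← neg_eq_zero, ← sw 1 I r]
      exact Y _ _ s r (by rw [Function.update_of_ne hr.symm, e]) (Function.update_self ..)
    · exact P 1 I (fun r e => h0 ⟨r, e⟩) fun r e => h1 ⟨r, e⟩
  rw [h, X0, X1, mul_zero, mul_zero, add_zero]

theorem pf_swap {A : Type} [CommRing A] {w : Fin 6 → Fin 6 → A} (hw : ∀ i j, w j i = -w i j)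
    (i : Fin 6) (I : Fin 5 → Fin 6) (r : Fin 5) :
    W4 (w (I r)) (P4 w) (Function.update I r i 0) (Function.update I r i 1)
      (Function.update I r i 2) (Function.update I r i 3) (Function.update I r i 4) =
    -W4 (w i) (P4 w) (I 0) (I 1) (I 2) (I 3) (I 4) := by
  fin_cases r <;> simp [W4, P4, hw i (I 0), hw i (I 1), hw i (I 2), hw i (I 3), hw i (I 4),
    hw (I 0) (I 1), hw (I 0) (I 2), hw (I 0) (I 3), hw (I 0) (I 4), hw (I 1) (I 2),
    hw (I 1) (I 3), hw (I 1) (I 4), hw (I 2) (I 3), hw (I 2) (I 4), hw (I 3) (I 4)] <;> ring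

theorem P4_alt {A : Type} [CommRing A] {w : Fin 6 → Fin 6 → A} (hw : ∀ i j, w j i = -w i j) :
    Alt4 (P4 w) :=
  ⟨fun i j k l => by simp only [P4, hw i j]; ring, fun i j k l => by simp only [P4, hw j k]; ring,
    fun i j k l => by simp only [P4, hw k l]; ring⟩

theorem wedge_zero {A : Type} [CommRing A] [IsDomain A] (φ : A →+* K) {w : Fin 6 → Fin 6 → A}
    (hw : ∀ i j, w j i = -w i j) (hφ : ∀ i j, φ (w i j) = plk (pv a) (qv a) i j) {t : A}
    (ht : t ≠ 0) {θ : T4 A} (e : ∀ i j k l, P4 w i j k l = t * θ i j k l) :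
    Alt4 (fun i j k l => φ (θ i j k l)) ∧
      (∀ i j k l m, W4 (pv a) (fun i j k l => φ (θ i j k l)) i j k l m = 0) ∧
      ∀ i j k l m, W4 (qv a) (fun i j k l => φ (θ i j k l)) i j k l m = 0 := by
  have : CharZero K := charZero_of_injective_algebraMap (algebraMap ℂ K).injective
  have alt : ∀ i j k l i' j' k' l', P4 w i' j' k' l' = -P4 w i j k l →
      φ (θ i' j' k' l') = -φ (θ i j k l) := fun i j k l i' j' k' l' h => by
    rw [← map_neg]
    exact congrArg φ (mul_left_cancel₀ ht (by rw [← e, h, e]; ring))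
  have key := alt6_zero (fun i I => φ (W4 (w i) θ (I 0) (I 1) (I 2) (I 3) (I 4)))
    (fun i I r => by
      rw [← map_neg]
      refine congrArg φ (mul_left_cancel₀ ht ?_)
      have := pf_swap hw i I r
      simp only [W4, e] at this ⊢
      linear_combination this) (pv a) (qv a) (fun i I => by
      simp only [W4, map_add, map_sub, map_mul, hφ, plk, pv_zero, pv_one, qv_zero, qv_one]
      ring)
  refine ⟨⟨fun i j k l => alt _ _ _ _ _ _ _ _ ((P4_alt hw).s1 ..),
    fun i j k l => alt _ _ _ _ _ _ _ _ ((P4_alt hw).s2 ..),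
    fun i j k l => alt _ _ _ _ _ _ _ _ ((P4_alt hw).s3 ..)⟩, fun i j k l m => ?_,
    fun i j k l m => ?_⟩
  · have := key 1 ![i, j, k, l, m]
    simp only [W4, map_add, map_sub, map_mul, hφ, plk1] at this
    simp only [W4]
    simp at this
    linear_combination -this
  · have := key 0 ![i, j, k, l, m]
    simp only [W4, map_add, map_sub, map_mul, hφ, plk0] at this
    simpa [W4] using this

end Crest.Agent.X262.Rig38
end
end

-- ▼ part X262/Rig38/Main
section

/-!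
# Row 262, G4, RIG (helper38): the `t`-adic iteration

* `exists_lim`;
* `exists_plk` : the Pluecker relations deform; `exists_cub` : the cubic deforms;
* `rigStmt : RigStmt`.
-/

set_option autoImplicit false
set_option linter.unusedSectionVars false

open PowerSeries

noncomputable section

namespace Crest.Agent.X262.Rig38

theorem exists_lim {ι R : Type} [CommRing R] (Good : ℕ → (ι → R⟦X⟧) → Prop) (s0 : ι → R⟦X⟧)
    (h0 : Good 0 s0)
    (step : ∀ n s, Good n s → ∃ s', Good (n + 1) s' ∧ ∀ i, X ^ (n + 1) ∣ s' i - s i) :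
    ∃ s : ι → R⟦X⟧, ∀ n, ∃ s', Good n s' ∧ ∀ i, X ^ (n + 1) ∣ s i - s' i := by
  choose nx h1 h2 using step
  let sq : ∀ n, {s // Good n s} := fun n =>
    Nat.rec (motive := fun n => {s // Good n s}) ⟨s0, h0⟩
      (fun n s => ⟨nx n s.1 s.2, h1 n s.1 s.2⟩) n
  have st : ∀ i k d, coeff k ((sq (k + d)).1 i) = coeff k ((sq k).1 i) := fun i k d => by
    induction d with
    | zero => rfl
    | succ d ih =>
      have := X_pow_dvd_iff.1 (h2 (k + d) (sq (k + d)).1 (sq (k + d)).2 i) k (by omega)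
      rw [map_sub, sub_eq_zero] at this
      exact this.trans ih
  refine ⟨fun i => mk fun k => coeff k ((sq k).1 i), fun n => ⟨(sq n).1, (sq n).2, fun i =>
    X_pow_dvd_iff.2 fun k hk => ?_⟩⟩
  obtain ⟨d, rfl⟩ : ∃ d, n = k + d := ⟨n - k, by omega⟩
  rw [map_sub, coeff_mk, st, sub_self]

theorem eq_zero_of_dvd {R : Type} [CommRing R] {f : R⟦X⟧} (h : ∀ n, X ^ (n + 1) ∣ f) : f = 0 := by
  ext k
  exact X_pow_dvd_iff.1 (h k) k (by omega)

theorem cc_eq {R : Type} [CommRing R] {f g : R⟦X⟧} {n : ℕ} (h : X ^ (n + 1) ∣ f - g) :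
    constantCoeff f = constantCoeff g := by
  have := X_pow_dvd_iff.1 h 0 (by omega)
  rwa [map_sub, sub_eq_zero, coeff_zero_eq_constantCoeff_apply,
    coeff_zero_eq_constantCoeff_apply] at this

theorem dvd_succ {R : Type} [CommRing R] {f g : R⟦X⟧} {n : ℕ} (e : f = X ^ (n + 1) * g)
    (h : constantCoeff g = 0) : X ^ (n + 1 + 1) ∣ f := by
  obtain ⟨d, rfl⟩ := X_dvd_iff.2 h
  exact ⟨d, by rw [e]; ring⟩

variable {G : MvPolynomial (Fin 6) ℂ} {K : Type} [Field K] [Algebra ℂ K] {a : Fin 8 → K}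
  {B : ℕ → Submodule ℂ⟦X⟧ K⟦X⟧}

theorem am_X : algebraMap ℂ⟦X⟧ K⟦X⟧ X = X := PowerSeries.map_X _

theorem am_C (z : ℂ) : algebraMap ℂ⟦X⟧ K⟦X⟧ (C z) = C (algebraMap ℂ K z) := PowerSeries.map_C _ _

theorem cc_am (f : ℂ⟦X⟧) :
    constantCoeff (algebraMap ℂ⟦X⟧ K⟦X⟧ f) = algebraMap ℂ K (constantCoeff f) := rfl

theorem mk_am {n : ℕ} {f g : ℂ⟦X⟧} (h : X ^ n ∣ f - g) :
    Ideal.Quotient.mk (Ideal.span {(X : K⟦X⟧) ^ n}) (algebraMap ℂ⟦X⟧ K⟦X⟧ f) =
      Ideal.Quotient.mk (Ideal.span {(X : K⟦X⟧) ^ n}) (algebraMap ℂ⟦X⟧ K⟦X⟧ g) := by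
  obtain ⟨d, e⟩ := h
  rw [Ideal.Quotient.eq, ← map_sub, e, map_mul, map_pow, am_X]
  exact Ideal.mem_span_singleton.2 ⟨_, rfl⟩

theorem FSec.sat' {π : Fin 6 → Fin 6 → K} (hB : FSec π B) (k n : ℕ) (x : K⟦X⟧)
    (h : X ^ n * x ∈ B k) : x ∈ B k := by
  induction n with
  | zero => simpa using h
  | succ n ih => exact ih (hB.sat k _ (by rwa [← mul_assoc, ← pow_succ']))

/-- the action of a matrix -/
def act (g : (Fin 6 × Fin 6) × (Fin 6 × Fin 6) → ℂ⟦X⟧) (om : Fin 6 → Fin 6 → K⟦X⟧)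
    (i j : Fin 6) : K⟦X⟧ := ∑ m, algebraMap ℂ⟦X⟧ K⟦X⟧ (g ((i, j), m)) * om m.1 m.2

theorem act_mem {om : Fin 6 → Fin 6 → K⟦X⟧} (h : ∀ i j, om i j ∈ B 1)
    (g : (Fin 6 × Fin 6) × (Fin 6 × Fin 6) → ℂ⟦X⟧) (i j : Fin 6) : act g om i j ∈ B 1 :=
  Submodule.sum_mem _ fun m _ => by
    rw [← Algebra.smul_def]
    exact Submodule.smul_mem _ _ (h _ _)

theorem act_cc {om : Fin 6 → Fin 6 → K⟦X⟧} {g : (Fin 6 × Fin 6) × (Fin 6 × Fin 6) → ℂ⟦X⟧}
    (h : ∀ m m', constantCoeff (g (m, m')) = if m = m' then 1 else 0) (i j : Fin 6) :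
    constantCoeff (act g om i j) = constantCoeff (om i j) := by
  simp [act, cc_am, h, apply_ite (algebraMap ℂ K)]

theorem exists_plk (hG : G.IsHomogeneous 3) (R : RSq (ten G)) (gp : GenPt G a)
    (hB : FSec (plk (pv a) (qv a)) B) {om : Fin 6 → Fin 6 → K⟦X⟧} (hs : ∀ i j, om j i = -om i j)
    (h1 : ∀ i j, om i j ∈ B 1) (h0 : ∀ i j, constantCoeff (om i j) = plk (pv a) (qv a) i j) :
    ∃ g : (Fin 6 × Fin 6) × (Fin 6 × Fin 6) → ℂ⟦X⟧,
      (∀ m m', constantCoeff (g (m, m')) = if m = m' then 1 else 0) ∧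
      (∀ i j, act g om j i = -act g om i j) ∧ ∀ i j k l, P4 (act g om) i j k l = 0 := by
  have e0 : act (fun m => if m.1 = m.2 then 1 else 0) om = om := by
    funext i j
    simp [act, apply_ite (algebraMap ℂ⟦X⟧ K⟦X⟧)]
  obtain ⟨g, hg⟩ := exists_lim (fun n g =>
    (∀ m m', constantCoeff (g (m, m')) = if m = m' then 1 else 0) ∧
      (∀ i j, act g om j i = -act g om i j) ∧ ∀ i j k l, X ^ (n + 1) ∣ P4 (act g om) i j k l)
    (fun m => if m.1 = m.2 then 1 else 0)
    ⟨fun m m' => by simp [apply_ite (constantCoeff (R := ℂ))], by rw [e0]; exact hs,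
      fun i j k l => by
        rw [e0, zero_add, pow_one, X_dvd_iff]
        simp only [P4, map_add, map_sub, map_mul, h0, plk]
        ring⟩ (by
    rintro n g ⟨g0, gs, gP⟩
    choose θ hθ using gP
    have w0 : ∀ i j, constantCoeff (act g om i j) = plk (pv a) (qv a) i j := fun i j => by
      rw [act_cc g0, h0]
    obtain ⟨t1, t2, t3⟩ := wedge_zero (a := a) constantCoeff gs w0 (pow_ne_zero _ X_ne_zero) hθ
    have m2 : ∀ i j k l, act g om i j * act g om k l ∈ B 2 := fun i j k l =>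
      hB.mul 1 1 _ (act_mem h1 g i j) _ (act_mem h1 g k l)
    obtain ⟨M, Ms, hM⟩ := thA hG R gp (fun i j k l => hB.red 2 (Or.inl rfl) _
      (hB.sat' 2 (n + 1) _ (hθ i j k l ▸ add_mem (sub_mem (m2 ..) (m2 ..)) (m2 ..)))) t1 t2 t3
    have e1 : ∀ i j, act (fun m => g m - X ^ (n + 1) * ∑ m', C (M m.1 m') * g (m', m.2)) om i j =
        act g om i j - X ^ (n + 1) *
          ∑ m, C (algebraMap ℂ K (M (i, j) m)) * act g om m.1 m.2 := fun i j => by
      simp only [act, map_sub, map_mul, map_pow, map_sum, am_X, am_C, sub_mul,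
        Finset.sum_sub_distrib, Finset.mul_sum, Finset.sum_mul]
      rw [Finset.sum_comm]
      simp only [mul_assoc]
    refine ⟨fun m => g m - X ^ (n + 1) * ∑ m', C (M m.1 m') * g (m', m.2),
      ⟨fun m m' => by simp [g0], fun i j => ?_, fun i j k l => ?_⟩, fun m => ⟨_, by
        rw [sub_sub_cancel_left, neg_mul_eq_mul_neg]⟩⟩
    · rw [e1, e1, gs i j]
      simp only [Ms i j, map_neg, neg_mul, Finset.sum_neg_distrib]
      ring
    · refine dvd_succ (g := θ i j k l - P2 (act g om) (fun i j =>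
        ∑ m, C (algebraMap ℂ K (M (i, j) m)) * act g om m.1 m.2) i j k l + X ^ (n + 1) *
        P4 (fun i j => ∑ m, C (algebraMap ℂ K (M (i, j) m)) * act g om m.1 m.2) i j k l) ?_ ?_
      · have := hθ i j k l
        simp only [P4, P2, e1] at this ⊢
        linear_combination this
      · have := hM i j k l
        simp only [P2] at this
        simp only [P2, map_add, map_sub, map_mul, map_sum, map_pow, constantCoeff_X,
          constantCoeff_C, w0, this]
        ring)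
  have cg : ∀ n, ∃ w : Fin 6 → Fin 6 → K⟦X⟧, (∀ i j, w j i = -w i j) ∧
      (∀ i j k l, X ^ (n + 1) ∣ P4 w i j k l) ∧ ∀ i j,
      Ideal.Quotient.mk (Ideal.span {(X : K⟦X⟧) ^ (n + 1)}) (act g om i j) =
        Ideal.Quotient.mk (Ideal.span {(X : K⟦X⟧) ^ (n + 1)}) (w i j) := fun n => by
    obtain ⟨g', ⟨-, gs, gP⟩, hd⟩ := hg n
    exact ⟨act g' om, gs, gP, fun i j => by simp only [act, map_sum, map_mul, mk_am (hd _)]⟩
  refine ⟨g, fun m m' => ?_, fun i j => eq_neg_of_add_eq_zero_left (eq_zero_of_dvd fun n => ?_),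
    fun i j k l => eq_zero_of_dvd fun n => ?_⟩
  · obtain ⟨g', ⟨g0, -⟩, hd⟩ := hg 0
    rw [cc_eq (hd _), g0]
  · obtain ⟨w, ws, -, e⟩ := cg n
    rw [← Ideal.Quotient.eq_zero_iff_dvd, map_add, e, e, ws i j, map_neg, neg_add_cancel]
  · obtain ⟨w, -, wP, e⟩ := cg n
    have := wP i j k l
    rw [← Ideal.Quotient.eq_zero_iff_dvd] at this ⊢
    simpa only [P4, map_add, map_sub, map_mul, e] using this

theorem tri_sub {R A : Type} [CommRing R] [CommRing A] [Algebra R A] (c s : T3 R) (t : R)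
    (u v w : Fin 6 → A) : tri (fun i j k => c i j k - t * s i j k) u v w =
      tri c u v w - algebraMap R A t * tri s u v w := by
  simp only [tri, Finset.mul_sum, ← Finset.sum_sub_distrib, map_sub, map_mul]
  exact Finset.sum_congr rfl fun i _ => Finset.sum_congr rfl fun j _ =>
    Finset.sum_congr rfl fun k _ => by ring

theorem cc_tri {c : T3 ℂ⟦X⟧} {c0 : T3 ℂ} (h : ∀ i j k, constantCoeff (c i j k) = c0 i j k)
    (u v w : Fin 6 → K⟦X⟧) : constantCoeff (tri c u v w) = tri c0 (fun l => constantCoeff (u l))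
      (fun l => constantCoeff (v l)) (fun l => constantCoeff (w l)) :=
  tri_map constantCoeff c c0 (fun i j k => by rw [cc_am, h]) u v w

theorem exists_cub (hG : G.IsHomogeneous 3) (R : RSq (ten G)) (gp : GenPt G a)
    (hB : FSec (plk (pv a) (qv a)) B) {p q : Fin 6 → K⟦X⟧} {u : K⟦X⟧}
    (hp : ∀ l, constantCoeff (p l) = pv a l) (hq : ∀ l, constantCoeff (q l) = qv a l)
    (hu : constantCoeff u = 1) (h1 : ∀ i j, u * plk p q i j ∈ B 1) :
    ∃ c : T3 ℂ⟦X⟧, Sy c ∧ (∀ i j k, constantCoeff (c i j k) = ten G i j k) ∧ OnL c p q := by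
  have o := gp.onL hG
  have hp' : (fun l => constantCoeff (p l)) = pv a := funext hp
  have hq' : (fun l => constantCoeff (q l)) = qv a := funext hq
  obtain ⟨c, hc⟩ := exists_lim (fun n (c : Fin 6 × Fin 6 × Fin 6 → ℂ⟦X⟧) =>
    Sy (fun i j k => c (i, j, k)) ∧ (∀ i j k, constantCoeff (c (i, j, k)) = ten G i j k) ∧
      X ^ (n + 1) ∣ tri (fun i j k => c (i, j, k)) p p p ∧
      X ^ (n + 1) ∣ tri (fun i j k => c (i, j, k)) p p q ∧
      X ^ (n + 1) ∣ tri (fun i j k => c (i, j, k)) p q q ∧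
      X ^ (n + 1) ∣ tri (fun i j k => c (i, j, k)) q q q)
    (fun m => C (ten G m.1 m.2.1 m.2.2))
    ⟨⟨fun i j k => congrArg C ((ten_sy G).l i j k), fun i j k => congrArg C ((ten_sy G).r i j k)⟩,
      fun i j k => by simp, by
      simp only [zero_add, pow_one, X_dvd_iff,
        cc_tri (c0 := ten G) (fun _ _ _ => constantCoeff_C _), hp', hq']
      exact ⟨o.h0, o.h1, o.h2, o.h3⟩⟩ (by
    rintro n c ⟨cs, c0, ⟨b0, e0⟩, ⟨b1, e1⟩, ⟨b2, e2⟩, ⟨b3, e3⟩⟩
    have m3 : ∀ i j k, bt b0 b1 b2 b3 (-(u * q i)) (u * p i) (-(u * q j)) (u * p j) (-(u * q k))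
        (u * p k) ∈ B 3 := fun i j k => by
      refine hB.sat' 3 (n + 1) _ ?_
      have e := cs.tri_comb p q (-(u * q i)) (u * p i) (-(u * q j)) (u * p j) (-(u * q k)) (u * p k)
      rw [e0, e1, e2, e3] at e
      have e' : X ^ (n + 1) * bt b0 b1 b2 b3 (-(u * q i)) (u * p i) (-(u * q j)) (u * p j)
          (-(u * q k)) (u * p k) = ∑ i', ∑ j', ∑ k', c (i', j', k') •
            (u * plk p q i i' * (u * plk p q j j') * (u * plk p q k k')) := by
        refine Eq.trans (by simp only [bt]; ring) (e.symm.trans ?_)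
        simp only [tri, Algebra.smul_def, plk]
        exact Finset.sum_congr rfl fun i _ => Finset.sum_congr rfl fun j _ =>
          Finset.sum_congr rfl fun k _ => by ring
      rw [e']
      exact Submodule.sum_mem _ fun i' _ => Submodule.sum_mem _ fun j' _ =>
        Submodule.sum_mem _ fun k' _ => Submodule.smul_mem _ _
          (hB.mul 2 1 _ (hB.mul 1 1 _ (h1 ..) _ (h1 ..)) _ (h1 ..))
    obtain ⟨s, ss, s0, s1, s2, s3⟩ := thC hG R gp (b0 := constantCoeff b0)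
      (b1 := constantCoeff b1) (b2 := constantCoeff b2) (b3 := constantCoeff b3) fun i j k => by
        have := hB.red 3 (Or.inr rfl) _ (m3 i j k)
        simpa only [bt, map_add, map_mul, map_neg, hu, hp, hq, one_mul] using this
    have nx : ∀ (x y z : Fin 6 → K⟦X⟧) (b : K⟦X⟧),
        tri (fun i j k => c (i, j, k)) x y z = X ^ (n + 1) * b →
        tri s (fun l => constantCoeff (x l)) (fun l => constantCoeff (y l))
          (fun l => constantCoeff (z l)) = constantCoeff b → X ^ (n + 1 + 1) ∣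
        tri (fun i j k => c (i, j, k) - X ^ (n + 1) * C (s i j k)) x y z := fun x y z b e e' => by
      refine dvd_succ (g := b - tri (fun i j k => (C (s i j k) : ℂ⟦X⟧)) x y z) ?_ ?_
      · rw [tri_sub (fun i j k => c (i, j, k)), e, map_pow, am_X, mul_sub]
      · rw [map_sub, cc_tri (c0 := s) (fun _ _ _ => constantCoeff_C _), e', sub_self]
    exact ⟨fun m => c m - X ^ (n + 1) * C (s m.1 m.2.1 m.2.2),
      ⟨⟨fun i j k => by beta_reduce; rw [cs.l, ss.l], fun i j k => by beta_reduce; rw [cs.r, ss.r]⟩,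
        fun i j k => by simp [c0], nx _ _ _ _ e0 (by rw [hp', s0]),
        nx _ _ _ _ e1 (by rw [hp', hq', s1]), nx _ _ _ _ e2 (by rw [hp', hq', s2]),
        nx _ _ _ _ e3 (by rw [hq', s3])⟩,
      fun m => ⟨_, by rw [sub_sub_cancel_left, neg_mul_eq_mul_neg]⟩⟩)
  have lim : ∀ x y z : Fin 6 → K⟦X⟧, (∀ n (c' : Fin 6 × Fin 6 × Fin 6 → ℂ⟦X⟧),
      (X ^ (n + 1) ∣ tri (fun i j k => c' (i, j, k)) p p p ∧
      X ^ (n + 1) ∣ tri (fun i j k => c' (i, j, k)) p p q ∧
      X ^ (n + 1) ∣ tri (fun i j k => c' (i, j, k)) p q q ∧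
      X ^ (n + 1) ∣ tri (fun i j k => c' (i, j, k)) q q q) →
      X ^ (n + 1) ∣ tri (fun i j k => c' (i, j, k)) x y z) →
      tri (fun i j k => c (i, j, k)) x y z = 0 := fun x y z h => eq_zero_of_dvd fun n => by
    obtain ⟨c', ⟨-, -, h'⟩, hd⟩ := hc n
    have := h n c' h'
    rw [← Ideal.Quotient.eq_zero_iff_dvd] at this ⊢
    simpa only [tri, map_sum, map_mul, mk_am (hd _)] using this
  have sy : ∀ m m', (∀ c' : Fin 6 × Fin 6 × Fin 6 → ℂ⟦X⟧, Sy (fun i j k => c' (i, j, k)) →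
      c' m = c' m') → c m = c m' := fun m m' h => sub_eq_zero.1 (eq_zero_of_dvd fun n => by
    obtain ⟨c', ⟨cs, -⟩, hd⟩ := hc n
    have := dvd_sub (hd m) (hd m')
    rwa [h c' cs, sub_sub_sub_cancel_right] at this)
  refine ⟨fun i j k => c (i, j, k), ⟨fun i j k => sy _ _ fun c' h => h.l i j k,
    fun i j k => sy _ _ fun c' h => h.r i j k⟩, fun i j k => ?_,
    lim _ _ _ fun _ _ h => h.1, lim _ _ _ fun _ _ h => h.2.1, lim _ _ _ fun _ _ h => h.2.2.1,
    lim _ _ _ fun _ _ h => h.2.2.2⟩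
  obtain ⟨c', ⟨-, c0, -⟩, hd⟩ := hc 0
  rw [cc_eq (hd _), c0]

/-- **RIG** -/
theorem rigStmt : RigStmt := by
  intro G hG R K _ _ a gp B hB om hs h1 h0
  have : CharZero K := charZero_of_injective_algebraMap (algebraMap ℂ K).injective
  obtain ⟨g, g0, gs, gP⟩ := exists_plk hG R gp hB hs h1 h0
  obtain ⟨w, hw⟩ : ∃ w, w = act g om := ⟨_, rfl⟩
  have w1 : ∀ i j, w i j ∈ B 1 := hw ▸ act_mem h1 g
  have w0 : ∀ i j, constantCoeff (w i j) = plk (pv a) (qv a) i j := fun i j => by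
    rw [hw, act_cc g0, h0]
  rw [← hw] at gs gP
  have hu : constantCoeff (w 0 1) = 1 := by rw [w0, plk01]
  have hv : w 0 1 * (w 0 1)⁻¹ = 1 := PowerSeries.mul_inv_cancel _ (by rw [hu]; exact one_ne_zero)
  have hv0 : constantCoeff (w 0 1)⁻¹ = 1 := by rw [constantCoeff_inv, hu, inv_one]
  have wd : ∀ i, w i i = 0 := fun i => by
    have h2 : (C (1 / 2 : K) : K⟦X⟧) * 2 = 1 := by
      rw [show (2 : K⟦X⟧) = C 2 from (map_ofNat _ 2).symm, ← map_mul]
      norm_num
    linear_combination C (1 / 2 : K) * gs i i - w i i * h2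
  obtain ⟨p, hp⟩ : ∃ p : Fin 6 → K⟦X⟧, ∀ l, p l = -((w 0 1)⁻¹ * w 1 l) := ⟨_, fun _ => rfl⟩
  obtain ⟨q, hq⟩ : ∃ q : Fin 6 → K⟦X⟧, ∀ l, q l = (w 0 1)⁻¹ * w 0 l := ⟨_, fun _ => rfl⟩
  have p0 : ∀ l, constantCoeff (p l) = pv a l := fun l => by simp [hp, hv0, w0, plk1]
  have q0 : ∀ l, constantCoeff (q l) = qv a l := fun l => by simp [hq, hv0, w0, plk0]
  have e : ∀ i j, w i j = w 0 1 * plk p q i j := fun i j => by
    have := gP 0 1 i j
    simp only [P4] at this
    simp only [plk, hp, hq]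
    linear_combination (w 0 1)⁻¹ * this - (w i j + (w 0 1)⁻¹ * (w 0 i * w 1 j - w 0 j * w 1 i)) * hv
  obtain ⟨c, cs, c0, on⟩ := exists_cub hG R gp hB p0 q0 hu fun i j => e i j ▸ w1 i j
  have e1 := pv_of (u := p) (by rw [hp, gs 0 1]; linear_combination hv) (by rw [hp, wd]; ring) q
  have e2 := qv_of (v := q) (by rw [hq, wd]; ring) (by rw [hq]; linear_combination hv) p
  refine ⟨⟨c, cs, c0, fun m m' => g (m, m'), g0, ![p 2, p 3, p 4, p 5, q 2, q 3, q 4, q 5],
    fun i => ?_, w 0 1, hu, fun i j => ?_, by rw [e1, e2]; exact on⟩⟩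
  · fin_cases i <;> simp [p0, q0, pv, qv]
  · rw [e1, e2, ← e, hw]
    simp only [act, Algebra.smul_def]

end Crest.Agent.X262.Rig38
end
end

-- ▼ part X262/Alg44/G4
section

/-!
# Row 262, G4 (helper44): the layer from START, LIFT and the vanishing of one-forms
-/

set_option autoImplicit false

namespace Crest.Agent.X262.Alg44

open Crest.Agent.X277 Crest.Agent.X277.BD

theorem ampStmt : G4.AmpStmt := fun F L _ _ _ _ _ B => by
  have hd : dim ℂ F = 2 := by simpa using Module.finrank_eq_card_basis B.b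
  have hf : Free (G4.box B.Λ B.LL - B.m • G4.exc B.Λ B.S.y) :=
    Lin.free (Lin.symm ⟨B.u, B.u_ne, B.plk⟩) (free_mxf _)
  exact ⟨StAmp.Sep.free (by omega) B.LL_on fun _ _ _ _ _ hu hu' hc =>
    StAmp.sep B.pf B.m_pos hf hu hu' hc,
    StAmp.ampStmt F L B.S.P _ _ hd B.pf _ B.LL_on _ B.m_pos hf⟩

/-- **G4** -/
theorem g4L_of (hQ : KV.IrrQ) (h0 : G4.StartStmt) (h1 : G4.LiftStmt) : Top.G4LStmt :=
  G4.g4L_of h0 ampStmt Be94.kapStmt h1 (fun _ _ _ _ _ _ _ Λ h => Fano21.genPt Λ h)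
    (fun _ _ _ _ _ _ _ Λ h => Fano21.nrmSec Λ h) Fano21.rsqStmt Rig38.rigStmt (alg2_of hQ)

end Crest.Agent.X262.Alg44
end

-- ▼ part X262/KV/Irr
section

/-!
# Row 262, G4 (helper68): no regular one-forms

* `irrQ_of` : `IrrQ` from Hodge symmetry.
-/

set_option autoImplicit false

open Module

namespace Crest.Agent.X262.KV

open Crest.Agent.X277 Crest.Agent.X277.AN.G1

theorem irrQ_of (hI : Lat.IrrStmt) : IrrQ := by
  intro F _ _ _ P b c hc h ω hω
  obtain ⟨X⟩ := nonempty_AnP (P := P) b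
  have h1 := Noe83.chi_eq X hc
  have h2 := (hI F P b X).2
  have := Int23.fin_R1 (Coh.sv P) b
  have h3 : finrank ℂ (Coh.sv P).R1 = 0 := by
    unfold Surf.h0 at h
    omega
  have h4 : ω ∈ (Coh.sv P).R1 := (Submodule.mem_iInf _).2 hω
  rwa [Submodule.finrank_eq_zero.1 h3] at h4

end Crest.Agent.X262.KV
end

-- ▼ part X262/KV/IrrQ
section

/-!
# Row 262, G4 (helper68): no regular one-forms, unconditional form
-/

set_option autoImplicit false

namespace Crest.Agent.X262.KV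

theorem irrQ : IrrQ := irrQ_of Irr93.irrStmt

end Crest.Agent.X262.KV
end

-- ▼ part X262/Lift8/Bl
section

/-!
# Row 262, G4 / LIFT (helper8), part 4: the geometry of the blow-up of the diagonal

* `at_of_le`, `at_mxf_of`, `ZO.inter`, `zo_at` : generalities;
* `Bl.at_box`, `Bl.at_off`, `Bl.On`, `Bl.On.at_dgl`, `Bl.On.at_sub`, `Bl.ne_iff` : local generators;
* `Bl.On.sub_swap`, `Bl.On.swap_mem`, `Bl.swap_mk` : the swap.
-/

set_option autoImplicit false

noncomputable section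

namespace Crest.Agent.X262.Lift8

open Crest.Agent.X277 Crest.Agent.X277.Lef Crest.Agent.X277.AN.G1 Crest.Agent.X277.BD
open Crest.Agent.X277.BD.Br (On oP kP At)
open Crest.Agent.X262.St91 (dgl wd)
open Crest.Agent.R274.Prod1_134 (IsPF)

variable {F L : Type} [Field F] [Algebra ℂ F] [Field L] [Algebra ℂ L]

section Gen

variable {P : PModel ℂ F} {x : Pts P} {a : BD ℂ F} {g : F}

theorem at_of_le {Q : PModel ℂ F} {y : Pts Q} (h : (lp x).O ≤ (lp y).O) (hg : At a x g) :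
    At a y g := fun V hV => hg V fun f hf => hV f (h hf)

theorem at_mxf_of {ι : Type} [Fintype ι] {s : ι → F} (hg : g ≠ 0)
    (h1 : ∀ l, s l / g ∈ (lp x).O) (h2 : ∃ l, ev (s l / g) x ≠ 0) : At (mxf ℂ s) x g := by
  obtain ⟨l, hl⟩ := h2
  have h0 : s l ≠ 0 := fun h => LP.ne_zero_of_ne hl (by rw [h, zero_div])
  refine (Br.at_mxf h0 fun j => ?_).of_ev hl
  rw [← div_div_div_cancel_right₀ hg]
  exact LP.div_mem (h1 j) hl

theorem ZO.inter {U U' : Set (Pts P)} (h : ZO U) (h' : ZO U') : ZO (U ∩ U') := by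
  classical
  rintro x ⟨hx, hx'⟩
  obtain ⟨T, h1, h2⟩ := h x hx
  obtain ⟨T', h3, h4⟩ := h' x hx'
  exact ⟨T ∪ T', fun f hf => (Finset.mem_union.1 hf).elim (h1 f) (h3 f), fun x' h5 =>
    ⟨h2 x' fun f hf => h5 f (Finset.mem_union_left _ hf),
      h4 x' fun f hf => h5 f (Finset.mem_union_right _ hf)⟩⟩


theorem zo_at (a : BD ℂ F) (g : F) : ZO {x : Pts P | At a x g} := by
  classical
  intro x h
  obtain ⟨T, h1, h2⟩ := Br.exists_finset_le (a := a) (S := (lp x).O) (u := g)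
    fun V hV => (h V hV).le
  obtain ⟨T', h3, h4⟩ := Br.exists_finset_le (a := -a) (S := (lp x).O) (u := g⁻¹)
    fun V hV => (At.neg h V hV).le
  refine ⟨T ∪ T', fun f hf => (Finset.mem_union.1 hf).elim (h1 f) (h3 f), fun x' h5 V hV =>
    le_antisymm (h2 V fun f hf => hV f (h5 f (Finset.mem_union_left _ hf))) ?_⟩
  have h6 := h4 V fun f hf => hV f (h5 f (Finset.mem_union_right _ hf))
  rwa [map_inv₀, val_neg, inv_le_inv₀ (RZ.pos (At.ne h)) (a.val_pos V)] at h6

end Gen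

variable {α β : F →ₐ[ℂ] L} {h : IsPF α β} {P : PModel ℂ F}



theorem div_mem_chD {O : Subalgebra ℂ F} {c : F} (hc : c ∈ O) (e : L) :
    (α c - β c) / e ∈ chD α β O e := Algebra.subset_adjoin (Or.inr ⟨c, hc, rfl⟩)

namespace Bl

variable (B : Bl h P) (y : Pts B.Y)

theorem box_mul {a c : F} (ha : a ∈ (lp (B.p y)).O) (hc : c ∈ (lp (B.q y)).O) :
    α a * β c ∈ (lp y).O := (B.dom y).le (Cns.mem_mk h ha hc)

theorem ev_mul {a c : F} (ha : a ∈ (lp (B.p y)).O) (hc : c ∈ (lp (B.q y)).O) :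
    ev (α a * β c) y = ev a (B.p y) * ev c (B.q y) :=
  ((B.dom y).eq _ (Cns.mem_mk h ha hc)).trans (Cns.ev_mk h ha hc)

theorem left_mem {a : F} (ha : a ∈ (lp (B.p y)).O) : α a ∈ (lp y).O := by
  simpa using B.box_mul y ha (one_mem _)

theorem right_mem {a : F} (ha : a ∈ (lp (B.q y)).O) : β a ∈ (lp y).O := by
  simpa using B.box_mul y (one_mem _) ha

theorem ev_left {a : F} (ha : a ∈ (lp (B.p y)).O) : ev (α a) y = ev a (B.p y) := by
  simpa [ev] using B.ev_mul y ha (one_mem _)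

theorem ev_right {a : F} (ha : a ∈ (lp (B.q y)).O) : ev (β a) y = ev a (B.q y) := by
  simpa [ev] using B.ev_mul y (one_mem _) ha

theorem at_box {M M' : BD ℂ F} {g g' : F} (hg : At M (B.p y) g) (hg' : At M' (B.q y) g') :
    At (pb α M + pb β M') y (α g * β g') :=
  at_of_le (B.dom y).le ((At.pb (Cns.fst_p P P h) (by rwa [Cns.fst_mk])).add
    (At.pb (Cns.snd_p P P h) (by rwa [Cns.snd_mk])))

theorem at_left {M : BD ℂ F} {g : F} (hg : At M (B.p y) g) : At (pb α M) y (α g) := by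
  simpa using B.at_box y hg (Br.at_zero _)

theorem at_right {M : BD ℂ F} {g : F} (hg : At M (B.q y) g) : At (pb β M) y (β g) := by
  simpa using B.at_box y (Br.at_zero _) hg

theorem p_mem_iff {i : Fin (P.N + 1)} : B.p y ∈ pat P i ↔ At (pb α (oP P)) y (α (P.y i)) := by
  refine ⟨fun hi => B.at_left y (Br.at_y hi), fun hi => ?_⟩
  obtain ⟨j, hj⟩ := exists_pat (B.p y)
  have h1 := hi.ev_div_ne (B.at_left y (Br.at_y hj))
  rwa [← map_div₀, B.ev_left y (y_mem hj i), ← mem_pat_iff hj] at h1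

theorem q_mem_iff {i : Fin (P.N + 1)} : B.q y ∈ pat P i ↔ At (pb β (oP P)) y (β (P.y i)) := by
  refine ⟨fun hi => B.at_right y (Br.at_y hi), fun hi => ?_⟩
  obtain ⟨j, hj⟩ := exists_pat (B.q y)
  have h1 := hi.ev_div_ne (B.at_right y (Br.at_y hj))
  rwa [← map_div₀, B.ev_right y (y_mem hj i), ← mem_pat_iff hj] at h1

theorem wd_div (i j : Fin (P.N + 1)) (kl : Fin (P.N + 1) × Fin (P.N + 1)) :
    wd (fun i => α (P.y i)) (fun i => β (P.y i)) kl / (α (P.y i) * β (P.y j)) =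
      α (P.y kl.1 / P.y i) * β (P.y kl.2 / P.y j) - α (P.y kl.2 / P.y i) * β (P.y kl.1 / P.y j) := by
  simp only [wd, map_div₀, div_mul_div_comm, sub_div]

variable {y}

/-- off the diagonal the exceptional divisor is trivial -/
theorem at_off (hy : B.p y ≠ B.q y) : At (dgl α β P.y) y 1 := by
  obtain ⟨i, hi⟩ := exists_pat (B.p y)
  obtain ⟨j, hj⟩ := exists_pat (B.q y)
  have h1 := B.at_box y (Br.at_y hi) (Br.at_y hj)
  have h2 : At (mxf ℂ (wd (fun i => α (P.y i)) fun i => β (P.y i))) y (α (P.y i) * β (P.y j)) := by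
    refine at_mxf_of h1.ne (fun kl => ?_) ?_
    · rw [wd_div]
      exact sub_mem (B.box_mul y (y_mem hi _) (y_mem hj _)) (B.box_mul y (y_mem hi _) (y_mem hj _))
    · by_contra h3
      push Not at h3
      have h4 : ∀ l, ev (P.y l / P.y j) (B.q y) =
          ev (P.y l / P.y i) (B.p y) * ev (P.y i / P.y j) (B.q y) := fun l => by
        have h5 := h3 (i, l)
        rw [wd_div, ev, LP.v_sub (B.box_mul y (y_mem hi _) (y_mem hj _))
          (B.box_mul y (y_mem hi _) (y_mem hj _)), sub_eq_zero, ← ev, ← ev,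
          B.ev_mul y (y_mem hi _) (y_mem hj _), B.ev_mul y (y_mem hi _) (y_mem hj _),
          div_self (P.y_ne i)] at h5
        simpa [ev] using h5
      have h5 : ev (P.y i / P.y j) (B.q y) ≠ 0 := fun h6 => by
        have h7 := h4 j
        rw [h6, mul_zero, div_self (P.y_ne j)] at h7
        simp [ev] at h7
      refine hy (pt_ext hi ((mem_pat_iff hj).2 h5) fun l => ?_)
      rw [y_div j i l, ev, ev, LP.v_div (y_mem hj l) h5, eq_div_iff h5, ← y_div j i l]
      exact (h4 l).symm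
  have h3 := h1.sub h2
  rwa [div_self h1.ne] at h3

/-- the local structure over the diagonal -/
structure On (y : Pts B.Y) (a : F) : Prop where
  eq : B.p y = B.q y
  mem : a ∈ (lp (B.p y)).O
  ne : α a - β a ≠ 0
  of : (lp y).Of (chD α β (lp (B.p y)).O (α a - β a))

theorem exists_on (hy : B.p y = B.q y) : ∃ a, B.On y a :=
  (B.on y hy).imp fun _ h => ⟨hy, h.1, h.2.1, h.2.2⟩

variable {B} {a : F}

theorem On.div_mem (H : B.On y a) {c : F} (hc : c ∈ (lp (B.p y)).O) :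
    (α c - β c) / (α a - β a) ∈ (lp y).O := H.of.le (div_mem_chD hc _)

theorem On.right_mem (H : B.On y a) {c : F} (hc : c ∈ (lp (B.p y)).O) : β c ∈ (lp y).O :=
  B.right_mem y (H.eq ▸ hc)

theorem On.e_mem (H : B.On y a) : α a - β a ∈ (lp y).O :=
  sub_mem (B.left_mem y H.mem) (H.right_mem H.mem)

theorem On.ev_e (H : B.On y a) : ev (α a - β a) y = 0 := by
  rw [ev, LP.v_sub (B.left_mem y H.mem) (H.right_mem H.mem), ← ev, ← ev, B.ev_left y H.mem,
    B.ev_right y (H.eq ▸ H.mem), H.eq, sub_self]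

theorem On.exists_ne (H : B.On y a) {i : Fin (P.N + 1)} (hi : B.p y ∈ pat P i) :
    ∃ l, ev ((α (P.y l / P.y i) - β (P.y l / P.y i)) / (α a - β a)) y ≠ 0 := by
  by_contra h1
  push Not at h1
  have h2 : ∀ c ∈ (lp (B.p y)).O, ∀ d ∈ (lp (B.p y)).O,
      ev ((α (c * d) - β (c * d)) / (α a - β a)) y =
        ev (α c) y * ev ((α d - β d) / (α a - β a)) y +
          ev ((α c - β c) / (α a - β a)) y * ev (β d) y := fun c hc d hd => by
    unfold ev
    rw [← (lp y).v_mul (B.left_mem y hc) (H.div_mem hd),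
      ← (lp y).v_mul (H.div_mem hc) (H.right_mem hd), ← (lp y).v_add
        (mul_mem (B.left_mem y hc) (H.div_mem hd)) (mul_mem (H.div_mem hc) (H.right_mem hd)),
      map_mul, map_mul]
    congr 1
    ring
  have h3 : ∀ c ∈ P.A i, ev ((α c - β c) / (α a - β a)) y = 0 := fun c hc => by
    induction hc using Algebra.adjoin_induction with
    | mem c hc =>
      obtain ⟨l, rfl⟩ := hc
      exact h1 l
    | algebraMap c => simp [ev]
    | add c d hc hd h4 h5 =>
      have h6 := (lp y).v_add (H.div_mem (A_le hi hc)) (H.div_mem (A_le hi hd))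
      rw [← add_div, ← add_sub_add_comm, ← map_add, ← map_add] at h6
      exact h6.trans (by rw [← ev, ← ev, h4, h5, add_zero])
    | mul c d hc hd h4 h5 => rw [h2 c (A_le hi hc) d (A_le hi hd), h4, h5, mul_zero, zero_mul,
        add_zero]
  obtain ⟨c, hc, d, hd, h4, h5⟩ := (mem_lp_iff hi).1 H.mem
  have h6 := h2 a H.mem d (A_le hi hd)
  rw [h5, h3 c hc, h3 d hd, div_self H.ne, B.ev_right y (H.eq ▸ A_le hi hd), ← H.eq] at h6
  exact h4 (by simpa [ev] using h6.symm)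

/-- over the diagonal `α a - β a` is an equation of the exceptional divisor -/
theorem On.at_dgl (H : B.On y a) : At (dgl α β P.y) y (α a - β a)⁻¹ := by
  obtain ⟨i, hi⟩ := exists_pat (B.p y)
  have h1 := B.at_box y (Br.at_y hi) (Br.at_y (H.eq ▸ hi))
  have h2 : At (mxf ℂ (wd (fun i => α (P.y i)) fun i => β (P.y i))) y
      (α (P.y i) * β (P.y i) * (α a - β a)) := by
    refine at_mxf_of (mul_ne_zero h1.ne H.ne) (fun kl => ?_) ?_
    · rw [← div_div, wd_div]
      convert sub_mem (mul_mem (H.div_mem (y_mem hi kl.1)) (H.right_mem (y_mem hi kl.2)))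
        (mul_mem (H.div_mem (y_mem hi kl.2)) (H.right_mem (y_mem hi kl.1))) using 1
      ring
    · obtain ⟨l, hl⟩ := H.exists_ne hi
      refine ⟨(l, i), ?_⟩
      rw [← div_div, wd_div, div_self (P.y_ne i)]
      simpa using hl
  have h3 := h1.sub h2
  rwa [div_mul_eq_div_div, div_self h1.ne, one_div] at h3

theorem On.at_sub (H : B.On y a) {M : BD ℂ F} {g : F} (hg : At M (B.p y) g) (j : ℕ) :
    At (pb α M + pb β M - j • dgl α β P.y) y (α g * β g * (α a - β a) ^ j) := by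
  have h1 := (B.at_box y hg (H.eq ▸ hg)).sub (H.at_dgl.nsmul j)
  rwa [inv_pow, div_inv_eq_mul] at h1

variable (B)

theorem at_sub_off (hy : B.p y ≠ B.q y) {M M' : BD ℂ F} {g g' : F} (hg : At M (B.p y) g)
    (hg' : At M' (B.q y) g') (j : ℕ) :
    At (pb α M + pb β M' - j • dgl α β P.y) y (α g * β g') := by
  simpa using (B.at_box y hg hg').sub ((B.at_off hy).nsmul j)

theorem ne_iff : B.p y ≠ B.q y ↔ At (dgl α β P.y) y 1 := by
  refine ⟨B.at_off, fun h1 hy => ?_⟩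
  obtain ⟨a, H⟩ := B.exists_on hy
  exact h1.ev_div_ne H.at_dgl (by rw [one_div, inv_inv, H.ev_e])

theorem dgl_mem : dgl α β P.y ∈ Br.On B.Y := fun y => by
  by_cases hy : B.p y = B.q y
  · obtain ⟨a, H⟩ := B.exists_on hy
    exact ⟨_, H.at_dgl⟩
  · exact ⟨_, B.at_off hy⟩

theorem box_mem {M M' : BD ℂ F} (hM : M ∈ Br.On P) (hM' : M' ∈ Br.On P) :
    pb α M + pb β M' ∈ Br.On B.Y := fun y => by
  obtain ⟨g, hg⟩ := hM (B.p y)
  obtain ⟨g', hg'⟩ := hM' (B.q y)
  exact ⟨_, B.at_box y hg hg'⟩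

include B in
theorem dgl_nonneg : 0 ≤ dgl α β P.y := by
  refine Br.le_of_at (P := B.Y) fun y => ?_
  by_cases hy : B.p y = B.q y
  · obtain ⟨a, H⟩ := B.exists_on hy
    exact ⟨1, _, Br.at_zero y, H.at_dgl, by rw [one_div, inv_inv]; exact H.e_mem⟩
  · exact ⟨1, 1, Br.at_zero y, B.at_off hy, by simp⟩

/-! ### the swap -/

variable {B} {τ : L →ₐ[ℂ] L} (h1 : ∀ x, τ (α x) = β x) (h2 : ∀ x, τ (β x) = α x)

include h1 h2

theorem On.sub_swap (H : B.On y a) {f : L} (hf : f ∈ (lp y).O) :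
    (f - τ f) / (α a - β a) ∈ (lp y).O := by
  have h3 : ∀ f ∈ (lp y).O, (f - τ f) / (α a - β a) ∈ (lp y).O →
      τ f ∈ (lp y).O ∧ ev (τ f) y = ev f y := fun f hf h4 => by
    have h5 : τ f = f - (f - τ f) / (α a - β a) * (α a - β a) := by
      rw [div_mul_cancel₀ _ H.ne, sub_sub_cancel]
    refine ⟨h5 ▸ sub_mem hf (mul_mem h4 H.e_mem), ?_⟩
    rw [h5, ev, LP.v_sub hf (mul_mem h4 H.e_mem), (lp y).v_mul h4 H.e_mem,
      show (lp y).v (α a - β a) = 0 from H.ev_e, mul_zero, sub_zero, ev]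
  have h4 : ∀ f ∈ chD α β (lp (B.p y)).O (α a - β a), (f - τ f) / (α a - β a) ∈ (lp y).O := by
    intro f hf
    induction hf using Algebra.adjoin_induction with
    | mem f hf =>
      rcases hf with (⟨c, hc, rfl⟩ | ⟨c, hc, rfl⟩) | ⟨c, hc, rfl⟩
      · rw [h1]
        exact H.div_mem hc
      · rw [h2, ← neg_sub, neg_div]
        exact neg_mem (H.div_mem hc)
      · rw [map_div₀, map_sub, map_sub, h1, h2, h1, h2, ← neg_div_neg_eq (β c - α c), neg_sub,
          neg_sub, sub_self, zero_div]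
        exact zero_mem _
    | algebraMap c => simp
    | add f g _ _ hf hg =>
      rw [map_add, add_sub_add_comm, add_div]
      exact add_mem hf hg
    | mul f g hf0 hg0 hf hg =>
      convert add_mem (mul_mem (H.of.le hf0) hg) (mul_mem hf (h3 g (H.of.le hg0) hg).1) using 1
      rw [map_mul]
      ring
  obtain ⟨c, hc, d, hd, h5, h6⟩ := H.of.loc f hf
  have h7 : (lp y).v (τ d) ≠ 0 := by
    rw [← ev, (h3 d (H.of.le hd) (h4 d hd)).2]
    exact h5
  have h8 := LP.ne_zero_of_ne h7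
  have h9 : (f - τ f) / (α a - β a) =
      ((c - τ c) / (α a - β a) - f * ((d - τ d) / (α a - β a))) / τ d := by
    rw [← h6, map_mul, eq_div_iff h8]
    ring
  exact h9 ▸ LP.div_mem (sub_mem (h4 c hc) (mul_mem hf (h4 d hd))) h7

theorem On.swap_mem (H : B.On y a) {f : L} (hf : f ∈ (lp y).O) : τ f ∈ (lp y).O := by
  have h3 := sub_mem hf (mul_mem (H.sub_swap h1 h2 hf) H.e_mem)
  rwa [div_mul_cancel₀ _ H.ne, sub_sub_cancel] at h3

omit B in
theorem swap_mk (x x' : Pts P) {f : L} (hf : f ∈ (lp (Cns.mk h x' x)).O) :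
    τ f ∈ (lp (Cns.mk h x x')).O := by
  rw [Cns.lp_mk] at hf
  refine ((Cns.lpP_dom h (M := (lp (Cns.mk h x x')).comap (Plc.ofHom τ))
    ⟨fun c hc => ⟨Algebra.mem_top, Algebra.mem_top, ?_⟩, fun c hc => ?_⟩
    ⟨fun c hc => ⟨Algebra.mem_top, Algebra.mem_top, ?_⟩, fun c hc => ?_⟩).le hf).2
  · simpa [h1] using Cns.mem_mk h (one_mem (lp x).O) hc
  · simpa [LP.comap_v, h1, ev] using Cns.ev_mk h (one_mem (lp x).O) hc
  · simpa [h2] using Cns.mem_mk h hc (one_mem (lp x').O)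
  · simpa [LP.comap_v, h2, ev] using Cns.ev_mk h hc (one_mem (lp x').O)

end Bl

end Crest.Agent.X262.Lift8
end
end

-- ▼ part X262/Lift8/Prs
section

/-!
# Row 262, G4 / LIFT (helper8), part 5: moves on the blow-up of the diagonal

* `ten_sub`, `ten_chD`, `ψ_mem_of_of` : the square of a move acts on the charts of the blow-up;
* `Bl.On.same`, `Bl.same_off` : the deformations of the charts agree;
* `Bl.On.coeff_mem` : the order along the diagonal can be read off the coefficients;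
* `span_of_approx` : a saturated module is spanned by lifts of generators.
-/

set_option autoImplicit false

open PowerSeries

noncomputable section

namespace Crest.Agent.X262.Lift8

open Crest.Agent.X277 Crest.Agent.X277.Lef Crest.Agent.X277.AN.G1 Crest.Agent.X277.BD
open Crest.Agent.X277.BD.Br (oP kP At)
open Crest.Agent.X262.St91 (dgl)
open Crest.Agent.X262.Mv99
open Crest.Agent.R274.Prod1_134 (IsPF)

variable {F L : Type} [Field F] [Algebra ℂ F] [Field L] [Algebra ℂ L]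

/-- a saturated module is spanned by lifts of generators of its reduction -/
theorem span_of_approx {κ : Type} [Fintype κ] {T : Submodule ℂ⟦X⟧ L⟦X⟧}
    (sat : ∀ s, X * s ∈ T → s ∈ T) {v : κ → L⟦X⟧} (hv : ∀ i, v i ∈ T)
    (h : ∀ s ∈ T, constantCoeff s ∈ Submodule.span ℂ (Set.range fun i => constantCoeff (v i)))
    {s : L⟦X⟧} (hs : s ∈ T) : s ∈ Submodule.span ℂ⟦X⟧ (Set.range v) := by
  have h1 : ∀ (g : ℂ⟦X⟧) (x : L⟦X⟧), g • x = map (algebraMap ℂ L) g * x := Algebra.smul_def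
  have h2 : ∀ s : T, ∃ (c : κ → ℂ) (s' : T),
      (s : L⟦X⟧) = ∑ i, (C (c i) : ℂ⟦X⟧) • v i + X * (s' : L⟦X⟧) := by
    rintro ⟨s, hs⟩
    obtain ⟨c, hc⟩ := (Submodule.mem_span_range_iff_exists_fun ℂ).1 (h s hs)
    have h3 : X ∣ s - ∑ i, (C (c i) : ℂ⟦X⟧) • v i := by
      rw [X_dvd_iff, map_sub, ← hc, map_sum, sub_eq_zero]
      refine Finset.sum_congr rfl fun i _ => ?_
      rw [h1, map_mul, map_C, constantCoeff_C, Algebra.smul_def]
    obtain ⟨s', h3⟩ := h3
    exact ⟨c, ⟨s', sat _ (h3 ▸ sub_mem hs (sum_mem fun i _ => T.smul_mem _ (hv i)))⟩,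
      by rw [← h3, add_sub_cancel]⟩
  choose c nx h2 using h2
  have h3 : ∀ (n : ℕ) (s : T), X ^ n ∣ (s : L⟦X⟧) -
      ∑ i, (PowerSeries.mk fun j => c (nx^[j] s) i : ℂ⟦X⟧) • v i := by
    intro n
    induction n with
    | zero => simp
    | succ n ih =>
      intro s
      have h4 : ∀ i, (PowerSeries.mk fun j => c (nx^[j] s) i : ℂ⟦X⟧) =
          C (c s i) + X * PowerSeries.mk fun j => c (nx^[j] (nx s)) i := fun i => by
        rw [eq_C_add (PowerSeries.mk fun j => c (nx^[j] s) i)]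
        congr 2
        ext j
        simp [sh]
      obtain ⟨w, hw⟩ := ih (nx s)
      refine ⟨w, ?_⟩
      have h5 : ∀ i, (X * PowerSeries.mk fun j => c (nx^[j] (nx s)) i : ℂ⟦X⟧) • v i =
          X * (PowerSeries.mk fun j => c (nx^[j] (nx s)) i : ℂ⟦X⟧) • v i := fun i => by
        rw [h1, h1, map_mul, map_X, mul_assoc]
      simp only [h4, add_smul, h5, Finset.sum_add_distrib, ← Finset.mul_sum]
      rw [pow_succ', mul_assoc, ← hw]
      linear_combination h2 s
  rw [show s = _ from eq_of_dvd fun n => h3 n ⟨s, hs⟩]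
  exact sum_mem fun i _ => Submodule.smul_mem _ _ (Submodule.subset_span ⟨i, rfl⟩)

theorem ψ_mem_of_of {M : LP L} {A W : Subalgebra ℂ L} (hM : M.Of A) {m : Mv ℂ L} (hW : M.O ≤ W)
    (hA : ∀ a ∈ A, m.ψ (C a) ∈ serR W.toSubring) {f : L} (hf : f ∈ M.O) :
    m.ψ (C f) ∈ serR W.toSubring := by
  obtain ⟨a, ha, c, hc, h1, h2⟩ := hM.loc f hf
  obtain ⟨g, hg, h3⟩ := exists_inv_serR (hA c hc) (hW (M.inv_mem h1))
    (by rw [m.ψ0, mul_inv_cancel₀ (LP.ne_zero_of_ne h1)])
  have h4 : m.ψ (C f) = m.ψ (C a) * g := by rw [← h2, map_mul, map_mul, mul_assoc, h3, mul_one]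
  exact h4 ▸ mul_mem (hA a ha) hg

variable {α β : F →ₐ[ℂ] L} (h : IsPF α β)

section Ten

variable {d : Mv ℂ F} {O : Subring F} {W : Subalgebra ℂ L}
  (hd : ∀ a ∈ O, d.ψ (C a) ∈ serR O)

include hd

theorem ten_sub {e : L} (he : e ≠ 0) (hδ : ∀ c ∈ O, (α c - β c) / e ∈ W) {c : F} (hc : c ∈ O) :
    ∃ w ∈ serR W.toSubring, (ten h d d).ψ (C (α c - β c)) = C e * w ∧
      constantCoeff w = (α c - β c) / e := by
  refine ⟨C e⁻¹ * (ten h d d).ψ (C (α c - β c)), fun n => ?_, ?_, ?_⟩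
  · rw [coeff_C_mul, map_sub, map_sub, ten_C_left, ten_C_right, map_sub, coeff_map, coeff_map,
      ← div_eq_inv_mul]
    exact hδ _ (hd c hc n)
  · rw [← mul_assoc, ← map_mul, mul_inv_cancel₀ he, map_one, one_mul]
  · rw [map_mul, constantCoeff_C, Mv.ψ0, div_eq_inv_mul]

theorem ten_chD {a : F} (ha : a ∈ O) (he : α a - β a ≠ 0) (hα : ∀ c ∈ O, α c ∈ W)
    (hβ : ∀ c ∈ O, β c ∈ W) (hδ : ∀ c ∈ O, (α c - β c) / (α a - β a) ∈ W) {O' : Subalgebra ℂ F}
    (hO : ∀ c ∈ O', c ∈ O) {f : L} (hf : f ∈ chD α β O' (α a - β a)) :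
    (ten h d d).ψ (C f) ∈ serR W.toSubring := by
  obtain ⟨w, hw, h1, h2⟩ := ten_sub h hd he hδ ha
  obtain ⟨w', hw', h3⟩ := exists_inv_serR hw (one_mem _) (by rw [h2, div_self he, one_mul])
  refine Mv.ψ_mem_of_adjoin ?_ hf
  rintro _ ((⟨c, hc, rfl⟩ | ⟨c, hc, rfl⟩) | ⟨c, hc, rfl⟩)
  · rw [ten_C_left]
    exact map_mem_ser (M := O.toAddSubgroup) (M' := W.toSubring.toAddSubgroup) hα (hd c (hO c hc))
  · rw [ten_C_right]
    exact map_mem_ser (M := O.toAddSubgroup) (M' := W.toSubring.toAddSubgroup) hβ (hd c (hO c hc))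
  · obtain ⟨v, hv, h4, -⟩ := ten_sub h hd he hδ (hO c hc)
    have h5 : (ten h d d).ψ (C ((α c - β c) / (α a - β a))) * (C (α a - β a) * w) =
        C (α a - β a) * v := by
      rw [← h1, ← h4, ← map_mul, ← map_mul, div_mul_cancel₀ _ he]
    have h6 : (ten h d d).ψ (C ((α c - β c) / (α a - β a))) = v * w' := by
      refine mul_left_cancel₀ (a := (C (α a - β a) : L⟦X⟧))
        (fun h0 => he (C_injective (h0.trans (map_zero _).symm))) ?_
      linear_combination w' * h5 -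
        C (α a - β a) * (ten h d d).ψ (C ((α c - β c) / (α a - β a))) * h3
    exact h6 ▸ mul_mem hv hw'

end Ten

theorem ten_act_C (d d' : Mv ℂ F) (g g' e : _) (j : ℕ) :
    (ten h d d').act (C (α g * β g' * e ^ j)) = (ten h d d').ψ (C e) ^ j *
      (map (α : F →+* L) (d.act (C g)) * map (β : F →+* L) (d'.act (C g'))) := by
  rw [← ten_act h, ← map_pow, ← Mv.act_mul, map_C, map_C, ← map_pow, ← map_mul, ← map_mul, mul_comm]
  rfl

namespace Bl

variable {h} {P : PModel ℂ F} {B : Bl h P} {y : Pts B.Y} {a : F} {M M' : BD ℂ F}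

theorem On.pres (H : B.On y a) (hM : M ∈ Br.On P) {d : Mv ℂ F}
    (hd : d.Pres (oR (B.p y)) (nS M (B.p y))) (j : ℕ) :
    (ten h d d).Pres (oR y) (nS (pb α M + pb β M - j • dgl α β P.y) y) := by
  obtain ⟨g, hg⟩ := hM (B.p y)
  obtain ⟨h1, w, hw, h2⟩ := (pres_prin hg.ne fun _ => mem_nS_iff hg).1 hd
  have hz := H.at_sub hg j
  obtain ⟨v, hv, h3, -⟩ := ten_sub h (W := (lp y).O) h1 H.ne (fun c hc => H.div_mem hc) H.mem
  refine (pres_prin hz.ne fun _ => mem_nS_iff hz).2 ⟨fun f hf => ψ_mem_of_of H.of le_rfl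
    (fun f hf => ten_chD h h1 H.mem H.ne (fun c hc => B.left_mem y hc) (fun c hc => H.right_mem hc)
      (fun c hc => H.div_mem hc) (fun _ hc => hc) hf) hf,
    v ^ j * (map (α : F →+* L) w * map (β : F →+* L) w), mul_mem (pow_mem hv j) (mul_mem
      (map_mem_ser (M := (oR (B.p y)).toAddSubgroup) (M' := (oR y).toAddSubgroup)
        (fun c hc => B.left_mem y hc) hw)
      (map_mem_ser (M := (oR (B.p y)).toAddSubgroup) (M' := (oR y).toAddSubgroup)
        (fun c hc => H.right_mem hc) hw)), ?_⟩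
  rw [ten_act_C, h2, h3]
  simp only [map_mul, map_pow, map_C, RingHom.coe_coe]
  ring

theorem On.same (H : B.On y a) (hM : M ∈ Br.On P) {m m' : Mv ℂ F}
    (hs : m.Same m' (oR (B.p y)) (nS M (B.p y))) (j : ℕ) :
    (ten h m m).Same (ten h m' m') (oR y) (nS (pb α M + pb β M - j • dgl α β P.y) y) := by
  obtain ⟨d, hd, rfl⟩ := hs.exists
  rw [ten_comp]
  exact Mv.same_comp_iff.2 (H.pres hM hd j)

theorem same_off (hy : B.p y ≠ B.q y) (hM : M ∈ Br.On P) (hM' : M' ∈ Br.On P)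
    {m₁ m₂ m₁' m₂' : Mv ℂ F} (hs : m₁.Same m₂ (oR (B.p y)) (nS M (B.p y)))
    (hs' : m₁'.Same m₂' (oR (B.q y)) (nS M' (B.q y))) (j : ℕ) :
    (ten h m₁ m₁').Same (ten h m₂ m₂') (oR y) (nS (pb α M + pb β M' - j • dgl α β P.y) y) := by
  obtain ⟨g, hg⟩ := hM (B.p y)
  obtain ⟨g', hg'⟩ := hM' (B.q y)
  have h1 : oR y = oR (Cns.mk h (B.p y) (B.q y)) := by
    unfold oR
    rw [B.off y hy]
  have h2 : nS (pb α M + pb β M' - j • dgl α β P.y) y =
      nS (pb α M + pb β M') (Cns.mk h (B.p y) (B.q y)) := by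
    ext z
    rw [mem_nS_iff (B.at_sub_off hy hg hg' j), mem_nS_iff (at_mk h hg hg'), h1]
  rw [h1, h2]
  exact same_ten h hM hM' hs hs'

/-- the order along the diagonal of the coefficients -/
theorem On.coeff_mem (H : B.On y a) (hM : M ∈ Br.On P) (d : Mv ℂ F) {j : ℕ} {W : Subalgebra ℂ L}
    (hW : (lp y).O ≤ W) (hα : ∀ c, α c ∈ W) (hβ : ∀ c, β c ∈ W) {s : L⟦X⟧}
    (hs : s ∈ (ser (nS (pb α M + pb β M - j • dgl α β P.y) y)).map (ten h d d).act) (n : ℕ) :
    coeff n s / (α a - β a) ^ j ∈ W := by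
  obtain ⟨g, hg⟩ := hM (B.p y)
  have hz := H.at_sub hg j
  have hδ : ∀ c ∈ (⊤ : Subring F), (α c - β c) / (α a - β a) ∈ W := fun c _ => by
    obtain ⟨c₁, h1, c₂, h2, h0, rfl⟩ := frac_lp (B.p y) c
    have h3 : α c₂ ≠ 0 := (map_ne_zero α).2 h0
    have h4 : β c₂ ≠ 0 := (map_ne_zero β).2 h0
    convert mul_mem (sub_mem (mul_mem (hW (H.div_mem h1)) (hβ c₂))
      (mul_mem (hβ c₁) (hW (H.div_mem h2)))) (mul_mem (hα c₂⁻¹) (hβ c₂⁻¹)) using 1
    simp only [map_div₀, map_inv₀]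
    have := H.ne
    field_simp
    ring
  have hd : ∀ c ∈ (⊤ : Subring F), d.ψ (C c) ∈ serR ⊤ := fun _ _ _ => trivial
  obtain ⟨v, hv, h3, -⟩ := ten_sub h hd H.ne hδ (c := a) trivial
  obtain ⟨_, ⟨w, hw, rfl⟩, rfl⟩ := (mem_map_act hz.ne fun _ => mem_nS_iff hz).1 hs
  have h4 : (ten h d d).ψ w ∈ serR W.toSubring :=
    (ten h d d).xl.mem (M := (oR y).toAddSubgroup) (M' := W.toSubring.toAddSubgroup)
      (fun f hf => ψ_mem_of_of H.of hW (fun f hf => ten_chD h hd trivial H.ne (fun c _ => hα c)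
        (fun c _ => hβ c) hδ (fun _ _ => trivial) hf) hf) hw
  have h5 := mul_mem (mul_mem (pow_mem hv j) (mul_mem
    (show map (α : F →+* L) (d.act (C g)) ∈ serR W.toSubring from fun i => by
      rw [coeff_map]; exact hα _)
    (show map (β : F →+* L) (d.act (C g)) ∈ serR W.toSubring from fun i => by
      rw [coeff_map]; exact hβ _))) h4 n
  rwa [ten_act_C, h3, mul_pow, ← map_pow, mul_assoc, mul_assoc, coeff_C_mul,
    mul_div_cancel_left₀ _ (pow_ne_zero j H.ne), ← mul_assoc]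

end Bl

end Crest.Agent.X262.Lift8
end
end

-- ▼ part X262/Lift8/Sec
section

/-!
# Row 262, G4 / LIFT (helper8), part 6: deformed sections on the blow-up of the diagonal

* `Van.of_lin`, `Sec_box` : change of the trivialisation, Kuenneth;
* `U2 B c`, `Φ2 D h c`    : the charts and the moves;
* `T D B N k`             : deformed global sections; `T.mul`, `T.sat`, `T.const`, `T.mono`;
* `T.lift`, `T.swap`, `T.par`, `T.prod`, `T.kn`, `T.dg`.
-/

set_option autoImplicit false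

open PowerSeries

noncomputable section

namespace Crest.Agent.X262.Lift8

open Crest.Agent.X277 Crest.Agent.X277.Lef Crest.Agent.X277.AN.G1 Crest.Agent.X277.BD
open Crest.Agent.X277.BD.Br (On oP kP At)
open Crest.Agent.X262.St91 (dgl)
open Crest.Agent.X262.Top (Hyp)
open Crest.Agent.X262.Mv99
open Crest.Agent.R274.Prod1_134 (IsPF)

variable {F L : Type} [Field F] [Algebra ℂ F] [Field L] [Algebra ℂ L]

theorem Van.of_lin {P : PModel ℂ F} {ι : Type*} {U : ι → Set (Pts P)} {a a' : BD ℂ F}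
    (h : Lin a a') (van : Van U (nS a)) : Van U (nS a') := by
  obtain ⟨f, hf, rfl⟩ := h
  have key : ∀ (z : F) (x : Pts P), z * f ∈ nS (a' + pr ℂ f) x ↔ z ∈ nS a' x := fun z x =>
    forall₂_congr fun V _ => by
      rw [map_mul, val_add, val_pr hf, mul_le_mul_iff_left₀ (RZ.pos hf)]
  intro r hr
  obtain ⟨s, hs⟩ := van (fun c => r c * f) fun c c' x hc hc' => by
    rw [← sub_mul, key]
    exact hr c c' x hc hc'
  exact ⟨s / f, fun c x hc => (key _ x).1 (by
    rw [sub_mul, div_mul_cancel₀ _ hf]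
    exact hs c x hc)⟩

theorem pow_one' (m : Mv ℂ L) : m.pow 1 = m := Mv.ext' (fun _ => rfl) (pow_one m.u)

variable {α β : F →ₐ[ℂ] L}

theorem Sec_box (h : IsPF α β) (P : PModel ℂ F) (a a' : BD ℂ F) : (pb α a + pb β a').Sec =
    a.Sec.map α.toLinearMap * a'.Sec.map β.toLinearMap := by
  rw [← (((rep_fr a).pb α).add ((rep_fr a').pb β)).Sec_eq,
    Cns.kunneth h (Cns.pn_prod P P h) (fr_ne _ _) (fr_ne _ _), (rep_fr a).Sec_eq,
    (rep_fr a').Sec_eq]

variable {Γ : MvPolynomial (Fin 4) ℂ} {S : Hyp 3 Γ F} {M : BD ℂ F} (D : Dfm S M)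
  {h : IsPF α β} (B : Bl h S.P)

/-- the charts of the blow-up -/
def U2 (c : Fin 3 × Fin 3) : Set (Pts B.Y) :=
  {y | B.p y ∈ U S c.1 ∧ B.q y ∈ U S c.2 ∧ (c.1 = c.2 ∨ B.p y ≠ B.q y)}

theorem zo_U2 (c : Fin 3 × Fin 3) : ZO (U2 B c) := by
  have h1 := (zo_at (P := B.Y) (pb α (oP S.P)) (α (S.P.y c.1.castSucc))).inter
    (zo_at (pb β (oP S.P)) (β (S.P.y c.2.castSucc)))
  by_cases hc : c.1 = c.2
  · convert h1 using 1
    ext y
    exact ⟨fun hy => ⟨(B.p_mem_iff y).1 hy.1, (B.q_mem_iff y).1 hy.2.1⟩,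
      fun hy => ⟨(B.p_mem_iff y).2 hy.1, (B.q_mem_iff y).2 hy.2, Or.inl hc⟩⟩
  · convert h1.inter (zo_at (dgl α β S.P.y) 1) using 1
    ext y
    exact ⟨fun hy => ⟨⟨(B.p_mem_iff y).1 hy.1, (B.q_mem_iff y).1 hy.2.1⟩,
        B.ne_iff.1 (hy.2.2.resolve_left hc)⟩,
      fun hy => ⟨(B.p_mem_iff y).2 hy.1.1, (B.q_mem_iff y).2 hy.1.2, Or.inr (B.ne_iff.2 hy.2)⟩⟩

theorem exists_U2 (hΓ : Qt Γ) (y : Pts B.Y) : ∃ c, y ∈ U2 B c := by
  obtain ⟨a, ha⟩ := exists_U hΓ (B.p y)
  obtain ⟨b, hb⟩ := exists_U hΓ (B.q y)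
  by_cases hy : B.p y = B.q y
  · exact ⟨(a, a), ha, hy ▸ ha, Or.inl rfl⟩
  · exact ⟨(a, b), ha, hb, Or.inr hy⟩

variable (h) in
/-- the moves -/
def Φ2 (c : Fin 3 × Fin 3) : Mv ℂ L := ten h (D.Φ c.1) (D.Φ c.2)

/-- deformed global sections -/
def T (N : BD ℂ L) (k : ℕ) : Submodule ℂ⟦X⟧ L⟦X⟧ where
  carrier := {s | ∀ c, ∀ y ∈ U2 B c, s ∈ (ser (nS N y)).map ((Φ2 D h c).pow k).act}
  zero_mem' _ _ _ := zero_mem _
  add_mem' ha hb c y hy := add_mem (ha c y hy) (hb c y hy)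
  smul_mem' g s hs c y hy := by
    obtain ⟨w, hw, rfl⟩ := hs c y hy
    refine ⟨map (algebraMap ℂ L) g * w, mul_mem_ser (M := (oR y).toAddSubgroup)
      (fun _ ha _ hb => o_mul_mem_nS ha hb) (fun i => ?_) hw, ?_⟩
    · rw [coeff_map]
      exact (lp y).O.algebraMap_mem _
    · rw [Mv.act_mul, Mv.ψ_map]
      exact (Algebra.smul_def g _).symm

variable (α β S M) in
/-- `M₁ + M₂ - j E` -/
abbrev Gj (j : ℕ) : BD ℂ L := pb α M + pb β M - j • dgl α β S.P.y

variable {D B} {N N' : BD ℂ L} {k l j : ℕ} {s s' : L⟦X⟧}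

theorem mem_T_one :
    s ∈ T D B N 1 ↔ ∀ c, ∀ y ∈ U2 B c, s ∈ (ser (nS N y)).map (Φ2 D h c).act := by
  exact forall₃_congr fun c y _ => by rw [pow_one']

theorem T.mul (hs : s ∈ T D B N k) (hs' : s' ∈ T D B N' l) :
    s * s' ∈ T D B (N + N') (k + l) := fun c y hy => by
  obtain ⟨w, hw, rfl⟩ := hs c y hy
  obtain ⟨w', hw', rfl⟩ := hs' c y hy
  exact ⟨w * w', mul_mem_ser (fun _ ha _ hb => mul_mem_nS ha hb) hw hw',
    Mv.pow_act_mul _ _ _ _ _⟩

theorem T.sat (hs : X * s ∈ T D B N k) : s ∈ T D B N k := fun c y hy =>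
  (uni_act _).sat (n := 1) (by simpa using hs c y hy)

theorem T.const (hΓ : Qt Γ) (hs : s ∈ T D B N k) : constantCoeff s ∈ N.Sec := fun V => by
  obtain ⟨y, hy⟩ := Br.exists_ov' B.Y V
  obtain ⟨c, hc⟩ := exists_U2 B hΓ y
  exact (uni_act _).const_mem (hs c y hc) V hy

theorem T.mono (hN : N ≤ N') (hs : s ∈ T D B N k) : s ∈ T D B N' k := fun c y hy =>
  AddSubgroup.map_mono (ser_mono fun _ hz V hV => (hz V hV).trans (hN V)) (hs c y hy)

theorem Gj_le (B : Bl h S.P) (hj : j ≤ k) : Gj α β S M k ≤ Gj α β S M j :=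
  sub_le_sub_left (nsmul_le_nsmul_left B.dgl_nonneg hj) _

theorem same_U2 (hM : M ∈ On S.P) (j : ℕ) {c c' : Fin 3 × Fin 3} {y : Pts B.Y} (hc : y ∈ U2 B c)
    (hc' : y ∈ U2 B c') : (Φ2 D h c).Same (Φ2 D h c') (oR y) (nS (Gj α β S M j) y) := by
  by_cases hy : B.p y = B.q y
  · obtain ⟨a, H⟩ := B.exists_on hy
    obtain ⟨c₁, c₂⟩ := c
    obtain ⟨c₃, c₄⟩ := c'
    obtain rfl : c₁ = c₂ := hc.2.2.resolve_right (not_not.2 hy)
    obtain rfl : c₃ = c₄ := hc'.2.2.resolve_right (not_not.2 hy)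
    exact H.same hM (D.same hc.1 hc'.1) j
  · exact Bl.same_off hy hM hM (D.same hc.1 hc'.1) (D.same hc.2.1 hc'.2.1) j

theorem T.lift (D : Dfm S M) (hM : M ∈ On S.P) (van : Van (U2 B) (nS (Gj α β S M j))) {a : L}
    (ha : a ∈ (Gj α β S M j).Sec) : ∃ s ∈ T D B (Gj α β S M j) 1, constantCoeff s = a := by
  obtain ⟨f, h1, h2⟩ := lift_abs (Φ := fun c => (Φ2 D h c).act) (fun c => uni_act _)
    (fun c c' y hc hc' => (same_U2 hM j hc hc').2) van fun c y _ V _ => ha V
  exact ⟨f, mem_T_one.2 h2, h1⟩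

/-- deformed sections on the surface -/
def G1 (D : Dfm S M) : Set F⟦X⟧ := {r | ∀ a, ∀ x ∈ U S a, r ∈ (ser (nS M x)).map (D.Φ a).act}

theorem T.prod (B : Bl h S.P) (hM : M ∈ On S.P) {r r' : F⟦X⟧} (hr : r ∈ G1 D) (hr' : r' ∈ G1 D) :
    map (α : F →+* L) r * map (β : F →+* L) r' ∈ T D B (Gj α β S M 0) 1 := by
  refine mem_T_one.2 fun c y hy => ?_
  obtain ⟨w, hw, rfl⟩ := hr c.1 _ hy.1
  obtain ⟨w', hw', rfl⟩ := hr' c.2 _ hy.2.1
  obtain ⟨g, hg⟩ := hM (B.p y)
  obtain ⟨g', hg'⟩ := hM (B.q y)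
  refine ⟨_, mul_mem_ser (M := nS (pb α M) y) (M' := nS (pb β M) y)
    (fun _ ha _ hb => by simpa [Gj] using mul_mem_nS ha hb)
    (map_mem_ser (fun z hz => ?_) hw) (map_mem_ser (fun z hz => ?_) hw'), ten_act h _ _ w w'⟩
  · rw [mem_nS_iff (B.at_left y hg), RingHom.coe_coe, ← map_div₀]
    exact B.left_mem y ((mem_nS_iff hg).1 hz)
  · rw [mem_nS_iff (B.at_right y hg'), RingHom.coe_coe, ← map_div₀]
    exact B.right_mem y ((mem_nS_iff hg').1 hz)

/-- **thick Kuenneth formula** -/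
theorem T.kn [Algebra.EssFiniteType ℂ F] (hΓ : Qt Γ) (hM : M ∈ On S.P)
    (hl : ∀ a ∈ M.Sec, ∃ r ∈ G1 D, constantCoeff r = a) (hs : s ∈ T D B (Gj α β S M j) 1) :
    s ∈ Submodule.span ℂ⟦X⟧
      {z | ∃ r ∈ G1 D, ∃ r' ∈ G1 D, z = map (α : F →+* L) r * map (β : F →+* L) r'} := by
  let b := Module.finBasis ℂ M.Sec
  choose r hr h0 using fun i => hl _ (b i).2
  have h1 : M.Sec = Submodule.span ℂ (Set.range fun i => (b i : F)) := by
    have h2 := congrArg (Submodule.map M.Sec.subtype) b.span_eq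
    rw [Submodule.map_span, Submodule.map_subtype_top, ← Set.range_comp] at h2
    exact h2.symm
  refine Submodule.span_mono ?_ (span_of_approx (T := T D B (Gj α β S M 0) 1) (fun _ => T.sat)
    (v := fun p : _ × _ => map (α : F →+* L) (r p.1) * map (β : F →+* L) (r p.2))
    (fun p => T.prod B hM (hr _) (hr _)) (fun s hs => ?_) (T.mono (Gj_le B j.zero_le) hs))
  · rintro _ ⟨p, rfl⟩
    exact ⟨_, hr _, _, hr _, rfl⟩
  · have h2 := T.const hΓ hs
    rw [Gj, zero_smul, sub_zero, Sec_box h S.P, h1, Submodule.map_span, Submodule.map_span,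
      Submodule.span_mul_span] at h2
    refine Submodule.span_mono ?_ h2
    rintro _ ⟨_, ⟨_, ⟨i, rfl⟩, rfl⟩, _, ⟨_, ⟨i', rfl⟩, rfl⟩, rfl⟩
    exact ⟨(i, i'), by simp [const_map, h0]⟩

/-- the coefficients vanish along the diagonal -/
theorem T.dg (hΓ : Qt Γ) (hM : M ∈ On S.P) (hs : s ∈ T D B (Gj α β S M j) 1)
    (hk : s ∈ Submodule.span ℂ⟦X⟧
      {z | ∃ r ∈ G1 D, ∃ r' ∈ G1 D, z = map (α : F →+* L) r * map (β : F →+* L) r'})
    (n : ℕ) (V : RZ ℂ L) (hα : ∀ g, α g ∈ V.1) (hβ : ∀ g, β g ∈ V.1) :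
    V.v (coeff n s) ≤ (-(j • dgl α β S.P.y)).val V := by
  obtain ⟨y, hy⟩ := Br.exists_ov' B.Y V
  by_cases h0 : B.p y = B.q y
  · obtain ⟨a, H⟩ := B.exists_on h0
    obtain ⟨c, hc⟩ := exists_U hΓ (B.p y)
    have h1 := H.coeff_mem hM (D.Φ c) (W := Cns.kSub V.2) hy hα hβ
      (mem_T_one.1 hs (c, c) y ⟨hc, h0 ▸ hc, Or.inl rfl⟩) n
    rw [← (H.at_dgl.nsmul j).neg V hy, inv_pow, inv_inv]
    exact (RZ.le_iff (pow_ne_zero j H.ne)).2 h1
  · rw [← ((B.at_off h0).nsmul j).neg V hy, one_pow, inv_one, map_one]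
    have h1 : s ∈ serR V.1.toSubring := by
      clear hs
      induction hk using Submodule.span_induction with
      | mem z hz =>
        obtain ⟨r, -, r', -, rfl⟩ := hz
        exact mul_mem (fun i => by rw [coeff_map]; exact hα _) fun i => by
          rw [coeff_map]; exact hβ _
      | zero => exact zero_mem _
      | add _ _ _ _ h1 h2 => exact add_mem h1 h2
      | smul g z _ h1 =>
        rw [Algebra.smul_def]
        exact mul_mem (fun i => by
          change coeff i (map (algebraMap ℂ L) g) ∈ _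
          rw [coeff_map]
          exact V.2 _) h1
    exact RZ.le_one_iff.2 (h1 n)

variable {τ : L →ₐ[ℂ] L} (h1 : ∀ x, τ (α x) = β x) (h2 : ∀ x, τ (β x) = α x)

include h1 h2

theorem swap_gen (g a : F) (j : ℕ) :
    τ (α g * β g * (α a - β a) ^ j) = (-1) ^ j * (α g * β g * (α a - β a) ^ j) := by
  rw [map_mul, map_mul, map_pow, map_sub, h1, h2, h1, h2, ← neg_sub (α a), neg_pow]
  ring

theorem T.swap (hM : M ∈ On S.P) (hs : s ∈ T D B (Gj α β S M j) 1) :
    map (τ : L →+* L) s ∈ T D B (Gj α β S M j) 1 := by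
  rw [mem_T_one] at hs ⊢
  rintro ⟨c₁, c₂⟩ y hy
  obtain ⟨g, hg⟩ := hM (B.p y)
  by_cases h0 : B.p y = B.q y
  · obtain rfl : c₁ = c₂ := hy.2.2.resolve_right (not_not.2 h0)
    obtain ⟨a, H⟩ := B.exists_on h0
    obtain ⟨w, hw, rfl⟩ := hs _ y hy
    refine ⟨_, map_mem_ser (fun z hz => ?_) hw, (ten_swap_act h h1 h2 _ _ w).symm⟩
    rw [mem_nS_iff (H.at_sub hg j)] at hz ⊢
    have h3 := mul_mem (pow_mem (neg_mem (one_mem (lp y).O)) j) (H.swap_mem h1 h2 hz)
    rwa [map_div₀, swap_gen h1 h2, ← mul_div_assoc,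
      mul_div_mul_left _ _ (pow_ne_zero j (neg_ne_zero.2 one_ne_zero))] at h3
  · obtain ⟨y', e₁, e₂⟩ := B.sur _ _ (Ne.symm h0)
    have h3 : B.p y' ≠ B.q y' := by
      rw [e₁, e₂]
      exact Ne.symm h0
    obtain ⟨g', hg'⟩ := hM (B.q y)
    obtain ⟨w, hw, rfl⟩ := hs (c₂, c₁) y' ⟨e₁ ▸ hy.2.1, e₂ ▸ hy.1, Or.inr h3⟩
    refine ⟨_, map_mem_ser (fun z hz => ?_) hw, (ten_swap_act h h1 h2 _ _ w).symm⟩
    rw [mem_nS_iff (B.at_sub_off h3 (e₁ ▸ hg') (e₂ ▸ hg) j)] at hz
    rw [mem_nS_iff (B.at_sub_off h0 hg hg' j)]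
    have h4 : z / (α g' * β g) ∈ (lp (Cns.mk h (B.q y) (B.p y))).O := by
      rw [← e₁, ← e₂, ← B.off y' h3]
      exact hz
    have h5 := (B.dom y).le (Bl.swap_mk h1 h2 _ _ h4)
    rwa [map_div₀, map_mul, h1, h2, mul_comm] at h5

/-- parity gives one more order of vanishing -/
theorem T.par (hM : M ∈ On S.P) (hs : s ∈ T D B (Gj α β S M j) 1)
    (hτ : map (τ : L →+* L) s = C ((-1) ^ (j + 1)) * s) : s ∈ T D B (Gj α β S M (j + 1)) 1 := by
  rw [mem_T_one] at hs ⊢
  rintro ⟨c₁, c₂⟩ y hy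
  obtain ⟨g, hg⟩ := hM (B.p y)
  obtain ⟨w, hw, rfl⟩ := hs _ y hy
  refine ⟨w, fun n => ?_, rfl⟩
  have hz := hw n
  by_cases h0 : B.p y = B.q y
  · obtain rfl : c₁ = c₂ := hy.2.2.resolve_right (not_not.2 h0)
    obtain ⟨a, H⟩ := B.exists_on h0
    have h3 : map (τ : L →+* L) w = C ((-1) ^ (j + 1)) * w := (Φ2 D h (c₁, c₁)).act_inj (by
      rw [Mv.act_mul, Φ2, ← ten_swap_act h h1 h2]
      simpa [Φ2] using hτ)
    have h4 : τ (coeff n w) = (-1) ^ (j + 1) * coeff n w := by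
      have h5 := congrArg (coeff n) h3
      rwa [coeff_C_mul, coeff_map] at h5
    rw [mem_nS_iff (H.at_sub hg j)] at hz
    rw [mem_nS_iff (H.at_sub hg (j + 1))]
    have h5 := (lp y).O.smul_mem (H.sub_swap h1 h2 hz) (2⁻¹ : ℂ)
    rw [map_div₀, h4, swap_gen h1 h2, pow_succ, mul_assoc ((-1 : L) ^ j),
      mul_div_mul_left _ _ (pow_ne_zero j (neg_ne_zero.2 (one_ne_zero (α := L)))), neg_one_mul,
      neg_div, sub_neg_eq_add, ← two_smul ℂ, smul_div_assoc, smul_smul,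
      inv_mul_cancel₀ two_ne_zero, one_smul, div_div, mul_assoc, ← pow_succ] at h5
    exact h5
  · obtain ⟨g', hg'⟩ := hM (B.q y)
    rw [mem_nS_iff (B.at_sub_off h0 hg hg' j)] at hz
    rwa [mem_nS_iff (B.at_sub_off h0 hg hg' (j + 1))]

end Crest.Agent.X262.Lift8
end
end

-- ▼ part X262/Lift8/Main
section

/-!
# Row 262, G4 / LIFT (helper8), part 7: the Pluecker coordinates extend

* `van_S`, `lift_S` : lifting of sections on the quartic;
* `big_plk`         : the Pluecker class is big;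
* `lift_of`         : `VanPStmt → BlStmt → G4.LiftStmt`.
-/

set_option autoImplicit false

open PowerSeries
open scoped KaehlerDifferential

noncomputable section

namespace Crest.Agent.X262.Lift8

open Crest.Agent.X277 Crest.Agent.X277.Lef Crest.Agent.X277.AN.G1 Crest.Agent.X277.BD
open Crest.Agent.X277.BD.Br (On oP kP At)
open Crest.Agent.X262.St91 (dgl)
open Crest.Agent.X262.Top (Hyp Lines)
open Crest.Agent.X262.Mv99
open Crest.Agent.R274.Prod1_134 (IsPF)

variable {F L : Type} [Field F] [Algebra ℂ F] [Field L] [Algebra ℂ L]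
  {Γ : MvPolynomial (Fin 4) ℂ} {S : Hyp 3 Γ F}

theorem lin_K (hΓ : Qt Γ) (b : Module.Basis (Fin 2) F Ω[F⁄ℂ]) : Lin (kP S.P b) 0 := by
  simpa using Fano.lin_hyp b (P := S.P) (r := 0) rfl hΓ.1 (hyp_zero hΓ) hΓ.2.2 four_pos rfl

theorem zo_U (a : Fin 3) : ZO (U S a) := by
  convert zo_at (P := S.P) (oP S.P) (S.P.y a.castSucc) using 1
  exact Set.ext fun _ => Br.at_y_iff.symm

theorem van_S (hV : VanPStmt) (hΓ : Qt Γ) (b : Module.Basis (Fin 2) F Ω[F⁄ℂ]) {N : BD ℂ F}
    (hN : N ∈ On S.P) (h1 : Free N) (h2 : Big N) : Van (U S) (nS N) :=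
  (hV F 2 S.P b N hN h1 h2 _ (U S) zo_U (exists_U hΓ)).of_lin
    (by simpa using (lin_K hΓ b).add (Lin.rfl (a := N)))

theorem lift_S {M : BD ℂ F} (D : Dfm S M) (van : Van (U S) (nS M)) {a : F} (ha : a ∈ M.Sec) :
    ∃ r ∈ G1 D, constantCoeff r = a := by
  obtain ⟨f, h1, h2⟩ := lift_abs (fun c => uni_act (D.Φ c))
    (fun c c' x hc hc' => D.sec c c' x hc hc') van (a := a) fun _ _ _ V _ => ha V
  exact ⟨f, h2, h1⟩

theorem G1_eq {M : BD ℂ F} (D : Dfm S M) : G1 D = G4.Gam D 1 := by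
  ext r
  simp only [G1, G4.Gam, G4.Gm, one_smul, pow_one, Set.mem_ofPred_eq, AddSubgroup.mem_map,
    Mv.act_apply, eq_comm]

variable {G : MvPolynomial (Fin 6) ℂ} (Λ : Lines G F L)

theorem τ_a (i : Fin 8) : Λ.τ (Λ.a i) = Λ.a i :=
  (Λ.fix _).2 (IntermediateField.subset_adjoin _ _ ⟨i, rfl⟩)

theorem τ_plk (ij : Fin 6 × Fin 6) : Λ.τ (Λ.plk ij) = Λ.plk ij := by
  have h1 : ∀ i, Λ.τ (Λ.p i) = Λ.p i := fun i => by
    fin_cases i <;> simp [Lines.p, τ_a]
  have h2 : ∀ i, Λ.τ (Λ.q i) = Λ.q i := fun i => by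
    fin_cases i <;> simp [Lines.q, τ_a]
  simp only [Lines.plk, map_sub, map_mul, h1, h2]

theorem big_plk [Algebra.EssFiniteType ℂ L] : Big (mxf ℂ Λ.plk) := by
  have h0 : ∀ ij, Λ.plk ij ∈ (mxf ℂ Λ.plk).sf := fun ij => by
    have h1 := div_mem_sf (mem_Sec_mxf (k := ℂ) Λ.plk ij) (mem_Sec_mxf Λ.plk (0, 1))
    rwa [show Λ.plk (0, 1) = 1 by simp [Lines.plk, Lines.p, Lines.q], div_one] at h1
  have h1 : ∀ x, Λ.τ x = x → x ∈ (mxf ℂ Λ.plk).sf := fun x hx => by
    refine IntermediateField.adjoin_le_iff.2 ?_ ((Λ.fix x).1 hx)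
    rintro _ ⟨i, rfl⟩
    fin_cases i
    · simpa [Lines.plk, Lines.p, Lines.q] using h0 (2, 1)
    · simpa [Lines.plk, Lines.p, Lines.q] using h0 (3, 1)
    · simpa [Lines.plk, Lines.p, Lines.q] using h0 (4, 1)
    · simpa [Lines.plk, Lines.p, Lines.q] using h0 (5, 1)
    · simpa [Lines.plk, Lines.p, Lines.q] using h0 (0, 2)
    · simpa [Lines.plk, Lines.p, Lines.q] using h0 (0, 3)
    · simpa [Lines.plk, Lines.p, Lines.q] using h0 (0, 4)
    · simpa [Lines.plk, Lines.p, Lines.q] using h0 (0, 5)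
  refine (free_mxf _).big ⟨fun x => IsIntegral.isAlgebraic ?_⟩
  let s : (mxf ℂ Λ.plk).sf := ⟨x + Λ.τ x, h1 _ (by rw [map_add, Λ.inv, add_comm])⟩
  let p : (mxf ℂ Λ.plk).sf := ⟨x * Λ.τ x, h1 _ (by rw [map_mul, Λ.inv, mul_comm])⟩
  refine ⟨Polynomial.X ^ 2 - (Polynomial.C s * Polynomial.X - Polynomial.C p), ?_, ?_⟩
  · monicity!
  · simp only [Polynomial.eval₂_sub, Polynomial.eval₂_mul, Polynomial.eval₂_pow,
      Polynomial.eval₂_X, Polynomial.eval₂_C]
    change x ^ 2 - ((x + Λ.τ x) * x - x * Λ.τ x) = 0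
    ring

section Main

variable [Algebra.EssFiniteType ℂ F] (B : G4.Base F L) (D : Dfm B.S B.LL)
  {h : IsPF B.Λ.ι (G4.ι₂ B.Λ)} (Y : Bl h B.S.P)

/-- the normalised Pluecker class -/
abbrev NN (j : ℕ) : BD ℂ L := Gj B.Λ.ι (G4.ι₂ B.Λ) B.S B.LL j

theorem plk_eq : mxf ℂ B.Λ.plk = NN B B.m + pr ℂ B.u := B.plk

theorem τ₁ (x : F) : B.Λ.τ (B.Λ.ι x) = G4.ι₂ B.Λ x := rfl

theorem τ₂ (x : F) : B.Λ.τ (G4.ι₂ B.Λ x) = B.Λ.ι x := B.Λ.inv _

theorem map_map_τ (x : L⟦X⟧) : map (B.Λ.τ : L →+* L) (map (B.Λ.τ : L →+* L) x) = x := by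
  ext n
  simp [B.Λ.inv]

theorem map_τ_smul (g : ℂ⟦X⟧) (x : L⟦X⟧) :
    map (B.Λ.τ : L →+* L) (g • x) = g • map (B.Λ.τ : L →+* L) x := by
  rw [G4.smul_eq, G4.smul_eq, map_mul]
  congr 1
  ext n
  simp

/-- the graded ring of deformed symmetric sections -/
def RR (k : ℕ) : Submodule ℂ⟦X⟧ L⟦X⟧ where
  carrier := {x | C (B.u⁻¹ ^ k) * x ∈ T D Y (k • NN B B.m) k ∧ map (B.Λ.τ : L →+* L) x = x}
  zero_mem' := ⟨by rw [mul_zero]; exact zero_mem _, map_zero _⟩
  add_mem' ha hb := ⟨by rw [mul_add]; exact add_mem ha.1 hb.1, by rw [map_add, ha.2, hb.2]⟩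
  smul_mem' g x hx := ⟨by rw [mul_smul_comm]; exact Submodule.smul_mem _ g hx.1,
    by rw [map_τ_smul, hx.2]⟩

theorem mem_RR_one {x : L⟦X⟧} : x ∈ RR B D Y 1 ↔
    C B.u⁻¹ * x ∈ T D Y (NN B B.m) 1 ∧ map (B.Λ.τ : L →+* L) x = x := by
  change C (B.u⁻¹ ^ 1) * x ∈ T D Y (1 • NN B B.m) 1 ∧ _ ↔ _
  rw [pow_one, one_smul]

theorem van_Y (hV : VanPStmt) (hY : Y.Can) {j : ℕ} (hj : B.m = j + 1) :
    Van (U2 Y) (nS (NN B j)) := by
  have := essFiniteType Y.Y
  obtain ⟨b', hb⟩ := hY B.b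
  have h1 : Lin (NN B B.m) (mxf ℂ B.Λ.plk) := Lin.symm ⟨B.u, B.u_ne, plk_eq B⟩
  refine (hV L 4 Y.Y b' (NN B B.m)
    (sub_mem (Y.box_mem B.LL_on B.LL_on) (nsmul_mem Y.dgl_mem _)) (h1.free (free_mxf _))
    (h1.big (big_plk B.Λ)) _ (U2 Y) (zo_U2 Y) (exists_U2 Y B.qt)).of_lin ?_
  have h2 := (hb.trans ((((lin_K B.qt B.b).pb _).add ((lin_K B.qt B.b).pb _)).add Lin.rfl)).add
    (Lin.rfl (a := NN B B.m))
  convert h2 using 1
  rw [hj, map_zero, map_zero, NN, NN, Gj, Gj, succ_nsmul]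
  abel

theorem exists_RR (hV : VanPStmt) (hY : Y.Can) (ij : Fin 6 × Fin 6) :
    ∃ x ∈ RR B D Y 1, constantCoeff x = B.Λ.plk ij := by
  obtain ⟨j, hj⟩ := Nat.exists_eq_succ_of_ne_zero B.m_pos.ne'
  have h0 : B.Λ.plk ij / B.u ∈ (NN B B.m).Sec :=
    (mem_Sec_add_pr B.u_ne).1 (plk_eq B ▸ mem_Sec_mxf B.Λ.plk ij)
  obtain ⟨s, hs, h1⟩ := T.lift D B.LL_on (van_Y B Y hV hY hj)
    (Sec_mono (Gj_le Y (hj ▸ j.le_succ)) h0)
  have h2 : ((-1 : L) ^ B.m) * (-1) ^ B.m = 1 := by rw [← mul_pow]; simp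
  have h3 : (C ((-1 : L) ^ B.m) : L⟦X⟧) * C ((-1) ^ B.m) = 1 := by rw [← map_mul, h2, map_one]
  have h4 : B.Λ.τ ((-1) ^ B.m) = (-1) ^ B.m := by simp
  let t : L⟦X⟧ := (C (2⁻¹ : ℂ) : ℂ⟦X⟧) • (s + C ((-1) ^ B.m) * map (B.Λ.τ : L →+* L) s)
  have h5 : t ∈ T D Y (NN B j) 1 := by
    refine Submodule.smul_mem _ _ (add_mem hs ?_)
    have h6 := Submodule.smul_mem _ ((-1 : ℂ⟦X⟧) ^ B.m) (T.swap (τ₁ B) (τ₂ B) B.LL_on hs)
    rw [G4.smul_eq] at h6
    simpa using h6
  have h6 : map (B.Λ.τ : L →+* L) t = C ((-1) ^ B.m) * t := by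
    rw [map_τ_smul, map_add, map_mul, map_map_τ, map_C, RingHom.coe_coe, h4, mul_smul_comm,
      mul_add, ← mul_assoc, h3, one_mul, add_comm]
  have h7 := T.par (τ₁ B) (τ₂ B) B.LL_on h5 (by rw [h6, hj])
  refine ⟨C B.u * t, (mem_RR_one B D Y).2 ⟨?_, ?_⟩, ?_⟩
  · rw [← mul_assoc, ← map_mul, inv_mul_cancel₀ B.u_ne, map_one, one_mul, hj]
    exact h7
  · rw [map_mul, h6, map_C, RingHom.coe_coe, B.par, map_mul]
    linear_combination C B.u * t * h3
  · have h8 : B.Λ.τ (B.Λ.plk ij / B.u) = (-1) ^ B.m * (B.Λ.plk ij / B.u) := by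
      rw [map_div₀, τ_plk, B.par, div_eq_iff (mul_ne_zero (left_ne_zero_of_mul_eq_one h2) B.u_ne)]
      have := B.u_ne
      field_simp
      linear_combination (-B.Λ.plk ij) * h2
    have h9 : (algebraMap ℂ L 2⁻¹) * 2 = 1 := by
      rw [← map_ofNat (algebraMap ℂ L) 2, ← map_mul, inv_mul_cancel₀ two_ne_zero, map_one]
    dsimp only [t]
    rw [map_mul, constantCoeff_C, G4.smul_eq, map_mul, map_C, constantCoeff_C, map_add, map_mul,
      constantCoeff_C, const_map, h1, RingHom.coe_coe, h8, ← mul_assoc ((-1 : L) ^ B.m), h2,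
      one_mul, ← two_mul, ← mul_assoc _ (2 : L), h9, one_mul, mul_div_cancel₀ _ B.u_ne]

end Main

/-- **LIFT** -/
theorem lift_of (hV : VanPStmt) (hB : BlStmt) : G4.LiftStmt := by
  intro F L _ _ _ _ _ B D hA
  obtain ⟨Y, hY⟩ := hB F L B.Λ.ι (G4.ι₂ B.Λ) B.pf B.S.P B.b
  have hd : dim ℂ F = 2 := by simpa using Module.finrank_eq_card_basis B.b
  have hl := fun a => lift_S (a := a) D
    (van_S hV B.qt B.b B.LL_on hA.1 (hA.1.nef.big_iff.2 (hd ▸ B.pos)))
  choose x hx h0 using exists_RR B D Y hV hY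
  refine ⟨RR B D Y, fun k l x hx y hy => ⟨?_, by rw [map_mul, hx.2, hy.2]⟩,
    fun k x hx => ⟨T.sat (by rw [mul_left_comm]; exact hx.1), ?_⟩, fun k x hx => ⟨?_, ?_⟩,
    fun x hx => ?_, fun i j => (C (2⁻¹ : ℂ) : ℂ⟦X⟧) • (x (i, j) - x (j, i)), fun i j => ?_,
    fun i j => Submodule.smul_mem _ _ (sub_mem (hx _) (hx _)), fun i j => ?_⟩
  · rw [pow_add, map_mul, mul_mul_mul_comm, add_smul]
    exact T.mul hx.1 hy.1
  · have h1 := hx.2
    rw [map_mul, map_X] at h1
    exact mul_left_cancel₀ X_ne_zero h1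
  · exact (const_map (B.Λ.τ : L →+* L) x).symm.trans (congrArg _ hx.2)
  · have h1 := T.const B.qt hx.1
    rw [plk_eq, smul_add, ← pr_pow B.u_ne, mem_Sec_add_pr (pow_ne_zero k B.u_ne), div_eq_inv_mul,
      ← inv_pow]
    rwa [map_mul, constantCoeff_C] at h1
  · obtain ⟨h1, h2⟩ := (mem_RR_one B D Y).1 hx
    have h3 := T.kn B.qt B.LL_on hl h1
    refine ⟨h2, by rwa [G1_eq] at h3, fun n V hα hβ => ?_⟩
    rw [← coeff_C_mul]
    exact T.dg B.qt B.LL_on h1 h3 n V hα hβ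
  · rw [← smul_neg, neg_sub]
  · have h9 : (algebraMap ℂ L 2⁻¹) * 2 = 1 := by
      rw [← map_ofNat (algebraMap ℂ L) 2, ← map_mul, inv_mul_cancel₀ two_ne_zero, map_one]
    dsimp only
    rw [G4.smul_eq, map_mul, map_C, constantCoeff_C, map_sub, h0, h0]
    simp only [Lines.plk]
    linear_combination (B.Λ.p i * B.Λ.q j - B.Λ.p j * B.Λ.q i) * h9

end Crest.Agent.X262.Lift8
end
end

-- ▼ part X262/Top/Fin0

/-!
# Row 262, top level (helper70): the theorem from the last inputs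
-/

set_option autoImplicit false

namespace Crest.Agent.X262.Top.Final

theorem g4l_of (hC : St91.CertStmt) : Top.G4LStmt :=
  Alg44.g4L_of KV.irrQ
    (St91.start_of hC Pf19.pfStmt StOn.genStmt StOn.onStmt StNum.degStmt
      (StNum.numStmt StOn.onStmt) (Bv3.bv_of Pic28.picStmt StNum.degStmt))
    (Lift8.lift_of KV.vanPStmt Bl41.blStmt)

/-- the theorem from a cohomology theory, the roots and the certificate -/
theorem main_of {C : Coh.Th} (A : C.Ax) (h31 : Chn.H31Stmt C) (hR : Chn.RootStmt C)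
    (hC : St91.CertStmt) : Top.Main :=
  Top.main_ofL Brg.Main.brgStmt Fano.fanoPStmt Rho82.fanoXStmt (Bnd.birStmt_of2 A Rl57.subStmt)
    (Chn.gwl_fin A hR h31 (Hx56.isoStmt A)) (g4l_of hC) Brg.Main.symStmt

end Crest.Agent.X262.Top.Final
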