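import Crest.Agent.X262.Pg58.Hol
import Crest.Agent.X262.Kah.ClsT
import Crest.Agent.X277.AN.G1Core
import Crest.Agent.X262.Q74.Odd_Mg
import Crest.Agent.X262.Irr93.Bet
import Crest.Agent.X262.Lat.Uni_Mg
import Crest.Agent.X262.Man.Pt
import Crest.Agent.X262.PL.C1
import Crest.Agent.X262.L11a5.Main
import Crest.Agent.X262.Lat.IDefs
import Crest.Agent.R208.EZ2
import Crest.Agent.X262.Lat.UDefs
import Crest.Agent.X262.Man.PM
import Crest.Agent.R208.T2a
import Crest.Agent.R240.Lin1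
import Crest.Agent.R240.Ch3
import Crest.Agent.X262.Van.Step
import Crest.Agent.X262.PD.Cx
import Crest.Agent.X262.Man.Th
import Crest.Agent.X262.Coh.Basic
import Crest.Agent.X262.Blow.Mod
import Crest.Agent.X277.Cns.Prod
import Crest.Agent.X277.Cns.Jac
import Crest.Agent.X262.Blow.PB
import Crest.Agent.X262.Pg58.Om
import Crest.Agent.X262.Kah.BunB
import Crest.Agent.R275.FmP_96
import Crest.Agent.X262.Kah.ClsH
import Crest.Agent.X262.Chn.Defs
import Crest.Agent.X262.Brg.Hyp0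
import Crest.Agent.X262.Hx56.Defs
import Mathlib.RingTheory.MvPolynomial.EulerIdentity
import Crest.Agent.X262.Top.Fin0
import Crest.Agent.X262.Gwb.Defs

-- ▼ part X262/Pg60/Main
section

/-!
# X262 / Pg60 (helper60): `PG` for the de Rham theory
-/

set_option autoImplicit false

open Set Module

noncomputable section

namespace Crest.Agent.X262.Pg60

open Crest.Agent.X277 Crest.Agent.X277.Lef Crest.Agent.X277.AN.G1 Crest.Agent.X277.BD
open Crest.Agent.X262.Coh Crest.Agent.X262.Man Crest.Agent.X262.Kah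

/-- **top holomorphic forms are the sections of the canonical divisor** -/
theorem pg (c1 : ∀ X : SV, BD ℂ X.F → HP X.P) (Lam : ∀ X : SV, AddSubgroup (HP X.P)) :
    (thOf typP c1 Lam).PG := fun X k b => by
  obtain ⟨A⟩ := nonempty_AnP X.P b
  have h1 := A.finrank_HS_KO b 1 0
  rw [pow_one, zpow_zero, mul_one, ← Br.Sec_k, one_smul] at h1
  rw [← h1]
  exact Pg58.finrank_typ (emb A) A.PA (even_two_mul k) fun c => by
    change c ∈ typP X (2 * k) 0 ↔ _
    rw [typP_eq X A]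
    rfl

end Crest.Agent.X262.Pg60
end
end

-- ▼ part X262/Coh/Main0
section

/-!
# Row 262, COH (helper45): the de Rham theory

* `th0 Lam : Th`; `ax_of` : all fields but `DBL`, `LAM`, `UNI`, `L11`.
-/

set_option autoImplicit false

noncomputable section

namespace Crest.Agent.X262.Coh

open Crest.Agent.X262.Man Crest.Agent.X262.Kah

/-- the de Rham theory; the integral classes are a parameter -/
abbrev th0 (Lam : ∀ X : SV, AddSubgroup (HP X.P)) : Th := thOf typP PL.c1 Lam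

theorem ax_of (Lam : ∀ X : SV, AddSubgroup (HP X.P)) (hd : (th0 Lam).DBL) (h1 : (th0 Lam).LAM)
    (h2 : (th0 Lam).UNI) (h3 : (th0 Lam).L11) : (th0 Lam).Ax where
  man := PL.man_th _ _
  pd := PD.th_pd _ _ _
  fub := PD.th_fub _ _ _
  diag := PD.th_diag _ _ _
  dbl := hd
  pl0 := PL.pl0_th _ _
  bc1 := PL.bc1_th _ _
  bc2 := PL.bc2_th _ _
  pn := PD.th_pn _ _ _ (PL.man_th _ _)
  typ := typ_th _
  hl := hl_th _
  hr := hr_th _
  pg := Pg60.pg _ _
  lam := h1
  uni := h2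
  l11 := h3
  noe := Noe83.noe_th Eul93.eulStmt Irr93.irrStmt _ _ _
  kun := PD.th_kun _ _ _ fun _ _ h0 _ su cu hu => Q74.coh_one_XP h0 su cu hu

end Crest.Agent.X262.Coh
end
end

-- ▼ part X262/Lat/Main
section

/-!
# Row 262, LAT (helper31): `LAM`, `UNI`, `L11` for the de Rham theory

* `LamP`  : the integral classes of the de Rham theory;
* `C1Cd c1` : `c1` is the class of the Chern form of any connection;
* `lam_of`, `uni_of`, `l11_of`.
-/

set_option autoImplicit false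
set_option linter.unusedSectionVars false
set_option linter.style.haveILetI false

open scoped KaehlerDifferential

noncomputable section

namespace Crest.Agent.X262.Lat

open Crest.Agent.R208.F Crest.Agent.R208.FI Crest.Agent.R208.CW Crest.Agent.R208.T
open Crest.Agent.X262.Man Crest.Agent.X262.Coh Crest.Agent.X262.Kah
open Crest.Agent.X277 Crest.Agent.X277.Lef Crest.Agent.X277.AN.G1 Crest.Agent.X277.BD
open Crest.Agent.X277.BD.Br

/-- **the integral classes** -/
def LamP (X : SV) : AddSubgroup (HP X.P) := Lam (XP X.P)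

/-- `c1` is the class of the Chern form of any connection -/
def C1Cd (c1 : ∀ X : SV, BD ℂ X.F → HP X.P) : Prop :=
  ∀ (X : SV) (a : BD ℂ X.F) (A : X.F → Hm X.P.N → Ext (Hm X.P.N)) (c : Hm X.P.N → Ext (Hm X.P.N))
    (h : Cd (em X.P) a A c), a ∈ X.On → c1 X a = rcl h.ec

/-- a positive closed two-form on a surface -/
def OmStmt : Prop := ∀ (F : Type) [Field F] [Algebra ℂ F] (P : PModel ℂ F) (X : AnP P 2),
  ∃ om, EC (XP P) om ∧ R208.T.Hom 2 om ∧
    ∀ i, ∀ z ∈ (X.A.e i).target, 0 < topC 2 (pull ((emb X).par i) (om * om) z)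

variable {c1 : ∀ X : SV, BD ℂ X.F → HP X.P}

theorem C1Cd.iso (hc : C1Cd c1) {X : SV} {a : BD ℂ X.F} (ha : a ∈ X.On) {N : Type} [Fintype N]
    [DecidableEq N] {Q : Hm X.P.N → Matrix N N ℂ} (h : Ln (XP X.P) Q) {s : X.F → X.Pt → N → ℂ}
    (hs : Iso (an X.P) a (fun x => Q (jP X.P x)) s) : c1 X a = h.c1 := by
  obtain ⟨A, hA⟩ := Iso.cd (em X.P) h hs
  exact (hc X a A _ hA ha).trans (h.rcl_fm (subP X.P))

theorem C1Cd.mem (hc : C1Cd c1) {X : SV} {a : BD ℂ X.F} (ha : a ∈ X.On) : c1 X a ∈ LamP X := by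
  obtain ⟨N, _, _, Q, s, h, hs⟩ := exists_iso (em X.P) ha
  rw [hc.iso ha h hs]
  exact h.c1_mem

theorem prod_mem_dg {X : SV} (l : List (HP X.P)) (h : ∀ a ∈ l, a ∈ LamP X) :
    l.prod ∈ dgP X.P l.length := by
  induction l with
  | nil => exact one_mem_HD
  | cons a l ih =>
    rw [List.prod_cons, List.length_cons, add_comm l.length]
    exact dgP_mul (Lam.mem_HD (subP X.P) (h a List.mem_cons_self))
      (ih fun b hb => h b (List.mem_cons_of_mem _ hb))

theorem lam_of (typ : ∀ X : SV, ℕ → ℕ → Submodule ℂ (HP X.P)) (hI : ItgStmt) (hc : C1Cd c1) :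
    (thOf typ c1 LamP).LAM where
  dg X _ ha := Lam.mem_HD (subP X.P) ha
  cj X _ ha := Lam.conj (subP X.P) ha
  pb μ _ ha := Lam.map (subP _) (smapM μ) ha
  c1 _ _ ha := hc.mem ha
  itg X l h := by
    by_cases h1 : l.length = X.dim
    · rcases Nat.eq_zero_or_pos l.length with h2 | h2
      · obtain rfl := List.length_eq_zero_iff.1 h2
        exact ⟨1, (intP_one h1.symm).trans Int.cast_one.symm⟩
      · exact hI _ _ _ _ (cloP X.P) (oriP X.P) (isConnected_XP X.P).isPreconnected (h2.trans_eq h1) l h h1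
    · exact ⟨0, (intP_dg h1 (prod_mem_dg l h)).trans Int.cast_zero.symm⟩

theorem uni_of (typ : ∀ X : SV, ℕ → ℕ → Submodule ℂ (HP X.P)) (c1 : ∀ X : SV, BD ℂ X.F → HP X.P)
    (h1 : P1Stmt) (h2 : P2Stmt) (h3 : P3Stmt) (h4 : OmStmt) : (thOf typ c1 LamP).UNI := by
  intro X hX
  obtain ⟨A⟩ : Nonempty (AnP X.P 2) := hX ▸ nonempty_an X.P
  obtain ⟨om, e1, e2, e3⟩ := h4 _ X.P A
  obtain ⟨e4, e5⟩ := uni_emb (emb A) h1 h2 h3 e1 e2 e3
  exact ⟨e4, fun x hx h => e5 x hx fun y hy => (h y hy).imp fun _ hk =>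
    (intP_eq A _).symm.trans hk⟩

theorem l11_of (hL : L11AStmt) (hc : C1Cd c1) : (thOf typP c1 LamP).L11 := by
  intro X _ x hx ht
  obtain ⟨N, _, _, Q, h, rfl⟩ := (mem_Lam (subP X.P)).1 hx
  obtain ⟨u, hu, e⟩ := ht
  haveI := finite_kaehler X.P
  obtain ⟨a, ha, s, hs⟩ := hL _ X.P _ (Module.finBasis X.F Ω[X.F⁄ℂ]) (an X.P) _ (em X.P) N Q h u
    (fun i z hz => Fib.isType_iff.2 (hu i z hz)) e
  exact ⟨a, ha, (hc.iso ha h hs).symm⟩

end Crest.Agent.X262.Lat
end
end

-- ▼ part X262/Lat/C1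
section

/-!
# Row 262, LAT (helper31): the first Chern class of `PL/C1`

* `c1Cd : C1Cd PL.c1`; `l11`.
-/

set_option autoImplicit false

noncomputable section

namespace Crest.Agent.X262.Lat

open Crest.Agent.R208.CW
open Crest.Agent.X262.Man Crest.Agent.X262.Kah
open Crest.Agent.X277 Crest.Agent.X277.AN.G1

theorem c1Cd : C1Cd PL.c1 := by
  intro X a A c h ha
  choose g hg using ha
  refine PL.Crv.c1_eq (P := X.P) ⟨g, fun x => A (g x), h.ec.sm, h.deg, hg, fun x => h.deg1 _,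
    fun x => (hg x).eventually.mono fun y hy => ⟨h.sm y _ hy, h.cur y _ hy, ?_⟩⟩
  have h1 := LP.mem_of_ne (hy.ev_div_ne (hg y))
  exact (h.chg y _ _ (hg y) hy _ ((PL.fa_sm h1).of_le R208.CW.one_le_inf)
    ((eventually_mem h1).mono fun z hz => PL.fa_j hz)).trans (map_add _ _ _)

/-- **Lefschetz's theorem on `(1,1)`-classes** -/
theorem l11 : (thOf typP PL.c1 LamP).L11 := l11_of L11a5.l11aStmt c1Cd

end Crest.Agent.X262.Lat
end
end

-- ▼ part X262/Itg23/Main
section

/-!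
# Row 262, LAT-ITG (helper23): products of integral classes have integral periods

`2 π` times an integral class of degree two is the Euler class of an oriented plane field; the
product of `r` of them is the Euler class of the direct sum, whose integral is in `(2 π)^r ℤ`.
-/

set_option autoImplicit false
set_option linter.unusedSectionVars false

open scoped ContDiff Matrix RealInnerProductSpace ComplexConjugate Nat

noncomputable section

namespace Crest.Agent.X262.Itg23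

open Crest.Agent.R208.F Crest.Agent.R208.FI Crest.Agent.R208.CW Crest.Agent.R208.T
open Crest.Agent.R208.EW Crest.Agent.R208.EP Crest.Agent.R208.EZ Crest.Agent.X262.Lat

variable {E : Type} [NormedAddCommGroup E] [NormedSpace ℝ E] [FiniteDimensional ℝ E] {X : Set E}
  {d : ℕ}

theorem integ_rcl {o : E → Ext E} (hX : Clo d X) (ho : Ori d X o) {a : E → Ext E} (h : EC X a) :
    integ hX ho (rcl h) = ((J d X o a : ℝ) : ℂ) := by
  rw [rcl, integ_cls]
  refine Complex.ext rfl ?_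
  show J d X o (fun x => (0 : E → Ext E) x) = 0
  have h1 := J_smul (d := d) (X := X) (o := o) (om := fun _ => (0 : Ext E)) (0 : ℝ)
  simpa using h1

theorem lineF {n : Type} [Fintype n] [DecidableEq n] {Q : E → Matrix n n ℂ} (h : Ln X Q) :
    LineF X Q := by
  refine ⟨h.idf.smooth, fun x hx => ?_⟩
  obtain ⟨z, z1, z2⟩ := exists_unitary (ι := Unit) (h.idf.idem x hx) (h.herm x hx)
    (by rw [h.rank hx, Fintype.card_unit])
  refine ⟨fun i => z i (), ?_, ?_⟩
  · have e := congrFun (congrFun z1 ()) ()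
    rw [Matrix.mul_apply, Matrix.one_apply_eq] at e
    rw [← e]
    exact Finset.sum_congr rfl fun i _ => mul_comm _ _
  · rw [← z2]
    refine Matrix.ext fun i j => ?_
    rw [Matrix.mul_apply, Fintype.sum_unique]
    rfl

theorem pf_one (X : Set E) :
    PField X 1 fun _ => ContinuousLinearMap.id ℝ (EuclideanSpace ℝ Unit) := by
  refine ⟨fun _ _ => contDiffAt_const, fun _ _ _ => rfl, fun _ _ => ?_⟩
  rw [ContinuousLinearMap.coe_id, LinearMap.range_id, finrank_top, finrank_euclideanSpace,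
    Fintype.card_unit]

/-- `2 π` times an integral class is an Euler class -/
theorem exists_euC (hX : Sub d X) (hc : IsPreconnected X) {a : H X} (ha : a ∈ Lam X) :
    ∃ (β : E → Ext E) (hβ : EuC X 1 β), rcl hβ.ec = ((2 * Real.pi : ℝ) : ℂ) • a := by
  obtain ⟨n, _, _, Q, h, rfl⟩ := (mem_Lam hX).1 ha
  have hO := or_NL (ι := Unit) (pf_one X) (fun _ _ _ _ => rfl) (lineF h) Fintype.card_unit
  obtain ⟨ε, hε, he⟩ := ec_NL (ι := Unit) hX hc (pf_one X) (fun _ _ _ _ => rfl) (lineF h)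
    Fintype.card_unit
  have h1 : cc hX (idF_of_pfield (pf_one X)) 1 = 0 := by
    have h2 := el_succ (sc hX (idF_of_pfield (pf_one X))) 0
    rw [cc_eq_el]
    have h3 : sc hX (idF_of_pfield (pf_one X)) 1 = 0 := sc_const hX _ le_rfl
    simpa [el_zero, h3] using h2
  simp only [Finset.sum_range_succ, Finset.range_zero, Finset.sum_empty, zero_add, cc_zero, h1,
    Nat.sub_zero, pow_one, one_mul, zero_mul, add_zero, Nat.factorial_one, Nat.cast_one,
    mul_one] at he
  obtain ⟨δ, hδ, rfl⟩ : ∃ δ : ℝ, (δ = 1 ∨ δ = -1) ∧ ε = δ := by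
    rcases hε with rfl | rfl
    · exact ⟨1, Or.inl rfl, by simp⟩
    · exact ⟨-1, Or.inr rfl, by simp⟩
  have hδ2 : δ * δ = 1 := by rcases hδ with rfl | rfl <;> norm_num
  refine ⟨_, EuC.of (hO.EC.smul (δ / 2)) hO Fintype.card_unit ⟨δ, hδ, ?_⟩, ?_⟩
  · rw [smul_smul]
    have e : δ * (2 ^ 1 * ((1 ! : ℕ) : ℝ)) * (δ / 2) = 1 := by
      rw [Nat.factorial_one, Nat.cast_one]
      linear_combination hδ2
    rw [e, one_smul]
    exact Coh.refl _
  · have e := rcl_smul (δ / 2) hO.EC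
    rw [← hO.ec_eq, he, smul_smul] at e
    refine e.trans ?_
    rw [h.c1_eq hX, smul_smul]
    congr 1
    have hp : (Real.pi : ℂ) ≠ 0 := Complex.ofReal_ne_zero.2 Real.pi_ne_zero
    have h2 : (δ : ℂ) * δ = 1 := by exact_mod_cast hδ2
    rw [Lat.kap]
    push_cast
    field_simp
    linear_combination h2

theorem exists_euC_list (hX : Sub d X) (hc : IsPreconnected X) (a : H X) :
    ∀ l : List (H X), a ∈ Lam X → (∀ b ∈ l, b ∈ Lam X) →
      ∃ (β : E → Ext E) (hβ : EuC X (l.length + 1) β),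
        rcl hβ.ec = ((2 * Real.pi : ℝ) : ℂ) ^ (l.length + 1) • (a * l.prod) := by
  intro l
  induction l generalizing a with
  | nil =>
    intro ha _
    obtain ⟨β, hβ, e⟩ := exists_euC hX hc ha
    exact ⟨β, hβ, by rw [e]; simp⟩
  | cons b l ih =>
    intro ha hl
    obtain ⟨β, hβ, e⟩ := exists_euC hX hc ha
    obtain ⟨γ, hγ, e'⟩ := ih b (hl b List.mem_cons_self)
      fun c hc => hl c (List.mem_cons_of_mem _ hc)
    have h1 : EuC X ((b :: l).length + 1) (β * γ) := by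
      have := hβ.mul hγ
      rwa [add_comm 1] at this
    refine ⟨β * γ, h1, ?_⟩
    have e2 := rcl_mul hβ.ec hγ.ec
    rw [e, e', smul_mul_smul_comm, ← pow_succ'] at e2
    exact e2

/-- **products of integral classes have integral periods** -/
theorem itgStmt : ItgStmt := by
  intro E _ _ _ X r o hX ho hc hr l hl hlen
  cases l with
  | nil => exact absurd hlen (by simp; omega)
  | cons a l =>
    obtain ⟨β, hβ, e⟩ := exists_euC_list hX.sub hc a l (hl a List.mem_cons_self)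
      fun c hc => hl c (List.mem_cons_of_mem _ hc)
    have hr' : l.length + 1 = r := hlen
    subst hr'
    obtain ⟨z, hz⟩ := hβ.int hr hX ho
    refine ⟨z, ?_⟩
    have h1 := integ_rcl hX ho hβ.ec
    rw [e, map_smul, hz, smul_eq_mul] at h1
    have hp : ((2 * Real.pi : ℝ) : ℂ) ^ (l.length + 1) ≠ 0 :=
      pow_ne_zero _ (Complex.ofReal_ne_zero.2 (by positivity))
    refine mul_left_cancel₀ hp ?_
    rw [List.prod_cons, h1]
    push_cast
    ring

end Crest.Agent.X262.Itg23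
end
end

-- ▼ part X262/LatQ/P3
section

/-!
# Row 262, LAT (helper24): Chern forms represent the classes `h.c1`

* `evC v` : the value of a complex form on two vectors; `evC_sf` : the value of `tr (Q dQ dQ)`;
* `chF Q` : the real Chern form, `rcl_chF`;
* `p3Stmt : Lat.P3Stmt`;
* `exists_om` : the Fubini-Study form.
-/

set_option autoImplicit false
set_option linter.unusedSectionVars false

open Set Filter Topology Module
open scoped Manifold ContDiff ComplexConjugate

noncomputable section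

namespace Crest.Agent.X262.LatQ

open Crest.Agent.R208.F Crest.Agent.R208.FI Crest.Agent.R208.CW Crest.Agent.R208.T
open Crest.Agent.X262.Man Crest.Agent.X262.Lat
open Crest.Agent.R275.Geo (Cn Atl)
open Crest.Agent.R240 (E4)

section ev

variable {V : Type} [NormedAddCommGroup V] [NormedSpace ℝ V] [FiniteDimensional ℝ V]
  {n : Type} [Fintype n] [DecidableEq n] {Q : V → Matrix n n ℂ} {x : V} {X : Set V} {d : ℕ}

/-- the value of a complex form on two vectors -/
def evC (v : Fin 2 → V) : CF V →ₗ[ℂ] ℂ where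
  toFun c := ⟨evA V 2 c.re v, evA V 2 c.im v⟩
  map_add' a b := Complex.ext (by simp) (by simp)
  map_smul' z a := Complex.ext (by simp) (by simp)


theorem evA_io_io (l l' : Dual ℝ V) (v : Fin 2 → V) :
    evA V 2 (io l * io l') v = l (v 0) * l' (v 1) - l (v 1) * l' (v 0) := by
  rw [show io l * io l' = ExteriorAlgebra.ιMulti ℝ 2 ![l, l'] by
    simp [ExteriorAlgebra.ιMulti_apply], evA_iMulti, Matrix.det_fin_two]
  simp [mul_comm]

theorem evC_dz (l l' : V →L[ℝ] ℂ) (v : Fin 2 → V) :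
    evC v (dz l * dz l') = l (v 0) * l' (v 1) - l (v 1) * l' (v 0) := by
  refine Complex.ext ?_ ?_
  · change evA V 2 (io (reD l) * io (reD l') - io (imD l) * io (imD l')) v = _
    rw [map_sub, AlternatingMap.sub_apply, evA_io_io, evA_io_io]
    simp only [reD_apply, imD_apply, Complex.sub_re, Complex.mul_re]
    ring
  · change evA V 2 (io (reD l) * io (imD l') + io (imD l) * io (reD l')) v = _
    rw [map_add, AlternatingMap.add_apply, evA_io_io, evA_io_io]
    simp only [reD_apply, imD_apply, Complex.sub_im, Complex.mul_im]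
    ring

/-- the derivative of a field of matrices -/
def dm (Q : V → Matrix n n ℂ) (x v : V) : Matrix n n ℂ :=
  fun i j => fderiv ℝ (fun y => Q y i j) x v

theorem evC_sf (h : SM 1 Q x) (u v : V) : evC ![u, v] (sf 1 Q x) =
    (Q x * (dm Q x u * dm Q x v - dm Q x v * dm Q x u)).trace := by
  have h1 : ∀ a b, DD Q x a b = dz (fderiv ℝ (fun y => Q y a b) x) := fun a b =>
    dC_fun ((h a b).differentiableAt one_ne_zero).hasFDerivAt
  simp only [sf, mul_one, pow_two, Matrix.trace, Matrix.diag_apply, Matrix.mul_apply, h1, hat,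
    Matrix.map_apply, map_sum, ← Algebra.smul_def, map_smul, evC_dz, Matrix.sub_apply, dm,
    smul_eq_mul, Finset.sum_sub_distrib, Matrix.cons_val_zero, Matrix.cons_val_one]

/-- the real Chern form -/
def chF (Q : V → Matrix n n ℂ) : V → Ext V := reF (Lat.kap • sf 1 Q)

theorem hom_chF (Q : V → Matrix n n ℂ) : Hom 2 (chF Q) := fun x =>
  ((degC_sf 1 Q x).csmul Lat.kap).1

theorem ec_chF (h : IdF X Q) : EC X (chF Q) :=
  have h1 := (mem_Z_iff.1 ((Z X).smul_mem (sf_mem_Z_gen h 1) Lat.kap)).1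
  ⟨h1.1, h1.2.1, h1.2.2⟩

theorem evA_chF (h : SM 1 Q x) (u v : V) : evA V 2 (chF Q x) ![u, v] =
    (Lat.kap * (Q x * (dm Q x u * dm Q x v - dm Q x v * dm Q x u)).trace).re := by
  rw [← evC_sf h, ← smul_eq_mul, ← map_smul]
  rfl

theorem pull_chF {V' : Type} [NormedAddCommGroup V'] [NormedSpace ℝ V'] [FiniteDimensional ℝ V']
    {f : V' → V} {y : V'} (hf : ContDiffAt ℝ 2 f y) (h : SM 1 Q (f y)) :
    pull f (chF Q) y = chF (fun z => Q (f z)) y := by
  change (pbC _ (Lat.kap • sf 1 Q (f y))).re = (Lat.kap • sf 1 (fun z => Q (f z)) y).re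
  rw [pbC_smul, ← pullC_sf hf h]
  rfl

/-- a real class is the class of the real part -/
theorem rcl_reF {om : V → CF V} (h : om ∈ Z X) (hc : H.conj X (cls om h) = cls om h)
    (h' : EC X (reF om)) : rcl h' = cls om h := by
  obtain ⟨-, h4, h5, h6⟩ := mem_Z_iff.1 h
  have h1 : cls om h = rcl h' + Complex.I • rcl ⟨h4, h5, h6⟩ := by rw [← cls_eq_rcl]; rfl
  rw [h1, map_add, H.conj_smul, conj_rcl, conj_rcl, Complex.conj_I, neg_smul, add_right_inj,
    neg_eq_iff_add_eq_zero, ← two_smul ℂ, smul_eq_zero] at hc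
  rw [h1, hc.resolve_left two_ne_zero, add_zero]

theorem rcl_chF (hX : Sub d X) (h : Ln X Q) : rcl (ec_chF h.idf) = h.c1 := by
  have h1 := h.conj_c1 hX
  rw [Ln.c1, ← cls_smul] at h1 ⊢
  exact rcl_reF _ h1 _

end ev

theorem sm_of_contMDiff {M : Type} [TopologicalSpace M] {A : Atl 2 M} {f : Mf A → ℂ}
    (h : ContMDiff 𝓘(ℝ, E4) 𝓘(ℝ, ℂ) ∞ f) : A.Sm f := fun k => by
  have h1 := contMDiffOn_iff_contDiffOn.1 (h.comp_contMDiffOn
    (contMDiffOn_symm_of_mem_maximalAtlas (I := 𝓘(ℝ, E4)) (n := ∞) (e := rch A k)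
      (IsManifold.subset_maximalAtlas ⟨k, rfl⟩)))
  refine (h1.comp (cL 2).symm.contDiff.contDiffOn fun z hz => ?_).congr fun z _ => ?_
  · rwa [rch_target, mem_preimage, ContinuousLinearEquiv.apply_symm_apply]
  · simp only [Function.comp_apply, rch_symm, ContinuousLinearEquiv.apply_symm_apply]

/-- **Chern forms represent the classes `h.c1`** -/
theorem p3Stmt : P3Stmt := by
  intro M _ _ _ A E _ _ _ ε N p a hp ha
  let Q : E → Matrix (Fin N) (Fin N) ℂ := fun y => Matrix.of fun i j => ε.amb (fun x => p x i j) y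
  have h1 : ∀ x, Q (ε.j x) = p x := fun x => Matrix.ext fun i j =>
    ε.amb_j (sm_of_contMDiff (hp.smooth i j)) x
  have h2 : ∀ y, SM ∞ Q y := fun y i j => (ε.contDiff_amb _).contDiffAt
  have h : Ln ε.X Q := ⟨⟨fun y _ => h2 y, ε.forall_X.2 fun x => h1 x ▸ hp.idem x⟩,
    ε.forall_X.2 fun x => h1 x ▸ hp.herm x, ε.forall_X.2 fun x => h1 x ▸ hp.rank x⟩
  refine ⟨Q, h, _, ec_chF h.idf, hom_chF Q, fun x u v => ?_, rcl_chF ε.sub h⟩
  have h3 : cL 2 (rch A (ci A x) x) ∈ (A.e (ci A x)).target := (rch A _).map_source (mem_ci A x)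
  have h4 : ContDiffAt ℝ ∞ (ε.rpar (ci A x)) (rch A (ci A x) x) :=
    (ε.contDiffAt_par h3).comp _ (cL 2).contDiff.contDiffAt
  have h5 : (fun z => Q (ε.rpar (ci A x) z)) = fun z => p ((chartAt E4 x).symm z) :=
    funext fun z => h1 _
  have h6 : Q (ε.rpar (ci A x) (rch A (ci A x) x)) = p x :=
    (congrFun h5 _).trans (congrArg p ((chartAt E4 x).left_inv (mem_chart_source E4 x)))
  rw [pull_chF (h4.of_le two_le) ((h2 _).of_le one_le_inf),
    evA_chF (((h2 _).comp h4).of_le one_le_inf), h5, h6, ha x u v]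
  rfl

/-! ### the Fubini-Study form -/

section fs

open Crest.Agent.R257.PN_835 (HC nsq pm pm_apply nsq_pos)
open Crest.Agent.X277.Lef Crest.Agent.X277.AN.G1
open scoped Matrix

theorem ln_pm {N : ℕ} {Z : HC N} (hZ : Z ≠ 0) :
    pm Z * pm Z = pm Z ∧ (pm Z)ᴴ = pm Z ∧ (pm Z).trace = 1 := by
  have h0 : (nsq Z : ℂ) ≠ 0 := by exact_mod_cast (nsq_pos hZ).ne'
  refine ⟨Matrix.ext fun a b => ?_, Matrix.ext fun a b => ?_, ?_⟩
  · rw [Matrix.mul_apply, Finset.sum_congr rfl fun k _ => show pm Z a k * pm Z k b =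
      pm Z a b / nsq Z * (Z k * conj (Z k)) by simp only [pm_apply]; ring, ← Finset.mul_sum,
      ← nsq_eq, div_mul_cancel₀ _ h0]
  · simp [pm_apply, mul_comm]
  · simp only [Matrix.trace, Matrix.diag_apply, pm_apply, ← Finset.sum_div, ← nsq_eq, div_self h0]

variable {F : Type} [Field F] [Algebra ℂ F] {n : ℕ} (P : PModel ℂ F)

theorem sm_toM {N : ℕ} (q : Hm N) : SM ∞ toM q := fun a b => (contDiff_entry (a, b)).contDiffAt

/-- the tautological line -/
theorem ln_toM : Ln (XP P) toM := by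
  have h : ∀ q ∈ XP P, ∃ Z, Z ≠ 0 ∧ pm Z = toM q := forall_mem_range.2 fun x => x.val.2
  refine ⟨⟨fun q _ => sm_toM q, fun q hq => ?_⟩, fun q hq => ?_, fun q hq => ?_⟩ <;>
    obtain ⟨Z, hZ, h1⟩ := h q hq <;> rw [← h1]
  exacts [(ln_pm hZ).1, (ln_pm hZ).2.1, (ln_pm hZ).2.2]

/-- the Fubini-Study form -/
def fs (N : ℕ) : Hm N → Ext (Hm N) := imF (sf 1 toM)

theorem hom_fs (N : ℕ) : Hom 2 (fs N) := fun x => (degC_sf 1 toM x).2

theorem ec_fs : EC (XP P) (fs P.N) :=
  have h1 := (mem_Z_iff.1 (sf_mem_Z_gen (ln_toM P).idf 1)).2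
  ⟨h1.1, h1.2.1, h1.2.2⟩

variable {P}

/-- the Fubini-Study form in a chart -/
theorem exists_pull_fs (X : AnP P n) {i : X.A.ι} {z : Cn n} (hz : z ∈ (X.A.e i).target) :
    ∃ (r : ℝ) (l : Fin (P.N + 1) → Cn n →L[ℂ] ℂ), 0 < r ∧ (∀ v, (∀ k, l k v = 0) → v = 0) ∧
      pullC ((emb X).par i) (sf 1 toM) z = ⟨0, r • herm fun k => (l k).restrictScalars ℝ⟩ := by
  obtain ⟨x, hx, rfl⟩ : ∃ x ∈ (X.A.e i).source, X.A.e i x = z :=
    ⟨_, (X.A.e i).map_target hz, (X.A.e i).right_inv hz⟩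
  have hi := X.sub i x hx
  let Z : Cn n → HC P.N := fun w j => X.rd i (ev (P.y j / P.y (X.r i))) w
  let Z' : Fin (P.N + 1) → Cn n →L[ℂ] ℂ := fun j => fderiv ℂ (fun w => Z w j) (X.A.e i x)
  have h1 : ∀ j, HasFDerivAt (fun w => Z w j) ((Z' j).restrictScalars ℝ) (X.A.e i x) := fun j =>
    (AnP.diffAt hx (y_mem hi j)).hasFDerivAt.restrictScalars ℝ
  have h2 : Z (X.A.e i x) = fun j => ev (P.y j / P.y (X.r i)) x :=
    funext fun j => AnP.rd_self hx _
  have h3 : Z (X.A.e i x) ≠ 0 := h2 ▸ ev_y_ne hi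
  have h4 : (fun w => toM ((emb X).par i w)) =ᶠ[𝓝 (X.A.e i x)] fun w => pm (Z w) := by
    filter_upwards [(X.A.e i).open_target.mem_nhds hz] with w hw
    exact congrArg toM (jP_eq (X.sub i _ ((X.A.e i).map_target hw)))
  have h5 : DD (fun w => toM ((emb X).par i w)) (X.A.e i x) = DD (fun w => pm (Z w)) (X.A.e i x) :=
    Matrix.ext fun a b => dC_congr (h4.mono fun w hw => by simp only [hw])
  have h6 := nsq_pos h3
  refine ⟨2 / nsq (Z (X.A.e i x)), fun k => Z' k - (Z (X.A.e i x) k / nsq (Z (X.A.e i x))) •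
    ∑ j, conj (Z (X.A.e i x) j) • Z' j, by positivity, fun v hv => ?_, ?_⟩
  · have h7 : ∀ j, Z' j v = X.dv i x v (P.y j / P.y (X.r i)) := fun _ => rfl
    have h8 := hv (X.r i)
    have h11 : Z (X.A.e i x) (X.r i) = 1 := by
      rw [h2]
      simp only [div_self (P.y_ne _)]
      exact (lp x).v_one
    rw [sub_apply, h7, div_self (P.y_ne _), ← map_one (algebraMap ℂ F),
      AnP.dv_alg, zero_sub, neg_eq_zero, smul_apply, smul_eq_zero, h11] at h8
    have h9 := h8.resolve_left (one_div_ne_zero (by exact_mod_cast h6.ne'))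
    refine AnP.eq_zero_of_dv hx hi fun j => ?_
    have h10 := hv j
    rwa [sub_apply, smul_apply, h9, smul_zero, sub_zero] at h10
  · have h7 : sf 1 (fun w => toM ((emb X).par i w)) (X.A.e i x) =
        sf 1 (fun w => pm (Z w)) (X.A.e i x) := by rw [sf, sf, h5, h4.eq_of_nhds]
    rw [pullC_sf (((emb X).contDiffAt_par hz).of_le two_le) ((sm_toM _).of_le one_le_inf), h7,
      sf_pm h1 h3]
    congr 3
    funext k
    ext v
    simp [hz_apply]

theorem fs_pos (X : AnP P n) (i : X.A.ι) (z : Cn n) (hz : z ∈ (X.A.e i).target) :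
    0 < topC n (pull ((emb X).par i) (fs P.N ^ n) z) := by
  obtain ⟨r, l, h1, h2, h3⟩ := exists_pull_fs X hz
  have h4 : pull ((emb X).par i) (fs P.N) z = _ := congrArg Cx.im h3
  rw [show pull ((emb X).par i) (fs P.N ^ n) z = pull ((emb X).par i) (fs P.N) z ^ n from
    map_pow (pb _) _ _, h4, smul_pow, map_smul]
  exact mul_pos (pow_pos h1 n) (topC_herm_pos h2)

theorem exists_om (P : PModel ℂ F) (X : AnP P 2) : ∃ om, EC (XP P) om ∧ Hom 2 om ∧
    ∀ i, ∀ z ∈ (X.A.e i).target, 0 < topC 2 (pull ((emb X).par i) (om * om) z) :=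
  ⟨_, ec_fs P, hom_fs _, fun i z hz => pow_two (fs P.N) ▸ fs_pos X i z hz⟩

end fs

end Crest.Agent.X262.LatQ
end
end

-- ▼ part X262/P12/Lin
section

/-!
# Row 262, LAT-P12 (helper80), part 1: two-forms as bilinear forms

* `bl c`    : the bilinear form of the part of degree two of `c`;
* `top_mul` : the top coefficient of a product is `W`;
* `dd_bl`   : the two exterior derivatives agree.
-/

set_option autoImplicit false

noncomputable section

namespace Crest.Agent.X262.P12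

open Crest.Agent.R208.F Crest.Agent.R208.FI Crest.Agent.R208.T
open Crest.Agent.R240 (E4 W Bil)

theorem ev2 {V : Type*} [AddCommGroup V] [Module ℝ V] (c : Ext V) (u v : V) :
    evA V 2 c ![u, v] = evA V 0 (ii v (ii u c)) ![] := by
  rw [evA_ii, evA_ii]

/-- the bilinear form of `c` -/
def bl0 (c : Ext E4) : Bil := LinearMap.toContinuousBilinearMap
  (LinearMap.mk₂ ℝ (fun u v : E4 => evA E4 2 c ![u, v]) (fun _ _ _ => by simp [ev2])
    (fun _ _ _ => by simp [ev2]) (fun _ _ _ => by simp [ev2]) fun _ _ _ => by simp [ev2])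

/-- the bilinear form of `c` -/
def bl : Ext E4 →L[ℝ] Bil := LinearMap.toContinuousLinearMap
  { toFun := bl0
    map_add' := fun a b => by
      ext u v
      exact congrArg (fun f : E4 [⋀^Fin 2]→ₗ[ℝ] ℝ => f ![u, v]) (map_add (evA E4 2) a b)
    map_smul' := fun r a => by
      ext u v
      exact congrArg (fun f : E4 [⋀^Fin 2]→ₗ[ℝ] ℝ => f ![u, v]) (map_smul (evA E4 2) r a) }

theorem bl_apply (c : Ext E4) (u v : E4) : bl c u v = evA E4 2 c ![u, v] := rfl

theorem evA_two (c : Ext E4) (v : Fin 2 → E4) : evA E4 2 c v = bl c (v 0) (v 1) := by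
  rw [bl_apply]
  congr 1
  funext i
  fin_cases i <;> rfl

theorem bl_self (c : Ext E4) (v : E4) : bl c v v = 0 := by
  rw [bl_apply, ev2, ii_ii, map_zero]
  rfl

theorem bl_pb (L : E4 →ₗ[ℝ] E4) (c : Ext E4) (u v : E4) : bl (pb L c) u v = bl c (L u) (L v) := by
  rw [bl_apply, evA_pb, evA_two]
  rfl

theorem ev3 (l : Module.Dual ℝ E4) (c : Ext E4) (v : Fin 3 → E4) : evA E4 3 (io l * c) v =
    l (v 0) * bl c (v 1) (v 2) - l (v 1) * bl c (v 0) (v 2) + l (v 2) * bl c (v 0) (v 1) := by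
  refine (evA_io_mul 2 l c v).trans ((Fin.sum_univ_three _).trans ?_)
  simp only [evA_two]
  simp [Fin.succAbove]
  ring

theorem top_iMulti (l : Fin 2 → Module.Dual ℝ E4) (b : Ext E4) :
    top 4 (ExteriorAlgebra.ιMulti ℝ 2 l * b) = W (bl (ExteriorAlgebra.ιMulti ℝ 2 l)) (bl b) := by
  have h1 : ∀ u v, bl (ExteriorAlgebra.ιMulti ℝ 2 l) u v = l 0 u * l 1 v - l 1 u * l 0 v :=
    fun u v => by
      rw [bl_apply, evA_iMulti, Matrix.det_fin_two]
      rfl
  have h2 : ∀ i, sb 4 i = R240.ee i := fun i => by simp [R240.ee]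
  simp only [W, R240.ent, h1]
  rw [show ExteriorAlgebra.ιMulti ℝ 2 l = io (l 0) * io (l 1) by
    simp [ExteriorAlgebra.ιMulti_apply, Matrix.vecTail], mul_assoc, top_apply]
  refine (evA_io_mul 3 _ _ _).trans ((Fin.sum_univ_four _).trans ?_)
  simp only [ev3, h2]
  simp [Fin.succAbove]
  ring

theorem top_mul {a : Ext E4} (ha : IsDeg 2 a) (b : Ext E4) : top 4 (a * b) = W (bl a) (bl b) := by
  let f : Ext E4 →ₗ[ℝ] ℝ :=
    { toFun := fun a => top 4 (dpl 2 a * b)
      map_add' := fun a a' => by rw [map_add, add_mul, map_add]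
      map_smul' := fun r a => by rw [map_smul, smul_mul_assoc, map_smul]; rfl }
  let g : Ext E4 →ₗ[ℝ] ℝ :=
    { toFun := fun a => W (bl a) (bl b)
      map_add' := fun a a' => by rw [map_add, R240.W_add_left]
      map_smul' := fun r a => by rw [map_smul, R240.W_smul_left]; rfl }
  have h : top 4 (dpl 2 a * b) = W (bl a) (bl b) := ext_lin (f := f) (g := g) (fun p l => ?_) a
  · rwa [dpl_of_isDeg ha] at h
  simp only [f, g, LinearMap.coe_mk, AddHom.coe_mk]
  by_cases hp : p = 2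
  · subst hp
    rw [dpl_iMulti_same, top_iMulti]
  · have h1 : bl (ExteriorAlgebra.ιMulti ℝ p l) = 0 := by
      ext u v
      rw [bl_apply, evA_iMulti_ne hp]
      rfl
    rw [dpl_iMulti_ne hp, zero_mul, map_zero, h1]
    simp [W, R240.ent]

theorem evA_wd (T : E4 →L[ℝ] Ext E4) (u v w : E4) :
    evA E4 3 (wd E4 T) ![u, v, w] = bl (T u) v w - bl (T v) u w + bl (T w) u v := by
  have h : ∀ x y z : E4, ∑ k, (sb 4).coord k x * bl (T (sb 4 k)) y z = bl (T x) y z := by
    intro x y z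
    conv_rhs => rw [← (sb 4).sum_repr x]
    simp only [map_sum, map_smul, sum_apply, smul_apply,
      smul_eq_mul, Module.Basis.coord_apply]
  rw [wd_basis (sb 4), ← h u, ← h v, ← h w, ← Finset.sum_sub_distrib, ← Finset.sum_add_distrib,
    map_sum]
  exact (map_sum (AddMonoidHom.mk' (fun f : E4 [⋀^Fin 3]→ₗ[ℝ] ℝ => f ![u, v, w])
    fun _ _ => rfl) (fun k => evA E4 3 (io ((sb 4).coord k) * T (sb 4 k))) Finset.univ).trans
      (Finset.sum_congr rfl fun k _ => ev3 _ _ _)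

theorem dd_bl {g : E4 → Ext E4} {y : E4} (hg : DifferentiableAt ℝ g y) (u v w : E4) :
    R240.Ch.dd (fun z => bl (g z)) y u v w = evA E4 3 (d g y) ![u, v, w] := by
  have h : fderiv ℝ (fun z => bl (g z)) y = bl.comp (fderiv ℝ g y) :=
    (bl.hasFDerivAt.comp y hg.hasFDerivAt).fderiv
  rw [d, evA_wd, R240.Ch.dd, h]
  rfl

end Crest.Agent.X262.P12
end
end

-- ▼ part X262/P12/Main
section

/-!
# Row 262, LAT-P12 (helper80), part 2: forms and integrals on `Mf A`

* `rep_eq` : a restricted form in any chart;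
* `p1Stmt` : `Lat.P1Stmt`;
* `p2Stmt` : `Lat.P2Stmt`.
-/

set_option autoImplicit false
set_option linter.unusedSectionVars false
set_option linter.style.haveILetI false

open Set Filter Topology MeasureTheory
open scoped Manifold ContDiff

noncomputable section

namespace Crest.Agent.X262.P12

open Crest.Agent.R208.F Crest.Agent.R208.FI Crest.Agent.R208.CW Crest.Agent.R208.T
open Crest.Agent.X262.Man Crest.Agent.X262.Lat
open Crest.Agent.R275.Geo (Cn Atl)
open Crest.Agent.R240 (E4 W Bil)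
open Crest.Agent.R240.Ch (F2 at2 rep Smooth2 Closed2 Z2)

theorem int_pu {X ι : Type*} [TopologicalSpace X] [CompactSpace X] [MeasurableSpace X]
    [OpensMeasurableSpace X] (μ : Measure X) [IsFiniteMeasure μ] {t : Finset ι} {χ : ι → X → ℝ}
    (hc : ∀ p, Continuous (χ p)) (h1 : ∀ x, ∑ p ∈ t, χ p x = 1) {f : X → ℝ} (hf : Continuous f) :
    ∫ x, f x ∂μ = ∑ p ∈ t, ∫ x, χ p x * f x ∂μ := by
  rw [← integral_finsetSum (f := fun p x => χ p x * f x) t fun p _ =>
    ((hc p).mul hf).integrable_of_hasCompactSupport (HasCompactSupport.of_compactSpace _)]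
  simp only [← Finset.sum_mul, h1, one_mul]

variable {M : Type} [TopologicalSpace M] [CompactSpace M] {A : Atl 2 M} {E : Type}
  [NormedAddCommGroup E] [NormedSpace ℝ E] [FiniteDimensional ℝ E] (ε : Emb A E)
  {w w' : E → Ext E} {i : A.ι} {y : E4}

/-- the form `w` in the real chart `i` -/
def lc (i : A.ι) (w : E → Ext E) (y : E4) : Ext E4 := pull (ε.rpar i) w y

theorem contDiffAt_rpar (hy : cL 2 y ∈ (A.e i).target) : ContDiffAt ℝ ∞ (ε.rpar i) y :=
  (ε.contDiffAt_par hy).comp y (cL 2).contDiff.contDiffAt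

theorem contDiffAt_lc (hw : Sm ε.X w) (hy : cL 2 y ∈ (A.e i).target) :
    ContDiffAt ℝ ∞ (lc ε i w) y :=
  contDiffAt_pull (contDiffAt_rpar ε hy) (le_refl _) (hw _ (ε.par_mem i _))

theorem d_lc (hw : EC ε.X w) (hy : cL 2 y ∈ (A.e i).target) : d (lc ε i w) y = 0 := by
  refine (d_pull ((contDiffAt_rpar ε hy).of_le two_le) (hw.sm.diff (ε.par_mem i _))).trans ?_
  rw [ε.pull_rpar hy, ε.pull_d hw.sm hy, (ε.cl_iff hw.sm).1 hw.cl i _ hy, map_zero]

theorem W_lc (hw : Hom 2 w) (hy : cL 2 y ∈ (A.e i).target) :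
    W (bl (lc ε i w y)) (bl (lc ε i w' y)) = topC 2 (pull (ε.par i) (w * w') (cL 2 y)) := by
  rw [← ε.top_rpar hy, pull_mul']
  exact (top_mul (hw.pull y) _).symm

/-- a restricted form in any chart -/
theorem rep_eq {a : F2 E4 (Mf A)}
    (h : ∀ x, at2 a x = bl (lc ε (ci A x) w (rch A (ci A x) x))) {p : Mf A}
    (hy : y ∈ (chartAt E4 p).target) : rep p a y = bl (lc ε (ci A p) w y) := by
  set x := (chartAt E4 p).symm y with hx
  have h1 := R240.Ch.trans_contDiffAt hy (mem_chart_source E4 x)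
  have h2 : ε.rpar (ci A p) =ᶠ[𝓝 y] ε.rpar (ci A x) ∘ R240.Ch.trans (E := E4) p x := by
    filter_upwards [((chartAt E4 p).isOpen_inter_preimage_symm
      (chartAt E4 x).open_source).mem_nhds ⟨hy, mem_chart_source E4 x⟩] with z hz
    exact congrArg ε.j ((chartAt E4 x).left_inv hz.2).symm
  have h3 : lc ε (ci A p) w y = pull (R240.Ch.trans (E := E4) p x) (lc ε (ci A x) w) y :=
    (pull_congr h2).trans (pull_comp (h1.differentiableAt (by simp))
      ((contDiffAt_rpar ε (mem_chart_target E4 x)).differentiableAt (by simp))).symm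
  ext u v
  rw [R240.Ch.rep_apply, h, R240.Ch.tcc_eq_fderiv_trans, (chartAt E4 p).right_inv hy, h3, pull,
    bl_pb]
  rfl

theorem Rp.at2 {a : Z2 (Mf A)} (h : Rp ε w a) (x : Mf A) :
    at2 (a.1.1 : F2 E4 (Mf A)) x = bl (lc ε (ci A x) w (rch A (ci A x) x)) := by
  ext u v
  exact h x u v

/-- **closed two-forms restrict** -/
theorem p1Stmt : P1Stmt := by
  intro M _ _ A E _ _ _ ε w hw _
  let a : F2 E4 (Mf A) := fun x => bl (lc ε (ci A x) w (rch A (ci A x) x))
  have h1 : ∀ (p : Mf A), ∀ y ∈ (chartAt E4 p).target,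
      rep p a =ᶠ[𝓝 y] fun z => bl (lc ε (ci A p) w z) := fun p y hy => by
    filter_upwards [(chartAt E4 p).open_target.mem_nhds hy] with z hz
    exact rep_eq ε (fun _ => rfl) hz
  have h2 : Smooth2 a := ⟨fun x v => bl_self _ v, fun p y hy =>
    ((bl.contDiff.contDiffAt.comp y (contDiffAt_lc ε hw.sm hy)).congr_of_eventuallyEq
      (h1 p y hy)).contDiffWithinAt⟩
  have h3 : Closed2 a := fun p y hy u v t => by
    have h4 := dd_bl ((contDiffAt_lc ε hw.sm hy).differentiableAt (by simp)) u v t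
    rw [d_lc ε hw hy, map_zero] at h4
    rw [R240.Ch.dd, (h1 p y hy).fderiv_eq]
    exact h4
  exact ⟨⟨⟨a, h2⟩, h3⟩, fun _ _ _ => rfl⟩

theorem int_chart [MeasurableSpace M] [BorelSpace M] (i : A.ι) {g : M → ℝ}
    (h0 : ∀ x, x ∉ (A.e i).source → g x = 0) (om : E → Ext E) :
    ∫ x, g x * ε.den om x ∂ε.vol = ∫ u in cL 2 ⁻¹' (A.e i).target,
      g ((A.e i).symm (cL 2 u)) * topC 2 (pull (ε.par i) om (cL 2 u)) := by
  rw [setIntegral_cL fun z => g ((A.e i).symm z) * topC 2 (pull (ε.par i) om z),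
    ← (A.e i).image_source_eq_target,
    ← ε.setInt_chart (A.e i).open_source.measurableSet subset_rfl,
    setIntegral_eq_integral_of_forall_compl_eq_zero fun x hx => by rw [h0 x hx, zero_mul]]

/-- **the integrals agree** -/
theorem p2Stmt : P2Stmt := by
  intro M _ _ _ A E _ _ _ ε om F _ ho hF hpos
  have h1 : ∀ i y, cL 2 y ∈ (A.e i).target → 0 < W (bl (lc ε i om y)) (bl (lc ε i om y)) :=
    fun i y hy => (W_lc ε ho hy).symm ▸ hpos i _ hy
  have h2 : ∀ x, W (R235.val F x) (R235.val F x) ≠ 0 := fun x => by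
    rw [R235.val, Rp.at2 ε hF]
    exact (h1 _ _ (mem_chart_target E4 x)).ne'
  refine ⟨h2, fun w w' a b hw hd hw' _ ha hb => ?_⟩
  letI : MeasurableSpace M := borel M
  haveI : BorelSpace M := ⟨rfl⟩
  letI : MeasurableSpace (Mf A) := borel (Mf A)
  haveI : BorelSpace (Mf A) := ⟨rfl⟩
  have hV : R240.Int.Vol (F.1.1 : F2 E4 (Mf A)) := ⟨F.1.2.1, fun p => (F.1.2.2 p).continuousOn, h2⟩
  obtain ⟨P⟩ := R240.Int.nonempty_PU (Mf A)
  haveI := R240.Int.isFinite_mu hV
  have h3 := R240.Int.continuous_qG hV (R240.Int.Smooth2.cont2 a.1.2)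
    (R240.Int.Smooth2.cont2 b.1.2)
  have h4 : ContinuousOn (w * w') ε.X := fun x hx =>
    ((hw.sm.mul hw'.sm) x hx).continuousAt.continuousWithinAt
  have h7 : ∀ p, Continuous fun x : M => P.χ p x := P.continuous
  rw [ε.Int_eq, int_pu ε.vol (t := P.t) h7 P.sum_one (ε.continuous_den h4)]
  refine (int_pu _ P.continuous P.sum_one h3).trans (Finset.sum_congr rfl fun p hp => ?_)
  have h5 : ∀ x, x ∉ (chartAt E4 p).source → P.χ p x = 0 := fun x hx =>
    image_eq_zero_of_notMem_tsupport fun h => hx (P.supp p hp h)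
  refine (R240.Int.integral_mu_of_supp hV p ((P.continuous p).mul h3).aestronglyMeasurable
    fun x hx => by rw [Pi.mul_apply, h5 x hx, zero_mul]).trans
      (Eq.trans ?_ (int_chart ε (ci A p) h5 _).symm)
  refine setIntegral_congr_fun (chartAt E4 p).open_target.measurableSet fun y hy => ?_
  have h6 : R240.Int.sg (F.1.1 : F2 E4 (Mf A)) p y = 1 := by
    rw [R240.Int.sg, rep_eq ε (Rp.at2 ε hF) hy, sign_pos (h1 _ _ hy), SignType.coe_one]
  simp only [Pi.mul_apply, smul_eq_mul]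
  rw [R240.Int.qG_chart hV a.1.2.1 b.1.2.1 hy, mul_left_comm, R240.Int.dens_mul_q hV hy, h6,
    one_mul, rep_eq ε (Rp.at2 ε ha) hy, rep_eq ε (Rp.at2 ε hb) hy, W_lc ε hd hy]
  rfl

end Crest.Agent.X262.P12
end
end

-- ▼ part X262/Van/Snc
section

/-!
# Row 262, package VAN (helper47): families with normal crossings

* `Ret X Z i x`  : a local deformation retraction of `X` onto `Z i` which preserves the family;
* `SncAt`, `Snc` : in a chart the members of the family are images of compatible projections;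
* `rel_snc`      : the relative Poincare lemma along the union;
* `ext_snc`      : compatible forms on the members extend to one form;
* `exN_snc`      : a closed form with compatible primitives on the members is exact near the union;
* `Par.push`     : a closed form which is exact near the exceptional set is a pull-back.
-/

set_option autoImplicit false
set_option linter.unusedSectionVars false

open MeasureTheory Set Filter Topology Module
open scoped ContDiff Manifold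
open Crest.Agent.R208 Crest.Agent.R208.F Crest.Agent.R208.FI Crest.Agent.R208.CW
open Crest.Agent.R208.T

noncomputable section

namespace Crest.Agent.X262.Van

variable {E : Type} [NormedAddCommGroup E] [NormedSpace ℝ E] [FiniteDimensional ℝ E]
  {E' : Type} [NormedAddCommGroup E'] [NormedSpace ℝ E'] [FiniteDimensional ℝ E']
  {X K K' : Set E} {n m p : ℕ} {a : E → Ext E} {x : E} {ι : Type} {Z : ι → Set E}

/-- near `x`, a deformation retraction of `X` onto `Z i₀` which preserves the family `Z` -/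
def Ret (X : Set E) (Z : ι → Set E) (i₀ : ι) (x : E) : Prop :=
  ∃ (Fh : E × ℝ → E) (Ω : Set (E × ℝ)), IsOpen Ω ∧ x ∈ Sl Ω ∧ (∀ p ∈ Ω, ContDiffAt ℝ ∞ Fh p) ∧
    (∀ p ∈ Ω, Fh p ∈ X) ∧ (∀ p ∈ Ω, p.1 ∈ Z i₀ → Fh p = p.1) ∧
    (∀ y ∈ X, (y, 1) ∈ Ω → Fh (y, 1) = y) ∧ (∀ y, (y, 0) ∈ Ω → Fh (y, 0) ∈ Z i₀) ∧
    ∀ i, ∀ p ∈ Ω, p.1 ∈ Z i → Fh p ∈ Z i

/-- near `x` the members of the family through `x` are images of compatible linear projections -/
def SncAt (P : Type) [NormedAddCommGroup P] [NormedSpace ℝ P] (X : Set E) (Z : ι → Set E)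
    (x : E) : Prop :=
  ∃ (f : P → E) (W : Set P) (O : Set E) (ℓ : E → P) (π : ι → P →L[ℝ] P), Loc X f W O ℓ ∧ x ∈ O ∧
    (∀ i, x ∈ Z i → ∀ w ∈ W, f w ∈ Z i ↔ π i w = w) ∧
    (∀ i, x ∈ Z i → ∀ w, π i (π i w) = π i w) ∧
    ∀ i j, x ∈ Z i → x ∈ Z j → ∀ w, π j w = w → π j (π i w) = π i w

theorem SncAt.ret {P : Type} [NormedAddCommGroup P] [NormedSpace ℝ P] [Finite ι]
    (hc : ∀ i, IsClosed (Z i)) (hZ : ∀ i, Z i ⊆ X) (h : SncAt P X Z x) {i₀ : ι} (hx : x ∈ Z i₀) :
    Ret X Z i₀ x := by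
  classical
  obtain ⟨f, W, O, ℓ, π, hL, hxO, h1, h2, h3⟩ := h
  set N : Set E := ⋂ i, if x ∈ Z i then univ else (Z i)ᶜ with hN
  have hNo : IsOpen N := isOpen_iInter_of_finite fun i => by
    split_ifs
    · exact isOpen_univ
    · exact (hc i).isOpen_compl
  have hxN : x ∈ N := mem_iInter.2 fun i => by
    split_ifs with h
    · trivial
    · exact h
  have hNZ : ∀ y ∈ N, ∀ i, y ∈ Z i → x ∈ Z i := fun y hy i hi => by
    by_contra h
    have := mem_iInter.1 hy i
    rw [if_neg h] at this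
    exact this hi
  set V : Set E := O ∩ N ∩ (O ∩ (fun y => π i₀ (ℓ y)) ⁻¹' W) with hV
  have lc : ContinuousOn ℓ O := hL.lC.continuousOn
  have hVo : IsOpen V := (hL.oO.inter hNo).inter
    (((π i₀).continuous.comp_continuousOn lc).isOpen_inter_preimage hL.oO hL.oW)
  have fix : ∀ i, x ∈ Z i → ∀ y ∈ O, y ∈ Z i → π i (ℓ y) = ℓ y := fun i hi y hy hyZ =>
    (h1 i hi _ (hL.maps y hy)).1 (by rw [hL.right_inv (hZ i hyZ) hy]; exact hyZ)
  have hxV : x ∈ V :=
    ⟨⟨hxO, hxN⟩, hxO, by rw [mem_preimage, fix i₀ hx x hxO hx]; exact hL.maps x hxO⟩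
  set A : E × ℝ → P := fun q => (1 - q.2) • π i₀ (ℓ q.1) + q.2 • ℓ q.1 with hA
  have AC : ∀ q : E × ℝ, q.1 ∈ V → ContDiffAt ℝ ∞ A q := by
    intro q hq
    have e2 : ContDiffAt ℝ ∞ (fun q : E × ℝ => ℓ q.1) q := (hL.lC' hq.1.1).comp q contDiffAt_fst
    have e1 : ContDiffAt ℝ ∞ (fun q : E × ℝ => π i₀ (ℓ q.1)) q :=
      (π i₀).contDiff.contDiffAt.comp q e2
    exact ((contDiffAt_const.sub contDiffAt_snd).smul e1).add (contDiffAt_snd.smul e2)
  have AZ : ∀ q : E × ℝ, q.1 ∈ O → q.1 ∈ Z i₀ → A q = ℓ q.1 := fun q hq hqZ => by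
    simp only [hA, fix i₀ hx _ hq hqZ]
    rw [← add_smul, sub_add_cancel, one_smul]
  refine ⟨fun q => f (A q), (Prod.fst ⁻¹' V : Set (E × ℝ)) ∩ A ⁻¹' W,
    ContinuousOn.isOpen_inter_preimage (fun q hq => (AC q hq).continuousAt.continuousWithinAt)
      (hVo.preimage continuous_fst) hL.oW, fun t _ => ⟨hxV, ?_⟩,
    fun q hq => (hL.fC' hq.2).comp q (AC q hq.1), fun q hq => (hL.mem hq.2).1, fun q hq h => ?_,
    fun y hy h => ?_, fun y h => ?_, fun i q hq h => ?_⟩
  · rw [mem_preimage, AZ (x, t) hxO hx]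
    exact hL.maps x hxO
  · show f (A q) = q.1
    rw [AZ q hq.1.1.1 h]
    exact hL.right_inv (hZ _ h) hq.1.1.1
  · simp only [hA, sub_self, zero_smul, zero_add, one_smul]
    exact hL.right_inv hy h.1.1.1
  · simp only [hA, sub_zero, zero_smul, add_zero, one_smul]
    exact (h1 i₀ hx _ h.1.2.2).2 (h2 i₀ hx _)
  · have hi : x ∈ Z i := hNZ _ hq.1.1.2 i h
    have e1 := fix i hi _ hq.1.1.1 h
    refine (h1 i hi _ hq.2).2 ?_
    simp only [hA, map_add, map_smul, e1, h3 i₀ i hx hi _ e1]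

/-- a finite family of closed subsets with local retractions -/
structure Snc (X : Set E) (Z : ι → Set E) : Prop where
  closed : ∀ i, IsClosed (Z i)
  sub : ∀ i, Z i ⊆ X
  ret : ∀ i, ∀ x ∈ Z i, Ret X Z i x








namespace Par

variable {M : Set E'} {ν : E' → E}

theorem image_eq (h : Par m M X ν K') (hs : X \ K' ⊆ ν '' M) :
    ν '' (M \ ν ⁻¹' K') = X ∩ K'ᶜ := by
  refine Subset.antisymm ?_ fun y hy => ?_
  · rintro _ ⟨z, hz, rfl⟩
    exact ⟨h.smap.maps hz.1, hz.2⟩
  · obtain ⟨z, hz, rfl⟩ := hs hy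
    exact ⟨z, ⟨hz, hy.2⟩, rfl⟩

/-- a closed form vanishing near the exceptional set is the pull-back of a closed form -/
theorem push_zero (h : Par m M X ν K') (hK' : IsClosed K') (hs : X \ K' ⊆ ν '' M)
    {c : E' → Ext E'} (sc : Sm M c) (cc : Cl M c) (h0 : EqN M (M ∩ ν ⁻¹' K') c 0) :
    ∃ b : E → Ext E, ContDiff ℝ ∞ b ∧ Cl X b ∧ (∀ x ∈ K', ∀ᶠ y in 𝓝 x, b y = 0) ∧
      Eqv M (F.pull ν b) c := by
  obtain ⟨b, h1, h2, h3⟩ := h.exists_push hK' sc h0
  have sb : Sm X b := fun y _ => h1.contDiffAt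
  refine ⟨b, h1, fun y hy => ?_, h2, h3⟩
  by_cases hyK : y ∈ K'
  · have e : b =ᶠ[𝓝 y] fun _ => 0 := h2 y hyK
    rw [F.d_congr e, F.d_const, map_zero]
  · obtain ⟨z, hz, rfl⟩ := hs ⟨hy, hyK⟩
    have e1 : Eqv M (F.pull ν (F.d b)) 0 := ((d_pull_eqv h.smap sb).symm.trans
      (h3.d h.clo.sub (sb.pull h.smap) sc)).trans (resZero_iff.1 cc)
    have e2 := h.rt_eq_zero hK' hz hyK (w := F.d b) (resZero_iff.2 e1 z hz)
    rw [h.image_eq hs] at e2
    have e3 : ∀ T T' : Submodule ℝ E, T = T' → pb T.subtype (F.d b (ν z)) = 0 →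
        pb T'.subtype (F.d b (ν z)) = 0 := by
      rintro T T' rfl e; exact e
    exact e3 _ _ (Tan_inter_open hK'.isOpen_compl hyK) e2

/-- **push**: a closed form which is exact near the exceptional set is a pull-back -/
theorem push (h : Par m M X ν K') (hK' : IsClosed K') (hs : X \ K' ⊆ ν '' M)
    {c : E' → Ext E'} (sc : Sm M c) (cc : Cl M c) (he : ExN M (M ∩ ν ⁻¹' K') c) :
    ∃ b : E → Ext E, ContDiff ℝ ∞ b ∧ Cl X b ∧ (∀ x ∈ K', ∀ᶠ y in 𝓝 x, b y = 0) ∧
      Coh M c (F.pull ν b) := by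
  obtain ⟨η, h1, h2⟩ := he.exists_global (h.isCompact_pre hK')
  obtain ⟨b, g1, g2, g3, g4⟩ := h.push_zero hK' hs (sc.sub h1.d) (Cl.sub sc h1.d cc (d_d' h1))
    (eqN_sub_zero.2 h2)
  refine ⟨b, g1, g2, g3, η, h1, ?_⟩
  have := (Eqv.refl (X := M) c).sub g4
  rwa [sub_sub_cancel] at this


/-- vanishing on a subset of the stratum can be checked upstairs -/
theorem resZero_image (h : Par m M X ν K') (hK' : IsClosed K') {T : Set E'}
    (hT : T ⊆ M \ ν ⁻¹' K') {w : E → Ext E} (hw : ResZero T (F.pull ν w)) :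
    ResZero (ν '' T) w := by
  rintro _ ⟨y, hy, rfl⟩
  obtain ⟨O, σ, hO, hyO, -, hσ, hσν⟩ := h.exists_inv hK' (hT hy).1 (hT hy).2
  have m1 : SMap (ν '' T ∩ O) T σ := ⟨fun q hq => (hσ q hq.2).1, by
    rintro _ ⟨⟨z, hz, rfl⟩, hzO⟩
    rw [hσν z (hT hz).1 hzO]; exact hz⟩
  have e1 := resZero_iff.1 (ResZero.pull m1 hw)
  have e2 : Eqv (ν '' T ∩ O) (F.pull σ (F.pull ν w)) (F.pull (ν ∘ σ) w) := Eqv.of_eq fun q hq =>
    F.pull_comp ((hσ q hq.2).1.differentiableAt (by simp)) (h.smap.diff (hσ q hq.2).2)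
  have e3 := eqv_pull_of_eq (X := ν '' T ∩ O) (f := ν ∘ σ) (g := fun q => q) w
    (fun q hq => (h.smap.diff (hσ q hq.2).2).comp q ((hσ q hq.2).1.differentiableAt (by simp)))
    (fun q _ => differentiableAt_id) (by
      rintro _ ⟨⟨z, hz, rfl⟩, hzO⟩
      rw [Function.comp_apply, hσν z (hT hz).1 hzO])
  have e4 := (eqv_inter_iff hO).1 (e3.symm.trans (e2.symm.trans e1)) (ν y) ⟨y, hy, rfl⟩ hyO
  rw [F.pull_id, Pi.zero_apply, map_zero] at e4
  exact e4

/-- forms on an embedded manifold come from the ambient space -/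
theorem exists_push_all (h : Par m M X ν ∅) {θ₁ : E' → Ext E'} (hθ : Sm M θ₁) :
    ∃ θ : E → Ext E, ContDiff ℝ ∞ θ ∧ Eqv M (F.pull ν θ) θ₁ := by
  obtain ⟨θ, h1, -, h3⟩ := h.exists_push isClosed_empty hθ (by
    simp only [EqN, preimage_empty, inter_empty, nhdsSet_empty, eventually_bot])
  exact ⟨θ, h1, h3⟩

theorem sub_all (h : Par m M X ν ∅) : Sub m (ν '' M) := by
  have := h.sub isClosed_empty
  rwa [preimage_empty, sdiff_empty] at this

end Par


end Crest.Agent.X262.Van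
end
end

-- ▼ part X262/Van/Supd
section

/-!
# Row 262, package VAN (helper47): supports

* `exN_of_par` : a closed form whose pull-back to an embedded closed manifold is exact is exact
  near the image;
* `J_sup`      : the integral of a product of forms with disjoint cohomological supports;
* `exN_push`   : a push-forward is exact near every compact set which misses the image;
* `sup_cls`    : the statement for classes.
-/

set_option autoImplicit false
set_option linter.unusedSectionVars false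

open MeasureTheory Set Filter Topology Module
open scoped ContDiff
open Crest.Agent.R208 Crest.Agent.R208.F Crest.Agent.R208.FI Crest.Agent.R208.CW
open Crest.Agent.R208.T

noncomputable section

namespace Crest.Agent.X262.Van

open Crest.Agent.X262.PD

variable {E : Type} [NormedAddCommGroup E] [NormedSpace ℝ E] [FiniteDimensional ℝ E]
  {E' : Type} [NormedAddCommGroup E'] [NormedSpace ℝ E'] [FiniteDimensional ℝ E']
  {G : Type} [NormedAddCommGroup G] [NormedSpace ℝ G] [FiniteDimensional ℝ G]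
  {G' : Type} [NormedAddCommGroup G'] [NormedSpace ℝ G'] [FiniteDimensional ℝ G']
  {X K : Set E} {M : Set E'} {ν : E' → E} {n m : ℕ} {a b o : E → Ext E}

theorem exN_of_par (hX : Sub n X) (h : Par m M X ν ∅) (sa : Sm X a) (ca : Cl X a)
    (he : Coh M (F.pull ν a) 0) : ExN X (ν '' M) a := by
  obtain ⟨α, h1, h2⟩ := he
  rw [sub_zero] at h2
  obtain ⟨θ, g1, g2⟩ := h.exists_push_all h1
  have sθ : Sm X θ := fun y _ => g1.contDiffAt
  have e1 : Eqv M (F.pull ν a) (F.pull ν (F.d θ)) :=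
    h2.trans ((g2.d h.clo.sub (sθ.pull h.smap) h1).symm.trans (d_pull_eqv h.smap sθ))
  have e2 : ResZero (ν '' M) (a - F.d θ) :=
    h.resZero_image isClosed_empty (fun y hy => ⟨hy, fun h => h⟩) (by rw [pull_sub']; exact e1)
  obtain ⟨η, u1, u2, -⟩ := rel' hX h.sub_all (image_subset_iff.2 h.smap.maps) h.isCompact_image
    Subset.rfl (smN_of_sm (sa.sub sθ.d)) ((clN_of_cl ca).sub_d (smN_of_sm sa) sθ)
    (eqN_of_eqv (resZero_iff.1 e2))
  exact ExN.add_d (smN_of_sm sθ) ⟨η, u1, u2⟩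

/-- a form which is exact near `K` is cohomologous to a form vanishing identically near `K` -/
theorem ExN.exists_rep' (hK : IsCompact K) (sa : Sm X a) (h : ExN X K a) :
    ∃ a' : E → Ext E, Sm X a' ∧ Coh X a a' ∧ ∀ᶠ x in 𝓝ˢ K, a' x = 0 := by
  obtain ⟨η, h1, h3⟩ := h.exists_global hK
  obtain ⟨U, hU, hKU, hp⟩ := exists_open (eqN_sub_zero.2 h3)
  obtain ⟨χ, hχ, c0, c1, -⟩ := GP.exists_cut (K₁ := K) (K₂ := Uᶜ) hK.isClosed hU.isClosed_compl
    (Set.disjoint_left.2 fun x hx hx' => hx' (hKU hx))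
  have s1 : Sm X (a - F.d η) := sa.sub h1.d
  have e1 : Eqv X (fun x => χ x • (a - F.d η) x) (a - F.d η) := by
    refine eqv_iff.2 fun x hx => ?_
    by_cases hxU : x ∈ U
    · have e2 := hp x hxU hx
      rw [Pi.zero_apply, map_zero] at e2
      rw [map_smul]
      change χ x • rt X x _ = rt X x _
      rw [e2, smul_zero]
    · rw [(c1 x hxU).self_of_nhds, one_smul]
  refine ⟨fun x => χ x • (a - F.d η) x, fun x hx => hχ.contDiffAt.smul (s1 x hx), ⟨η, h1, ?_⟩, ?_⟩
  · have := (Eqv.refl (X := X) a).sub e1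
    rwa [sub_sub_cancel] at this
  · refine eventually_nhdsSet_iff_forall.2 fun x hx => ?_
    filter_upwards [c0 x hx] with y hy
    rw [hy, zero_smul]

/-- disjoint cohomological supports -/
theorem J_sup {B D : Set G} {k : ℕ} {oB w : G → Ext G} {μ : G → E} {C : Set E} (hB : Clo k B)
    (hoB : Ori k B oB) (hX : Sub n X) (hμ : SMap B X μ) (hD : IsCompact D)
    (hC : ∀ y ∈ B, μ y ∈ C → y ∈ D) (sw : Sm B w) (cw : Cl B w) (ew : ExN B D w) (sa : Sm X a)
    (ca : Cl X a) (ea : ∀ K, IsCompact K → K ⊆ X \ C → ExN X K a) :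
    J k B oB (w * F.pull μ a) = 0 := by
  obtain ⟨w', h1, h2, h3⟩ := ew.exists_rep' hD sw
  obtain ⟨U, hU, hDU, hp⟩ := exists_open h3
  have hK : IsCompact (μ '' (B \ U)) := (hB.compact.diff hU).image_of_continuousOn fun y hy =>
    (hμ.smooth y hy.1).continuousAt.continuousWithinAt
  obtain ⟨a', g1, g2, g3⟩ := (ea _ hK (by
    rintro _ ⟨y, hy, rfl⟩
    exact ⟨hμ.maps hy.1, fun h => hy.2 (hDU (hC y hy.1 h))⟩)).exists_rep' hK sa
  rw [J_mul_coh_right hB hoB sw cw (sa.pull hμ) (g1.pull hμ) (g2.pull hμ),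
    J_mul_coh_left hB hoB sw h1 h2 (g1.pull hμ)
      (Cl.pull hμ g1 (Coh.cl hX g1 sa g2.symm ca)), ← J_zero' (n := k) (X := B) (o := oB)]
  refine J_eqv hB (Eqv.of_eq fun y hy => ?_)
  by_cases hyU : y ∈ U
  · rw [Pi.mul_apply, hp y hyU, zero_mul, Pi.zero_apply]
  · rw [Pi.mul_apply, F.pull, g3.self_of_nhdsSet _ ⟨y, ⟨hy, hyU⟩, rfl⟩, map_zero, mul_zero,
      Pi.zero_apply]

theorem coh_of_rcl (ha : EC X a) (hb : EC X b) (h : rcl ha + Complex.I • rcl hb = 0) :
    Coh X a 0 ∧ Coh X b 0 := by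
  rw [← cls_eq_rcl, ← rcl_zero, rcl, cls_eq_iff_coh] at h
  exact h

/-- a push-forward is exact away from the image -/
theorem exN_push {A : Set G} {μ : G → E} (hX : Clo n X) (ho : Ori n X o) (hn : Even n)
    (hA : IsCompact A) (hμ : SMap A X μ) (ha : EC X a) (hb : EC X b)
    (h : ∀ z, CW.H.map hμ z = 0 → integ hX ho ((rcl ha + Complex.I • rcl hb) * z) = 0)
    (hK : IsCompact K) (hKX : K ⊆ X \ μ '' A) : ExN X K a ∧ ExN X K b := by
  have hc : IsOpen (μ '' A)ᶜ := (hA.image_of_continuousOn fun y hy =>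
    (hμ.smooth y hy).continuousAt.continuousWithinAt).isClosed.isOpen_compl
  have key : ∀ φ, Cs X (μ '' A)ᶜ φ → Cl X φ → J n X o (a * φ) = 0 ∧ J n X o (b * φ) = 0 := by
    intro φ hφ cφ
    have e1 := ec_ev hφ.sm cφ
    have e2 : CW.H.map hμ (rcl e1) = 0 := by
      rw [← rcl_pull, rcl_eq_zero_iff]
      refine Coh.of_eqv (Eqv.of_eq fun y hy => ?_)
      have e3 : φ (μ y) = 0 :=
        (hφ.off _ (hμ.maps hy) (not_not.2 (mem_image_of_mem μ hy))).self_of_nhds
      rw [F.pull, PD.ev, Pi.smul_apply, Pi.add_apply, e3, map_zero, add_zero, smul_zero, map_zero,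
        Pi.zero_apply]
    have e4 := h _ e2
    rw [add_mul, smul_mul_assoc, ← rcl_mul, ← rcl_mul, map_add, map_smul, integ_rcl, integ_rcl,
      smul_eq_mul] at e4
    have e5 : ∀ c : E → Ext E, EC X c → J n X o (c * PD.ev φ) = 0 → J n X o (c * φ) = 0 := by
      intro c hc h0
      rw [← ev_add_od φ, mul_add, J_add' hX ho (hc.sm.mul e1.sm) (hc.sm.mul (sm_od hφ.sm)), h0,
        zero_add]
      exact J_odd hX hn fun x => by rw [Pi.mul_apply, map_mul, hc.inv, inv_od, mul_neg]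
    exact ⟨e5 a ha (by simpa using congrArg Complex.re e4),
      e5 b hb (by simpa using congrArg Complex.im e4)⟩
  have fin : ∀ c : E → Ext E, EC X c →
      (∀ φ, Cs X (μ '' A)ᶜ φ → Cl X φ → J n X o (c * φ) = 0) → ExN X K c := by
    intro c hc' h0
    obtain ⟨U, hU, hKU, -, ξ, g1, g2⟩ := pd_loc hX ho hK (hKX.trans sdiff_subset) hc
      (fun y hy => (hKX hy).2) (hc'.sm.mono inter_subset_left) h0
    rw [sub_zero] at g2
    exact ⟨ξ, of_open hU hKU fun y hy hyX => g1 y ⟨hyX, hy⟩,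
      of_open hU hKU fun y hy hyX => (eqv_inter_iff hU).1 g2 y hyX hy⟩
  exact ⟨fin a ha fun φ h1 h2 => (key φ h1 h2).1, fin b hb fun φ h1 h2 => (key φ h1 h2).2⟩

/-- **supports**: `τ` is orthogonal to the classes killed by `ρ : A → X`, the preimage of `ρ A`
under `μ : B → X` lies in the embedded manifold `i : M → B`, and `y` restricts to zero on `M` -/
theorem sup_cls {A : Set G'} {ρ : G' → E} {B : Set G} {k : ℕ} {oB : G → Ext G} {μ : G → E}
    {i : E' → G} (hX : Clo n X) (ho : Ori n X o) (hn : Even n) (hA : IsCompact A)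
    (hρ : SMap A X ρ) (hB : Clo k B) (hoB : Ori k B oB) (hμ : SMap B X μ) (hi : Par m M B i ∅)
    (hs : ∀ y ∈ B, μ y ∈ ρ '' A → y ∈ i '' M) {τ : CW.H X}
    (hτ : ∀ z, CW.H.map hρ z = 0 → integ hX ho (τ * z) = 0) {y : CW.H B}
    (hy : CW.H.map hi.smap y = 0) : integ hB hoB (y * CW.H.map hμ τ) = 0 := by
  obtain ⟨a, b, ha, hb, rfl⟩ := exists_rcl τ
  obtain ⟨w, w', hw, hw', rfl⟩ := exists_rcl y
  rw [map_add, map_smul, ← rcl_pull, ← rcl_pull] at hy
  obtain ⟨z1, z2⟩ := coh_of_rcl _ _ hy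
  have e1 := exN_of_par hB.sub hi hw.sm hw.cl z1
  have e2 := exN_of_par hB.sub hi hw'.sm hw'.cl z2
  have key : ∀ (v : G → Ext G) (hv : EC B v), ExN B (i '' M) v → ∀ (c : E → Ext E) (hc : EC X c),
      (∀ K, IsCompact K → K ⊆ X \ ρ '' A → ExN X K c) →
      integ hB hoB (rcl hv * CW.H.map hμ (rcl hc)) = 0 := by
    intro v hv ev c hc ec
    rw [← rcl_pull, ← rcl_mul, integ_rcl,
      J_sup hB hoB hX.sub hμ hi.isCompact_image hs hv.sm hv.cl ev hc.sm hc.cl ec]
    rfl
  have f1 := fun K hK hKX => (exN_push (K := K) hX ho hn hA hρ ha hb hτ hK hKX).1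
  have f2 := fun K hK hKX => (exN_push (K := K) hX ho hn hA hρ ha hb hτ hK hKX).2
  simp only [map_add, map_smul, add_mul, mul_add, smul_mul_assoc, mul_smul_comm,
    key w hw e1 a ha f1, key w hw e1 b hb f2, key w' hw' e2 a ha f1, key w' hw' e2 b hb f2,
    smul_zero, add_zero]

end Crest.Agent.X262.Van
end
end

-- ▼ part X262/Van/SupP
section

/-!
# Row 262, package VAN (helper47): supports on projective models

* `imm_ambM`, `par_of_isEmb` : a closed embedding of models is an injective immersion;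
* `supP` : the support statement for `HP`, `intP`, `pullH`;
* `pd_th`, `supd` : `PD` and `SUPD` for the de Rham theory.
-/

set_option autoImplicit false
set_option linter.unusedSectionVars false

open Set Filter Topology Module
open scoped ContDiff
open Crest.Agent.R208 Crest.Agent.R208.F Crest.Agent.R208.FI Crest.Agent.R208.CW
open Crest.Agent.R208.T

noncomputable section

namespace Crest.Agent.X262.Van

open Crest.Agent.X262.Man Crest.Agent.X262.Coh
open Crest.Agent.X277.Lef Crest.Agent.X277.AN.G1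
open Crest.Agent.R275.Geo (Cn)
open Crest.Agent.X277.BD (dim)

variable {F K : Type} [Field F] [Algebra ℂ F] [Field K] [Algebra ℂ K] {P : PModel ℂ F}
  {P' : PModel ℂ K}

/-- a morphism which is surjective on the local ring at `x` is an immersion at `x` -/
theorem imm_ambM (μ : Mor P' P) (x : Pts P')
    (h : ∀ g ∈ (lp x).O, ∃ f ∈ (lp (μ.map x)).O, μ.p.π f = g) {v : Hm P'.N}
    (hv : v ∈ Tan (XP P') (jP P' x)) (h0 : fderiv ℝ (ambM μ) (jP P' x) v = 0) : v = 0 := by
  obtain ⟨α, hx⟩ := (an P').A.cover x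
  have hz := ((an P').A.e α).map_source hx
  have e0 : jP P' x = (em P').par α ((an P').A.e α x) := ((em P').par_e hx).symm
  rw [e0] at hv h0
  rw [show XP P' = (em P').X from rfl, (em P').tan_eq hz] at hv
  obtain ⟨u, rfl⟩ := hv
  have hu : u = 0 := by
    refine AnP.eq_zero_of_dv hx ((an P').sub α x hx) fun j => ?_
    obtain ⟨f, hf, hfg⟩ := h _ (y_mem ((an P').sub α x hx) j)
    obtain ⟨O, hO, Φ, h1, h2⟩ := (em P).exists_ext_at (isOpen_reg f) (smOn_ev (an P) f) hf
    have hO' : O ∈ 𝓝 (ambM μ ((em P').par α ((an P').A.e α x))) := by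
      rw [← e0, ambM_j]; exact hO
    have d1 : DifferentiableAt ℝ Φ (ambM μ ((em P').par α ((an P').A.e α x))) :=
      (h1.contDiffAt hO').differentiableAt (by simp)
    have d2 : DifferentiableAt ℝ (ambM μ) ((em P').par α ((an P').A.e α x)) :=
      (contDiff_ambM μ).differentiable (by simp) _
    have d3 := (em P').diff_par hz
    have c1 : ∀ᶠ y in 𝓝 x, jP P (μ.map y) ∈ O :=
      ((em P).cont.comp μ.continuous).continuousAt.eventually hO
    have c2 : ∀ᶠ y in 𝓝 x, f ∈ (lp (μ.map y)).O :=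
      μ.continuous.continuousAt.eventually (eventually_mem hf)
    have h3 : (an P').rd α (ev (P'.y j / P'.y ((an P').r α))) =ᶠ[𝓝 ((an P').A.e α x)]
        Φ ∘ (ambM μ ∘ (em P').par α) := by
      filter_upwards [AnP.eventually_rd hx (c1.and c2)] with w hw
      have e1 : ambM μ ((em P').par α w) = jP P (μ.map (((an P').A.e α).symm w)) := ambM_j μ _
      rw [Function.comp_apply, Function.comp_apply, e1, ← hfg]
      exact ((h2 _ hw.2.2.1).trans (μ.ev_map hw.2.2.2)).symm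
    have h4 := (AnP.diffAt hx (y_mem ((an P').sub α x hx) j)).fderiv_restrictScalars ℝ
    rw [h3.fderiv_eq, fderiv_comp (((an P').A.e α) x) (f := ambM μ ∘ (em P').par α) d1
      (d2.comp _ d3), fderiv_comp _ d2 d3] at h4
    have h5 := congrArg (fun L : Cn (dim ℂ K) →L[ℝ] ℂ => L u) h4
    simp only [ContinuousLinearMap.comp_apply] at h5
    rw [ContinuousLinearMap.coe_coe] at h0
    rw [h0, map_zero] at h5
    exact h5.symm
  rw [hu, map_zero]

theorem image_ambM (μ : Mor P' P) (S : Set (Pts P')) :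
    ambM μ '' (jP P' '' S) = jP P '' (μ.map '' S) := by
  rw [image_image, image_image]
  exact image_congr fun x _ => ambM_j μ x

theorem image_XP (μ : Mor P' P) : ambM μ '' XP P' = jP P '' range μ.map := by
  rw [XP, ← image_univ, image_ambM, image_univ]

theorem par_of_isEmb {E B : SV} {i : Hom E B} (h : IsEmb i) :
    Par (2 * E.dim) (XP E.P) (XP B.P) (ambM i) ∅ where
  clo := cloP E.P
  smap := smapM i
  injOn := by
    rintro _ ⟨⟨x, rfl⟩, -⟩ _ ⟨⟨y, rfl⟩, -⟩ e
    rw [ambM_j, ambM_j] at e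
    rw [h.1 (jP_injective e)]
  imm := by
    rintro _ ⟨x, rfl⟩ - v hv h0
    exact imm_ambM i x (h.2 x) hv h0

/-- **supports** on projective models -/
theorem supP {A B V E : SV} (ν : Hom A V) (μ : Hom B V) {i : Hom E B} (hi : IsEmb i)
    (hs : ∀ y : B.Pt, μ.map y ∈ range ν.map → y ∈ range i.map) {τ : HP V.P}
    (hτ : ∀ z, pullH ν z = 0 → intP V.P (τ * z) = 0) {y : HP B.P} (hy : pullH i y = 0) :
    intP B.P (y * pullH μ τ) = 0 := by
  refine sup_cls (cloP V.P) (oriP V.P) (even_two_mul _) (cloP A.P).compact (smapM ν) (cloP B.P)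
    (oriP B.P) (smapM μ) (par_of_isEmb hi) ?_ hτ hy
  rintro _ ⟨y, rfl⟩ hy
  rw [ambM_j, image_XP, jP_injective.mem_set_image] at hy
  rw [image_XP, jP_injective.mem_set_image]
  exact hs y hy

section th

variable (typ : ∀ X : SV, ℕ → ℕ → Submodule ℂ (HP X.P))
  (c1 : ∀ X : SV, X277.BD ℂ X.F → HP X.P) (Lam : ∀ X : SV, AddSubgroup (HP X.P))

theorem pd_th : (thOf typ c1 Lam).PD := fun X =>
  ⟨PD.finite_H (cloP X.P) (oriP X.P), fun _ h =>
    PD.nondeg_H (cloP X.P) (oriP X.P) (even_two_mul _) h⟩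

/-- supports of push-forwards, one embedded member -/
theorem sup_emb {A B V E : SV} (ν : Hom A V) (μ : Hom B V) {i : Hom E B} (hi : IsEmb i)
    (hs : ∀ y : B.Pt, μ.map y ∈ range ν.map → y ∈ range i.map) (x : HP A.P) {y : HP B.P}
    (hy : pullH i y = 0) :
    intP B.P (y * pullH μ ((thOf typ c1 Lam).push ν x)) = 0 :=
  supP ν μ hi hs (fun z hz => ((pd_th typ c1 Lam).push_spec ν x z).trans (by
    change intP A.P (x * pullH ν z) = 0
    rw [hz, mul_zero, map_zero])) hy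

/-- **SUPD** -/
theorem supd : (thOf typ c1 Lam).SUPD := fun μ _ hi hs _ hy =>
  sup_emb typ c1 Lam _ μ hi hs 1 hy

end th

end Crest.Agent.X262.Van
end
end

-- ▼ part X262/Dbl58/Emb
section

/-!
# Row 262, DBL (helper58), part Emb: closed embeddings are smooth centres

* `le_iff_range` : the centre of `j.p` is the image of `j`;
* `ad_of`        : the kernel of `O_x → O_z` is generated by the normal coordinates;
* `exists_ad'`   : adapted coordinates for a surjection `O_x → O_z`;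
* `Srj j`, `Lcl j`, `smC`, `locM` : a closed embedding is a smooth centre;
* `dg h P`, `ad_dg`, `smC_dg` : the diagonal.
-/

set_option autoImplicit false
set_option linter.unusedSectionVars false

open MvPolynomial
open scoped KaehlerDifferential

noncomputable section

namespace Crest.Agent.X262.Dbl58

open Crest.Agent.X277 Crest.Agent.X277.Lef Crest.Agent.X277.Res.Out Crest.Agent.X277.AN.G1
  Crest.Agent.X277.Res.Log Crest.Agent.X277.Strat.Fac Crest.Agent.X262.Blow

variable {F κ : Type} [Field F] [Field κ] [Algebra ℂ F] [Algebra ℂ κ]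

/-! ### the differential at a point -/

section Cot

variable {L : LP F} {n : ℕ} {t : Fin n → F} (h : Coords L.O t)

/-- the differential at the closed point -/
def dv : L.O →ₗ[ℂ] (Fin n → ℂ) :=
  LinearMap.pi fun l => L.hom.toLinearMap ∘ₗ
    (resDer L.O (h.der.choose l) (h.der.choose_spec.1 l)).toLinearMap

theorem dv_apply (f : L.O) (l : Fin n) : dv h f l = L.v (h.der.choose l f) := rfl

theorem dv_el (l : Fin n) : dv h (h.el l) = Pi.single l 1 := by
  funext j
  rw [dv_apply, Pi.single_apply]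
  change L.v (h.der.choose j (t l)) = _
  rw [h.der.choose_spec.2]
  split_ifs <;> simp

theorem dv_mul (f g : L.O) : dv h (f * g) = L.v f • dv h g + L.v g • dv h f := by
  funext l
  have h1 := h.der.choose_spec.1 l
  rw [dv_apply, Subalgebra.coe_mul, Derivation.leibniz, smul_eq_mul, smul_eq_mul,
    L.v_add (mul_mem f.2 (h1 _ g.2)) (mul_mem g.2 (h1 _ f.2)), L.v_mul f.2 (h1 _ g.2),
    L.v_mul g.2 (h1 _ f.2)]
  rfl

theorem el_mem (l : Fin n) : h.el l ∈ L.mx := v_coord h l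

theorem exists_sum {f : L.O} (hf : f ∈ L.mx) : ∃ r : Fin n → L.O, f = ∑ l, r l * h.el l := by
  obtain ⟨r, hr, h1⟩ := h.gen f (van_iff_v.2 ⟨f.2, hf⟩)
  exact ⟨fun l => ⟨r l, hr l⟩, Subtype.ext (by rw [h1, AddSubmonoidClass.coe_finsetSum]; rfl)⟩

theorem dv_eq_zero_iff {f : L.O} (hf : f ∈ L.mx) : dv h f = 0 ↔ f ∈ L.mx * L.mx := by
  constructor
  · intro h0
    obtain ⟨r, rfl⟩ := exists_sum h hf
    refine Ideal.sum_mem _ fun l _ => Ideal.mul_mem_mul ?_ (el_mem h l)
    have h1 := congrFun h0 l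
    have h2 : ∀ j, L.v (h.el j) = 0 := el_mem h
    rw [LP.mem_mx]
    simpa [map_sum, dv_mul, dv_el, h2, Pi.single_apply] using h1
  · intro h0
    refine Submodule.mul_induction_on h0 (fun a ha b hb => ?_) fun a b ha hb => ?_
    · rw [dv_mul, (L.mem_mx).1 ha, (L.mem_mx).1 hb, zero_smul, zero_smul, add_zero]
    · rw [map_add, ha, hb, add_zero]

theorem exists_compl {d : ℕ} {K W : Submodule ℂ (Fin n → ℂ)} (h1 : K ⊓ W = ⊥) (h2 : K ⊔ W = ⊤)
    (hW : Module.finrank ℂ W = d) : ∃ c, c + d = n ∧ ∃ v : Fin c → Fin n → ℂ, (∀ l, v l ∈ K) ∧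
      K ≤ Submodule.span ℂ (Set.range v) := by
  have h4 := Submodule.finrank_sup_add_finrank_inf_eq K W
  rw [h1, h2, hW, finrank_top, finrank_bot, Module.finrank_fin_fun, add_zero, eq_comm] at h4
  let b := Module.finBasis ℂ K
  refine ⟨_, h4, fun l => b l, fun l => (b l).2, fun k hk => ?_⟩
  have h5 := congrArg Subtype.val (b.sum_repr ⟨k, hk⟩)
  rw [← (show _ = k from h5), AddSubmonoidClass.coe_finsetSum]
  exact Submodule.sum_mem _ fun l _ => Submodule.smul_mem _ _ (Submodule.subset_span ⟨l, rfl⟩)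

end Cot

variable {P : PModel ℂ F} {Z : PModel ℂ κ} {q : Plc F κ} {c d n : ℕ} {x : Pts P} {z : Pts Z}

/-! ### adapted coordinates -/

/-- the place is a local homomorphism `O_x → O_z` -/
structure Lh (q : Plc F κ) (z : Pts Z) (x : Pts P) : Prop where
  le : (lp x).O ≤ q.O
  mem : ∀ f ∈ (lp x).O, q.π f ∈ (lp z).O
  ev_eq : ∀ f ∈ (lp x).O, ev (q.π f) z = ev f x

/-- the local homomorphism -/
def Lh.ρ (h : Lh q z x) : (lp x).O →ₐ[ℂ] (lp z).O :=
  (q.hom.comp (Subalgebra.inclusion h.le)).codRestrict _ fun f => h.mem f f.2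


theorem Lh.ρ_mem (h : Lh q z x) {f : (lp x).O} : h.ρ f ∈ (lp z).mx ↔ f ∈ (lp x).mx :=
  Eq.congr_left (h.ev_eq f f.2)

theorem lh_map (j : Mor Z P) (z : Pts Z) : Lh j.p z (j.map z) :=
  ⟨fun _ hf => j.mem_O hf, fun _ hf => j.π_mem hf, fun _ hf => (j.ev_map hf).symm⟩

theorem inI_iff {ι : Type} [Fintype ι] {O : Subalgebra ℂ F} {s : ι → O} {a : O} :
    InI O (fun l => (s l : F)) a ↔ a ∈ Ideal.span (Set.range s) := by
  rw [Ideal.mem_span_range_iff_exists_fun]
  exact ⟨fun ⟨r, hr, h⟩ => ⟨fun l => ⟨r l, hr l⟩, Subtype.ext (by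
      rw [h, AddSubmonoidClass.coe_finsetSum]; rfl)⟩,
    fun ⟨r, h⟩ => ⟨fun l => r l, fun l => (r l).2, by
      rw [← h, AddSubmonoidClass.coe_finsetSum]; rfl⟩⟩

/-- **the kernel is generated by the normal coordinates** -/
theorem ad_of (h : Lh q z x) {s : Fin c → F} {w : Fin d → F}
    (hc : CoI (lp x).O (Sum.elim s w)) (hs : ∀ l, q.π (s l) = 0)
    (hu : Dual (lp z).O fun m => q.π (w m)) : Ad q x s w := by
  let s' : Fin c → (lp x).O := fun l => ⟨s l, hc.mem (Sum.inl l)⟩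
  let w' : Fin d → (lp x).O := fun m => ⟨w m, hc.mem (Sum.inr m)⟩
  have hJ : ∀ a ∈ Ideal.span (Set.range s'), h.ρ a = 0 := fun a ha => Subtype.ext
    (((inI_iff.2 ha).mono h.le).π_eq (fun l => h.le (s' l).2) hs)
  have hm : (lp x).mx ≤ Ideal.span (Set.range s') ⊔ Ideal.span (Set.range w') := by
    intro a ha
    obtain ⟨r, hr, h1⟩ := hc.gen a (van_iff_v.2 ⟨a.2, ha⟩)
    rw [Fintype.sum_sum_type] at h1
    refine Submodule.mem_sup.2 ⟨∑ l, ⟨_, hr (Sum.inl l)⟩ * s' l,
      Ideal.sum_mem _ fun l _ => Ideal.mul_mem_left _ _ (Ideal.subset_span ⟨l, rfl⟩),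
      ∑ l, ⟨_, hr (Sum.inr l)⟩ * w' l,
      Ideal.sum_mem _ fun l _ => Ideal.mul_mem_left _ _ (Ideal.subset_span ⟨l, rfl⟩),
      Subtype.ext ?_⟩
    rw [h1, Subalgebra.coe_add, AddSubmonoidClass.coe_finsetSum, AddSubmonoidClass.coe_finsetSum]
    rfl
  have hw : ∀ m, hu.el m ∈ (lp z).mx := fun m => (h.ρ_mem (f := w' m)).2 (hc.v_eq (Sum.inr m))
  have key : ∀ a, h.ρ a = 0 → ∀ N,
      a ∈ Ideal.span (Set.range s') ⊔ Ideal.span (Set.range w') ^ N := by
    intro a ha N
    induction N with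
    | zero => rw [pow_zero, Ideal.one_eq_top, sup_top_eq]; trivial
    | succ N ih =>
      obtain ⟨a', ha', b, hb, rfl⟩ := Submodule.mem_sup.1 ih
      obtain ⟨H, hH, rfl⟩ := (Ideal.mem_span_pow_iff_exists_isHomogeneous w' b).1 hb
      rw [map_add, hJ a' ha', zero_add] at ha
      have h1 : eval hu.el (map (h.ρ : (lp x).O →+* (lp z).O) H) = 0 := by
        rw [← ha, eval_map, ← coe_eval₂Hom]
        exact ((map_eval₂Hom (RingHom.id _) w' (h.ρ : (lp x).O →+* (lp z).O) H).trans rfl).symm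
      have h2 := hu.map_eq_zero (lp z).hom hw (hH.map _) (h1 ▸ zero_mem _)
      refine add_mem (Ideal.mem_sup_left ha') (Res.P0.eval_mem_of_map_eq_zero _ _ _ hm hH ?_)
      ext m
      have h3 := congrArg (coeff m) h2
      rw [coeff_map, coeff_map, coeff_zero] at h3
      rw [coeff_map, coeff_zero, Ideal.Quotient.eq_zero_iff_mem]
      exact h.ρ_mem.1 h3
  refine ⟨h.le, hc, fun a ha => ⟨fun h0 => (inI_iff (s := s') (a := ⟨a, ha⟩)).2 ?_,
    fun h0 => (h0.mono h.le).π_eq (fun l => h.le (s' l).2) hs⟩⟩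
  refine mem_of_forall_sup_pow (m := Ideal.span (Set.range w')) (fun h1 => ?_)
    (key _ (Subtype.ext h0))
  have h2 : Ideal.span (Set.range w') ≤ (lp x).mx :=
    Ideal.span_le.2 (by rintro _ ⟨m, rfl⟩; exact hc.v_eq (Sum.inr m))
  exact one_ne_zero ((lp x).v_one.symm.trans (h2 (h1 ▸ Submodule.mem_top : (1 : (lp x).O) ∈ _)))

/-- a family which generates the maximal ideal modulo its square -/
theorem coI_of_span {ι : Type} [Fintype ι] [DecidableEq ι] {t : Fin n → F}
    (ht : Coords (lp x).O t) (e : Fin n ≃ ι) {v : ι → (lp x).O} (h0 : ∀ l, v l ∈ (lp x).mx)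
    (h1 : ⊤ ≤ Submodule.span ℂ (Set.range fun l => dv ht (v l))) :
    CoI (lp x).O fun l => (v l : F) := by
  have h2 : Ideal.span (Set.range v) ≤ (lp x).mx :=
    Ideal.span_le.2 (by rintro _ ⟨l, rfl⟩; exact h0 l)
  have h3 : (lp x).mx ≤ Ideal.span (Set.range v) := by
    refine Submodule.le_of_le_smul_of_le_jacobson_bot (I := (lp x).mx)
      (IsNoetherian.noetherian _) ?_ fun f hf => ?_
    · rw [← LP.maximalIdeal_eq]
      exact IsLocalRing.maximalIdeal_le_jacobson _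
    · obtain ⟨a, ha⟩ := (Submodule.mem_span_range_iff_exists_fun ℂ).1 (h1 (Submodule.mem_top :
        dv ht f ∈ _))
      have h4 : ∑ l, a l • v l ∈ Ideal.span (Set.range v) := Ideal.sum_mem _ fun l _ =>
        Submodule.smul_of_tower_mem _ _ (Ideal.subset_span ⟨l, rfl⟩)
      refine Submodule.mem_sup.2 ⟨_, h4, f - ∑ l, a l • v l, ?_, add_sub_cancel _ _⟩
      refine (dv_eq_zero_iff ht (sub_mem hf (h2 h4))).1 ?_
      simp only [map_sub, map_sum, map_smul, ha, sub_self]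
  obtain ⟨b⟩ := basis_of_coords ht
  have h4 : Coords (lp x).O fun l => (v (e l) : F) := by
    refine coords_of_crd b ⟨fun l => (v _).2, fun f hf => ?_⟩ fun l => h0 _
    obtain ⟨r, hr, h5⟩ := inI_iff.2 (h3 (show (⟨f - algebraMap ℂ F ((lp x).v f),
      sub_mem hf (algebraMap_mem _ _)⟩ : (lp x).O) ∈ (lp x).mx from LP.v_sub_v hf))
    have h6 : ∀ l, (lp x).v (v l) = 0 := h0
    refine ⟨fun l => r (e l), fun l => hr _, ?_⟩
    simp only [h6, map_zero, sub_zero]
    rw [e.sum_comp fun l => r l * v l, ← h5]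
    exact (add_sub_cancel _ _).symm
  simpa using (coI_iff.2 h4).reindex e.symm

/-- **adapted coordinates** -/
theorem exists_ad' (h : Ov q z x) {t : Fin n → F} (ht : Coords (lp x).O t) {u : Fin d → κ}
    (hu : Coords (lp z).O u) : ∃ c, c + d = n ∧ ∃ (s : Fin c → F) (w : Fin d → F), Ad q x s w := by
  have h' : Lh q z x := ⟨h.le, h.mem, h.ev_eq⟩
  have hρ : Function.Surjective h'.ρ := fun g => by
    obtain ⟨f, hf, h1⟩ := h.surj g g.2
    exact ⟨⟨f, hf⟩, Subtype.ext h1⟩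
  choose w hw using fun m => hρ (hu.el m)
  have hw0 : ∀ m, w m ∈ (lp x).mx := fun m => h'.ρ_mem.1 (hw m ▸ el_mem hu m)
  let K : Submodule ℂ (Fin n → ℂ) := (LinearMap.ker h'.ρ.toLinearMap).map (dv ht)
  let W : Submodule ℂ (Fin n → ℂ) := Submodule.span ℂ (Set.range fun m => dv ht (w m))
  have key : ∀ a, h'.ρ a = 0 → ∀ e : Fin d → ℂ, ∑ m, e m • dv ht (w m) = dv ht a → e = 0 := by
    intro a ha e he
    have h1 : ∑ m, e m • w m - a ∈ (lp x).mx := sub_mem
      (Ideal.sum_mem _ fun m _ => Submodule.smul_of_tower_mem _ _ (hw0 m))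
      (h'.ρ_mem.1 (ha ▸ zero_mem _))
    have h2 := Ideal.mem_map_of_mem h'.ρ ((dv_eq_zero_iff ht h1).1 (by
      simp only [map_sub, map_sum, map_smul, he, sub_self]))
    have h3 : Ideal.map h'.ρ (lp x).mx ≤ (lp z).mx :=
      Ideal.map_le_iff_le_comap.2 fun f hf => h'.ρ_mem.2 hf
    rw [Ideal.map_mul] at h2
    have h4 := (dv_eq_zero_iff hu (h'.ρ_mem.2 h1)).2 (Ideal.mul_mono h3 h3 h2)
    funext m
    simpa [map_sub, map_sum, ha, hw, dv_el, Pi.single_apply] using congrFun h4 m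
  have hW : Module.finrank ℂ W = d := by
    rw [finrank_span_eq_card (Fintype.linearIndependent_iff.2 fun e he m =>
      congrFun (key 0 (map_zero _) e (by rw [he, map_zero])) m), Fintype.card_fin]
  have h1 : K ⊓ W = ⊥ := by
    rw [eq_bot_iff]
    rintro _ ⟨⟨a, ha, rfl⟩, h2⟩
    obtain ⟨e, he⟩ := (Submodule.mem_span_range_iff_exists_fun ℂ).1 h2
    rw [← he, key a ha e he]
    simp
  have h2 : K ⊔ W = ⊤ := by
    rw [eq_top_iff, ← (Pi.basisFun ℂ (Fin n)).span_eq, Submodule.span_le]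
    rintro _ ⟨l, rfl⟩
    obtain ⟨r, hr⟩ := exists_sum hu (h'.ρ_mem.2 (el_mem ht l))
    choose r' hr' using fun m => hρ (r m)
    have h3 : ∀ m, (lp x).v (w m) = 0 := hw0
    refine Submodule.mem_sup.2 ⟨_, ⟨ht.el l - ∑ m, r' m * w m, ?_, rfl⟩,
      dv ht (∑ m, r' m * w m), ?_, ?_⟩
    · simp [hr, hr', hw]
    · rw [map_sum]
      refine Submodule.sum_mem _ fun m _ => ?_
      rw [dv_mul, h3, zero_smul, add_zero]
      exact Submodule.smul_mem _ _ (Submodule.subset_span ⟨m, rfl⟩)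
    · rw [← map_add, sub_add_cancel, dv_el, Pi.basisFun_apply]
  obtain ⟨c, h3, b, hb, hb'⟩ := exists_compl h1 h2 hW
  choose s hs hs' using hb
  have h4 := coI_of_span ht ((finCongr h3.symm).trans finSumFinEquiv.symm) (v := Sum.elim s w)
    (fun l => by
      rcases l with l | l
      exacts [h'.ρ_mem.1 ((show h'.ρ (s l) = 0 from hs l) ▸ zero_mem _), hw0 l]) (by
      rw [← h2]
      refine sup_le (hb'.trans (Submodule.span_mono ?_)) (Submodule.span_mono ?_)
      · rintro _ ⟨m, rfl⟩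
        exact ⟨Sum.inl m, hs' m⟩
      · rintro _ ⟨m, rfl⟩
        exact ⟨Sum.inr m, rfl⟩)
  refine ⟨_, h3, fun l => s l, fun m => w m, ad_of h' ?_ (fun l => congrArg Subtype.val (hs l)) ?_⟩
  · convert h4 using 1
    funext l
    rcases l with l | l <;> rfl
  · have h5 : (fun m => q.π (w m)) = u := funext fun m => congrArg Subtype.val (hw m)
    rw [h5]
    exact ⟨hu.mem, by simpa using hu.der⟩

/-! ### embeddings -/

variable (j : Mor Z P)

/-- **the centre of the place of a morphism is its image** -/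
theorem le_iff_range : (lp x).O ≤ j.p.O ↔ x ∈ Set.range j.map := by
  refine ⟨fun hx => ?_, by rintro ⟨z, rfl⟩; exact (lh_map j z).le⟩
  have : (lp x).mx.IsPrime := RingHom.ker_isPrime _
  obtain ⟨V, h1, h2⟩ := Cns.exists_val
    (j.p.hom.comp (Subalgebra.inclusion hx) : (lp x).O →+* κ) (lp x).mx
    fun a ha => ev_eq_zero hx ha
  have h3 : ∀ f ∈ (lp x).O, Cns.Un V (j.p.π f) → ev f x ≠ 0 := fun f hf => (h2 ⟨f, hf⟩).1
  obtain ⟨z, hz⟩ := Cns.exists_ov Z (V := V) fun r => by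
    have h4 := h1 (algebraMap ℂ _ r)
    rwa [RingHom.coe_coe, AlgHom.commutes] at h4
  obtain ⟨i, hi⟩ := exists_pat (j.map z)
  obtain ⟨i', hi'⟩ := exists_pat x
  have h4 : j.p.π (P.y i / P.y i') * j.p.π (P.y i' / P.y i) = 1 := by
    rw [← j.p.π_mul (hx (y_mem hi' i)) (j.mem_O (y_mem hi i')),
      div_mul_div_cancel₀ (P.y_ne i'), div_self (P.y_ne i), Plc.π_one]
  have h5 : x ∈ pat P i := (mem_pat_iff hi').2 (h3 _ (y_mem hi' i)
    ⟨left_ne_zero_of_mul_eq_one h4, h1 ⟨_, y_mem hi' i⟩,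
      eq_inv_of_mul_eq_one_right h4 ▸ hz _ (j.π_mem (y_mem hi i'))⟩)
  refine ⟨z, pt_ext hi h5 fun k => ?_⟩
  by_contra hne
  refine h3 (P.y k / P.y i - algebraMap ℂ F (ev (P.y k / P.y i) x))
    (sub_mem (y_mem h5 k) (algebraMap_mem _ _)) (hz.un ?_) (LP.v_sub_v (y_mem h5 k))
  rw [← j.ev_map (sub_mem (y_mem hi k) (algebraMap_mem _ _))]
  unfold ev
  rw [LP.v_sub (y_mem hi k) (algebraMap_mem _ _), LP.v_alg]
  exact sub_ne_zero.2 hne

/-- surjective on the local rings -/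
def Srj : Prop := ∀ z : Pts Z, ∀ g ∈ (lp z).O, ∃ f ∈ (lp (j.map z)).O, j.p.π f = g

/-- the ring of the place is the local ring of the image -/
def Lcl : Prop := ∃ z : Pts Z, ∀ f ∈ j.p.O,
  ∃ a ∈ (lp (j.map z)).O, ∃ c ∈ (lp (j.map z)).O, j.p.π c ≠ 0 ∧ f * c = a

variable {j}

theorem Srj.ov (h : Srj j) (z : Pts Z) : Ov j.p z (j.map z) :=
  ⟨(lh_map j z).le, (lh_map j z).mem, (lh_map j z).ev_eq, h z⟩

theorem Srj.le_dim (h : Srj j) (b : Module.Basis (Fin n) F Ω[F⁄ℂ])
    (b' : Module.Basis (Fin d) κ Ω[κ⁄ℂ]) : d ≤ n := by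
  obtain ⟨z⟩ : Nonempty (Pts Z) := inferInstance
  obtain ⟨t, ht⟩ := exists_coords_of_basis b (j.map z)
  obtain ⟨u, hu⟩ := exists_coords_of_basis b' z
  obtain ⟨c, hc, -⟩ := exists_ad' (h.ov z) ht hu
  omega

/-- **a closed embedding is a smooth centre** -/
theorem smC (h : Srj j) (hl : Lcl j) (b : Module.Basis (Fin n) F Ω[F⁄ℂ])
    (b' : Module.Basis (Fin d) κ Ω[κ⁄ℂ]) (hc : c + d = n) : SmC P j.p c d := by
  obtain ⟨z₀, h₀⟩ := hl
  have h1 := (lh_map j z₀).le
  refine ⟨fun g => ?_, ⟨_, h1⟩, loc_of_one h1 h₀, fun x hx => ?_⟩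
  · obtain ⟨a, ha, e, he, h2, rfl⟩ := frac_lp z₀ g
    obtain ⟨a', ha', rfl⟩ := h z₀ a ha
    obtain ⟨e', -, rfl⟩ := h z₀ e he
    exact ⟨_, Plc.div_mem (h1 ha') h2, Plc.π_div (h1 ha') h2⟩
  · obtain ⟨z, rfl⟩ := (le_iff_range j).1 hx
    obtain ⟨t, ht⟩ := exists_coords_of_basis b (j.map z)
    obtain ⟨u, hu⟩ := exists_coords_of_basis b' z
    obtain ⟨c', hc', h2⟩ := exists_ad' (h.ov z) ht hu
    obtain rfl : c' = c := by omega
    exact h2

variable (j) (z₀ : Pts Z)

/-- the localised place -/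
def locP : Plc F κ := plcAt (j.p.hom.comp (Subalgebra.inclusion (lh_map j z₀).le))

theorem mem_locP {f : F} (hf : f ∈ (lp (j.map z)).O) :
    f ∈ (locP j z₀).O ∧ (locP j z₀).π f = j.p.π f := by
  have h₀ := (lh_map j z₀).le
  obtain ⟨a, ha, e, he, h1, h2⟩ := two_pt (lh_map j z).le h₀ hf
  have h3 : f ∈ (locP j z₀).O := ⟨⟨a, ha⟩, ⟨e, he⟩, un_plc.1 h1, h2⟩
  have h4 : ∀ a ∈ (lp (j.map z₀)).O, (locP j z₀).π a = j.p.π a := fun a ha => plcAt_π _ ⟨a, ha⟩
  refine ⟨h3, mul_right_cancel₀ (un_plc.1 h1) ?_⟩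
  rw [← j.p.π_mul (j.mem_O hf) (h₀ he), h2, ← h4 e he, ← h4 a ha,
    ← (locP j z₀).π_mul h3 (le_plcAt _ he), h2]

/-- the same morphism, with the local ring of the image as the ring of its place -/
def locM : Mor Z P where
  p := locP j z₀
  reg z := by
    obtain ⟨i, hi⟩ := exists_pat (j.map z)
    exact ⟨i, fun k => ⟨(mem_locP j z₀ (y_mem hi k)).1,
      (mem_locP j z₀ (y_mem hi k)).2 ▸ j.π_mem (y_mem hi k)⟩⟩

theorem locM_p : (locM j z₀).p = locP j z₀ := rfl

theorem locM_map : (locM j z₀).map = j.map := funext fun z => (locM j z₀).map_eq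
  ⟨fun f hf => ⟨(mem_locP j z₀ hf).1, (mem_locP j z₀ hf).2 ▸ j.π_mem hf⟩, fun f hf => by
    rw [LP.comap_v, locM_p, (mem_locP j z₀ hf).2]
    exact (j.ev_map hf).symm⟩

theorem lcl_locM : Lcl (locM j z₀) := ⟨z₀, fun f ⟨a, e, h1, h2⟩ => by
  rw [locM_map]
  exact ⟨a, a.2, e, e.2, by rwa [locM_p, (mem_locP j z₀ e.2).2], h2⟩⟩

variable {j} in
theorem Srj.locM (h : Srj j) : Srj (locM j z₀) := fun z g hg => by
  obtain ⟨f, hf, rfl⟩ := h z g hg
  rw [locM_map]
  exact ⟨f, hf, (mem_locP j z₀ hf).2⟩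

/-! ### the diagonal -/

section Dia

open Crest.Agent.X277.Cns Crest.Agent.R274.Prod1_134 Crest.Agent.R274.Prod4_134

variable {E : Type} [Field E] [Algebra ℂ E] {α β : F →ₐ[ℂ] E} (h : IsPF α β) (P : PModel ℂ F)

/-- the diagonal -/
abbrev dg : Mor P (prod P P h) := pair h (idM P) (idM P)

variable {P}

theorem dg_map (x : Pts P) : (dg h P).map x = mk h x x := by rw [pair_map, idM_map]

theorem dg_α (a : F) : α a ∈ (dg h P).p.O ∧ (dg h P).p.π (α a) = a :=
  plcP_left h _ Algebra.mem_top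


theorem α_mem_mk {x x' : Pts P} {a : F} (ha : a ∈ (lp x).O) : α a ∈ (lp (mk h x x')).O := by
  simpa using mem_mk h ha (one_mem (lp x').O)


theorem dg_injective : Function.Injective (dg h P).map := fun x x' hx => by
  simpa [dg_map] using congrArg (fst P P h).map hx


theorem srj_dg : Srj (dg h P) := fun x g hg =>
  ⟨α g, dg_map h x ▸ α_mem_mk h hg, (dg_α h g).2⟩





end Dia

end Crest.Agent.X262.Dbl58
end
end

-- ▼ part X262/Dbl58/Main
section

/-!
# Row 262, DBL (helper58): the blow-up of a closed embedding, the blow-up of the diagonal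

* `exc G`, `at_exc`, `isDv_exc` : the exceptional divisor as a smooth divisor;
* `exists_bl`  : the blow-up of the image of a closed embedding of positive codimension;
* `dbl_of`     : `PD → SUPD → DBL`.
-/

set_option autoImplicit false
set_option linter.unusedSectionVars false

open WithZero
open scoped KaehlerDifferential

noncomputable section

namespace Crest.Agent.X262.Dbl58

open Crest.Agent.X277 Crest.Agent.X277.Lef Crest.Agent.X277.AN.G1 Crest.Agent.X277.BD
  Crest.Agent.X277.BD.Br Crest.Agent.X262.Blow Crest.Agent.X262.Coh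

section Exc

variable {F κ K : Type} [Field F] [Field κ] [Field K] [Algebra ℂ F] [Algebra ℂ κ] [Algebra ℂ K]
  {q : Plc F κ} {p : Plc F K} {v : Valuation F ℤᵐ⁰} {P : PModel ℂ F} {c d : ℕ}

/-- the exceptional divisor -/
def exc (G : Gens P q) : BD ℂ F := G.m • oP P - mxf ℂ G.f

variable {G : Gens P q} {h : SmC P q c d}

theorem at_exc {x' : Pts (G.bl h)} {i : Fin (P.N + 1)} {j : Fin (G.M + 1)}
    (hi : (G.r h).map x' ∈ pat P i) (hj : ∀ k, G.f k / G.f j ∈ (lp x').O) :
    At (exc G) x' (G.g i j)⁻¹ := by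
  rw [inv_div]
  exact ((at_mxf (P.y_ne i) fun l => (Gens.r_dom x').le (y_mem hi l)).nsmul _).sub
    (at_mxf (G.ne j) hj)

theorem isDv_exc (hv : IsOrd q v) (hp : ExcP v p) {E : PModel ℂ K} (hE : Md p (G.bl h) E) :
    IsDv (X := sv E) (Y := sv (G.bl h)) hE.mor (exc G) := by
  refine ⟨⟨hE.injective, fun e => (hE.ov e).surj⟩, fun y hy => ?_, fun e => ?_⟩
  · obtain ⟨i, hi⟩ := exists_pat ((G.r h).map y)
    obtain ⟨j, hj⟩ := Gens.exists_gen y
    refine (at_exc hi hj).of_ev' ?_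
    rw [one_div, inv_inv]
    exact hv.ev_g_ne (fun h1 => hy (hE.mem_range.2 (hp.le_iff.2 h1))) hi hj
  · obtain ⟨i, hi⟩ := exists_pat ((G.r h).map (hE.mor.map e))
    obtain ⟨j, hj⟩ := Gens.exists_gen (hE.mor.map e)
    have he := hv.eqn_g (hp.le_iff.1 (hE.ov e).le) hi hj
    exact ⟨_, he.mem, at_exc hi hj, fun f hf => (hp.eq_iff (he.loc.le f hf)).trans (he.lt_iff hf)⟩

end Exc

variable {X Y : SV}

theorem md_of_isEmb {i : Hom X Y} (h : IsEmb i) : Md i.p Y.P X.P :=
  ⟨fun z => ⟨_, Srj.ov h.2 z⟩, fun x hx => by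
    obtain ⟨z, rfl⟩ := (le_iff_range i).1 hx
    exact ⟨z, Srj.ov h.2 z⟩⟩

theorem dim_le_of_isEmb {i : Hom X Y} (h : IsEmb i) : X.dim ≤ Y.dim :=
  Srj.le_dim h.2 (Module.finBasis _ _) (Module.finBasis _ _)

/-- a closed embedding is a smooth centre -/
theorem exists_smC {i : Hom X Y} (h : IsEmb i) : ∃ i' : Hom X Y, i'.map = i.map ∧ IsEmb i' ∧
    SmC Y.P i'.p (Y.dim - X.dim) X.dim := by
  obtain ⟨z⟩ : Nonempty X.Pt := inferInstance
  have h1 := dim_le_of_isEmb h
  exact ⟨locM i z, locM_map i z, ⟨(locM_map i z).symm ▸ h.1, Srj.locM z h.2⟩,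
    smC (Srj.locM z h.2) (lcl_locM i z) (Module.finBasis _ _) (Module.finBasis _ _)
      (Nat.sub_add_cancel h1)⟩

/-- **the blow-up of a smooth subvariety** -/
theorem exists_bl {i : Hom X Y} (h : IsEmb i) (hd : X.dim < Y.dim) :
    ∃ (B : PModel ℂ Y.F) (E : SV) (b : Hom (sv B) Y) (j : Hom E (sv B)) (π : Hom E X)
      (a : BD ℂ Y.F), b.p = Plc.ofHom (AlgHom.id ℂ Y.F) ∧ IsDv j a ∧
      (∀ y, b.map y ∈ Set.range i.map ↔ y ∈ Set.range j.map) ∧
      (∀ y, b.map y ∉ Set.range i.map → lp (b.map y) = lp y) ∧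
      (Mor.comp b j).map = (Mor.comp i π).map := by
  obtain ⟨i', h1, h2, h3⟩ := exists_smC h
  have hc : 0 < Y.dim - X.dim := by omega
  obtain ⟨G⟩ := h3.exists_gens hc
  obtain ⟨v, hv⟩ := h3.exists_ord hc
  obtain ⟨K, _, _, p, hp⟩ := exists_excP hv.triv
  obtain ⟨E, hE⟩ : ∃ E : PModel ℂ K, Md p (G.bl h3) E :=
    ⟨_, (smC_exc G h3 hv hp hc (d' := Y.dim - 1) (by omega)).md⟩
  refine ⟨G.bl h3, sv E, G.r h3, hE.mor, prj hv hp hE (md_of_isEmb h2), exc G, rfl,
    isDv_exc hv hp hE, fun y => ?_, fun y hy => Gens.lp_off ?_, funext fun e => ?_⟩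
  · rw [← h1, ← le_iff_range, ← hv.on_bl, hE.mem_range, hp.le_iff]
  · rwa [le_iff_range, h1]
  · rw [Mor.comp_map, Mor.comp_map, ← h1]
    exact (prj_comm hv hp hE (md_of_isEmb h2) e).symm

theorem isEmb_dia (Y : SV) : IsEmb (dia Y) := ⟨dg_injective _, srj_dg _⟩

theorem dim_prod (X Y : SV) : (X.prod Y).dim = X.dim + Y.dim := by
  simpa using Module.finrank_eq_card_basis (Cns.pfBasis
    (Crest.Agent.R274.Prod1_134.isPF ℂ X.F Y.F) (Module.finBasis _ _) (Module.finBasis _ _))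

/-- **the total transform of the diagonal** -/
theorem dbl_of {C : Th} (hP : C.PD) (hS : C.SUPD) : C.DBL := by
  intro Y hY
  obtain ⟨B, E, b, j, -, a, h1, h2, h3, -⟩ := exists_bl (isEmb_dia Y) (by rw [dim_prod]; omega)
  obtain ⟨γ, hγ⟩ := hP.mem_range_push (μ := j) (b := C.pb b (C.push (dia Y) 1)) fun y hy => by
    rw [mul_comm]
    exact hS b j h2.emb (fun y => (h3 y).1) y hy
  exact ⟨sv B, E, b, j, a, ⟨_, h1, Function.surjective_id⟩, h2, h3, γ, hγ.symm⟩

end Crest.Agent.X262.Dbl58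
end
end

-- ▼ part X262/Coh/Main
section

/-!
# Row 262, COH (helper45): the theory `th` satisfies `Th.Ax`
-/

set_option autoImplicit false

noncomputable section

namespace Crest.Agent.X262.Coh

/-- **the de Rham theory** -/
abbrev th : Th := th0 Lat.LamP

theorem uni_th : th.UNI :=
  Lat.uni_of _ _ P12.p1Stmt P12.p2Stmt LatQ.p3Stmt fun _ _ _ P X => LatQ.exists_om P X

theorem ax_th : th.Ax :=
  ax_of _ (Dbl58.dbl_of (PD.th_pd _ _ _) (Van.supd _ _ _))
    (Lat.lam_of _ Itg23.itgStmt Lat.c1Cd) uni_th Lat.l11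

end Crest.Agent.X262.Coh
end
end

-- ▼ part X262/H31/Calc
section

/-!
# X262 / H31 (helper60), file Calc: flat calculus

* `D f w` : the differential of a function as a form; `pd a f w` : its coefficients;
* `tht f g = f dg - g df`;
* `eq_zero_of_dz` : a form of type `(p, q)`, `p < n`, killed by all `dz a` is zero;
* `holo_of_dbC` : `∂̄ (f Om) = 0` gives `f` holomorphic.
-/

set_option autoImplicit false
set_option linter.unusedSectionVars false

open Complex Filter Topology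
open scoped ContDiff

noncomputable section

namespace Crest.Agent.X262.H31

open Crest.Agent.R208.F Crest.Agent.R208.CW Crest.Agent.X262.Kah Crest.Agent.X262.Kah.Fib
open Crest.Agent.R275.Geo (Cn dbj)
open Crest.Agent.R275.Fm96 (dbj_hol differentiableAt_of_dbj)
open Crest.Agent.X262.Pg58 (Om co Om_mem Om_ne)

variable {n m : ℕ} {f g : Cn n → ℂ} {w : Cn n} {x : V n} {p q : ℕ}

/-- the differential -/
def D (f : Cn n → ℂ) (w : Cn n) : V n := cv ((fderiv ℝ f w : Cn n →L[ℝ] ℂ) : Cn n →ₗ[ℝ] ℂ)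

/-- the partial derivative -/
def pd (a : Fin n) (f : Cn n → ℂ) (w : Cn n) : ℂ := fderiv ℂ f w (ep a)

/-- `f dg - g df` -/
def tht (f g : Cn n → ℂ) (w : Cn n) : V n := f w • D g w - g w • D f w

theorem sm_of_an (h : AnalyticAt ℂ f w) : ContDiffAt ℝ ∞ f w :=
  (h.contDiffAt (n := ∞)).restrict_scalars ℝ

theorem sm1_of_an (h : AnalyticAt ℂ f w) : ContDiffAt ℝ 1 f w := (sm_of_an h).of_le Kah.one_le_inf

theorem dif_of_an (h : AnalyticAt ℂ f w) : DifferentiableAt ℝ f w :=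
  h.differentiableAt.restrictScalars ℝ

theorem an_pd (a : Fin n) (h : AnalyticAt ℂ f w) : AnalyticAt ℂ (pd a f) w :=
  ((ContinuousLinearMap.apply ℂ ℂ (ep a)).analyticAt _).comp h.fderiv

theorem D_congr (h : f =ᶠ[𝓝 w] g) : D f w = D g w := by rw [D, D, h.fderiv_eq]

theorem D_eq (h : DifferentiableAt ℂ f w) : D f w = ∑ a, pd a f w • dz a := by
  rw [D, cv_eq_sum]
  refine Finset.sum_congr rfl fun a _ => ?_
  rw [(Pg58.holo_iff (h.restrictScalars ℝ)).1 h a, zero_smul, add_zero,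
    h.fderiv_restrictScalars ℝ, pz, pd]
  simp only [ContinuousLinearMap.coe_coe, ContinuousLinearMap.coe_restrictScalars', map_smul,
    smul_eq_mul]
  congr 1
  linear_combination (-(1 / 2) * fderiv ℂ f w (ep a)) * I_mul_I

theorem D_mul (hf : DifferentiableAt ℝ f w) (hg : DifferentiableAt ℝ g w) :
    D (fun y => f y * g y) w = f w • D g w + g w • D f w := by
  rw [D, D, D, ← cv_smul, ← cv_smul, ← cv_add, fderiv_fun_mul hf hg]
  rfl

theorem D_comp {φ : Cn m → Cn n} {y : Cn m} (hf : DifferentiableAt ℝ f (φ y))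
    (hφ : DifferentiableAt ℝ φ y) : D (fun v => f (φ v)) y = pbC (Dr φ y) (D f (φ y)) := by
  rw [D, D, pbC_cv, show fderiv ℝ (fun v => f (φ v)) y = _ from fderiv_comp y hf hφ]
  rfl

theorem D_mem (h : DifferentiableAt ℂ f w) : D f w ∈ Ty 1 0 :=
  D_eq h ▸ Submodule.sum_mem _ fun a _ => Submodule.smul_mem _ _ (dz_mem a)

theorem D_ev (h : AnalyticAt ℂ f w) : D f =ᶠ[𝓝 w] fun y => ∑ a, pd a f y • dz a :=
  h.eventually_analyticAt.mono fun _ hy => D_eq hy.differentiableAt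

theorem CD_D (h : AnalyticAt ℂ f w) : CD ∞ (D f) w :=
  (CD.sum fun a _ => CD_fsmul (sm_of_an (an_pd a h)) (CD.const _)).congr (D_ev h)

theorem dbC_hsmul {om : Cn n → V n} (h : AnalyticAt ℂ f w) (h' : CD 1 om w) :
    dbC (fun y => f y • om y) w = f w • dbC om w := by
  rw [dbC_fsmul (sm1_of_an h) h']
  simp [dbj_hol h.differentiableAt]

theorem dbC_D (h : AnalyticAt ℂ f w) : dbC (D f) w = 0 := by
  rw [dbC_congr (D_ev h), dbC_sum _ fun a _ => CD_fsmul (sm1_of_an (an_pd a h)) (CD.const _)]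
  exact Finset.sum_eq_zero fun a _ => by
    rw [dbC_hsmul (an_pd a h) (CD.const _), dbC_const, smul_zero]

theorem dbC_neg {om : Cn n → V n} (h : CD 1 om w) : dbC (fun y => -om y) w = -dbC om w := by
  simpa using dbC_csmul (-1) h

theorem dbC_sub {om η : Cn n → V n} (h : CD 1 om w) (h' : CD 1 η w) :
    dbC (fun y => om y - η y) w = dbC om w - dbC η w := by
  simp only [sub_eq_add_neg]
  rw [dbC_add h h'.neg, dbC_neg h']

theorem tht_mem (hf : AnalyticAt ℂ f w) (hg : AnalyticAt ℂ g w) : tht f g w ∈ Ty 1 0 :=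
  sub_mem (Submodule.smul_mem _ _ (D_mem hg.differentiableAt))
    (Submodule.smul_mem _ _ (D_mem hf.differentiableAt))

theorem CD_tht (hf : AnalyticAt ℂ f w) (hg : AnalyticAt ℂ g w) : CD ∞ (tht f g) w :=
  (CD_fsmul (sm_of_an hf) (CD_D hg)).sub (CD_fsmul (sm_of_an hg) (CD_D hf))

theorem dbC_tht (hf : AnalyticAt ℂ f w) (hg : AnalyticAt ℂ g w) : dbC (tht f g) w = 0 := by
  have h1 := (CD_D hf).of_le Kah.one_le_inf
  have h2 := (CD_D hg).of_le Kah.one_le_inf
  unfold tht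
  rw [dbC_sub (CD_fsmul (sm1_of_an hf) h2) (CD_fsmul (sm1_of_an hg) h1), dbC_hsmul hf h2,
    dbC_hsmul hg h1, dbC_D hf, dbC_D hg, smul_zero, smul_zero, sub_zero]

theorem dbC_tht_mul {om : Cn n → V n} (hf : AnalyticAt ℂ f w) (hg : AnalyticAt ℂ g w)
    (h : CD 1 om w) : dbC (fun y => tht f g y * om y) w = -(tht f g w * dbC om w) := by
  rw [dbC_mul ((CD_tht hf hg).of_le Kah.one_le_inf) h, dbC_tht hf hg, zero_mul, zero_add,
    Ty.invC_eq (tht_mem hf hg)]
  simp

theorem tht_eq (hf : DifferentiableAt ℂ f w) (hg : DifferentiableAt ℂ g w) :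
    tht f g w = ∑ a, (f w * pd a g w - g w * pd a f w) • dz a := by
  simp only [tht, D_eq hf, D_eq hg, Finset.smul_sum, smul_smul, sub_smul, Finset.sum_sub_distrib]

/-- the scaling of `tht` -/
theorem tht_tr {φ : Cn m → Cn n} {y : Cn m} {l f' g' : Cn m → ℂ}
    (hf : DifferentiableAt ℝ f (φ y)) (hg : DifferentiableAt ℝ g (φ y))
    (hφ : DifferentiableAt ℝ φ y) (hl : DifferentiableAt ℝ l y)
    (ef : f' =ᶠ[𝓝 y] fun v => l v * f (φ v)) (eg : g' =ᶠ[𝓝 y] fun v => l v * g (φ v)) :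
    tht f' g' y = l y ^ 2 • pbC (Dr φ y) (tht f g (φ y)) := by
  rw [tht, tht, D_congr ef, D_congr eg, D_mul (g := fun v => f (φ v)) hl (hf.comp y hφ),
    D_mul (g := fun v => g (φ v)) hl (hg.comp y hφ),
    D_comp hf hφ, D_comp hg hφ, ef.self_of_nhds, eg.self_of_nhds, map_sub, pbC_smul, pbC_smul]
  module

theorem eq_zero_of_dz (hx : x ∈ Ty p q) (hp : p < n) (h : ∀ a, dz a * x = 0) : x = 0 := by
  have h1 : ∀ a, dz a * iz a x = x := fun a => by
    have h2 := ct_th_mul (.inl a) (.inl a) x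
    simp only [ct_inl, th_inl, h, map_zero, if_true] at h2
    exact (sub_eq_zero.1 h2.symm).symm
  have h2 := hx.1
  rw [Nz_apply] at h2
  simp only [h1, Finset.sum_const, Finset.card_univ, Fintype.card_fin] at h2
  rw [← Nat.cast_smul_eq_nsmul ℂ, ← sub_eq_zero, ← sub_smul, smul_eq_zero, sub_eq_zero,
    Nat.cast_inj] at h2
  exact h2.resolve_left hp.ne'

theorem dz_ne (a : Fin n) : dz a ≠ 0 := fun h => by
  have h1 := ct_th (n := n) (.inl a) (.inl a)
  rw [th_inl, h, map_zero, if_pos rfl] at h1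
  have h2 := congrArg au h1
  rw [map_zero, au_one] at h2
  exact zero_ne_one h2

theorem dz_mul_Om (a : Fin n) : dz a * Om n = 0 :=
  Ty.eq_zero (Ty.mul (dz_mem a) Om_mem) (Or.inl (by omega))

theorem dz_iz_Om (c a : Fin n) : dz c * iz a (Om n) = if a = c then Om n else 0 := by
  have h := ct_th_mul (.inl a) (.inl c) (Om n)
  simp only [ct_inl, th_inl, dz_mul_Om, map_zero, Sum.inl.injEq] at h
  exact (sub_eq_zero.1 h.symm).symm

theorem dbC_Om (h : ContDiffAt ℝ 1 f w) :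
    dbC (fun y => f y • Om n) w = (∑ a, dbj a f w • dzb a) * Om n := by
  rw [dbC_fsmul h (CD.const _), dbC_const, smul_zero, add_zero]

theorem holo_of_dbC (h : ContDiffAt ℝ 1 f w) (h0 : dbC (fun y => f y • Om n) w = 0) :
    DifferentiableAt ℂ f w := by
  refine differentiableAt_of_dbj (h.differentiableAt one_ne_zero) fun a => ?_
  have h1 := congrArg (izb a) h0
  rw [dbC_Om h, Finset.sum_mul, map_sum, map_zero] at h1
  simp only [smul_mul_assoc, map_smul, ← th_inr, ← ct_inr, ct_th_mul] at h1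
  simp only [ct_inr, Ty.izb_eq_zero a Om_mem, mul_zero, sub_zero, Sum.inr.injEq, smul_ite,
    smul_zero, Finset.sum_ite_eq, Finset.mem_univ, if_true] at h1
  exact (smul_eq_zero.1 h1).resolve_right Om_ne

end Crest.Agent.X262.H31
end
end

-- ▼ part X262/H31/Glob
section

/-!
# X262 / H31 (helper60), file Glob: the global argument

`Dat A S p` : sections `z s` of `L`, a nowhere vanishing section `h Om` of `K ⊗ L³`, smooth
sections `ψ s t` of `L⁻¹` and local forms `η` of type `(p,1)` with `tht s t ∧ η = -∂̄(ψ s t h Om)`.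
`Dat.form` is a global `∂̄`-closed form which is not `∂̄`-exact; `Dat.typH_ne`.
-/

set_option autoImplicit false
set_option linter.unusedSectionVars false

open Complex Filter Topology
open scoped ContDiff

noncomputable section

namespace Crest.Agent.X262.H31

open Crest.Agent.R208.F Crest.Agent.R208.CW Crest.Agent.X262.Kah Crest.Agent.X262.Kah.Fib
open Crest.Agent.R275.Geo (Cn dbj Atl Part)
open Crest.Agent.X262.Pg58 (Om co Om_mem Om_ne eq_co)
open Crest.Agent.X262.Man (Emb)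

variable {n : ℕ} {M : Type} [TopologicalSpace M]

/-- the local data -/
structure Dat (A : Atl n M) (S : Type) (p : ℕ) where
  /-- sections of `L` -/
  z : A.ι → S → Cn n → ℂ
  /-- sections of `L⁻¹` -/
  ψ : A.ι → S → S → Cn n → ℂ
  /-- the section of `K ⊗ L³` -/
  h : A.ι → Cn n → ℂ
  /-- the cocycle -/
  lam : A.ι → A.ι → Cn n → ℂ
  /-- the local forms -/
  η : A.ι → Cn n → V n
  hp : p + 1 = n
  z_an : ∀ i s, ∀ w ∈ (A.e i).target, AnalyticAt ℂ (z i s) w
  h_an : ∀ i, ∀ w ∈ (A.e i).target, AnalyticAt ℂ (h i) w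
  lam_an : ∀ i j, ∀ w ∈ A.ov i j, AnalyticAt ℂ (lam i j) w
  ψ_sm : ∀ i s t, ∀ w ∈ (A.e i).target, ContDiffAt ℝ ∞ (ψ i s t) w
  η_sm : ∀ i, ∀ w ∈ (A.e i).target, CD ∞ (η i) w
  η_ty : ∀ i, ∀ w ∈ (A.e i).target, η i w ∈ Ty p 1
  h_ne : ∀ i, ∀ w ∈ (A.e i).target, h i w ≠ 0
  z_tr : ∀ i j s, ∀ w ∈ A.ov i j, z i s w = lam i j w * z j s (tr A i j w)
  ψ_tr : ∀ i j s t, ∀ w ∈ A.ov i j, lam i j w * ψ i s t w = ψ j s t (tr A i j w)
  h_tr : ∀ i j, ∀ w ∈ A.ov i j,
    h i w = lam i j w ^ 3 * (mat (Dtr A i j w)).det * h j (tr A i j w)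
  gen : ∀ i, ∀ w ∈ (A.e i).target, ∀ a, ∃ s t, tht (z i s) (z i t) w = dz a
  nrm : ∀ i, ∀ w ∈ (A.e i).target, ∃ s t, tht (z i s) (z i t) w = 0 ∧ ψ i s t w ≠ 0
  key : ∀ i s t, ∀ w ∈ (A.e i).target, tht (z i s) (z i t) w * η i w =
    -dbC (fun y => (ψ i s t y * h i y) • Om n) w

variable {A : Atl n M} {S : Type} {p : ℕ}

theorem tgt_nhds {i : A.ι} {w : Cn n} (hw : w ∈ (A.e i).target) : (A.e i).target ∈ 𝓝 w :=
  (A.e i).open_target.mem_nhds hw

theorem ov_nhds {i j : A.ι} {w : Cn n} (hw : w ∈ A.ov i j) : A.ov i j ∈ 𝓝 w :=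
  (isOpen_ov' i j).mem_nhds hw

theorem Dtr_I {i j : A.ι} {w : Cn n} (hw : w ∈ A.ov i j) (v : Cn n) :
    Dtr A i j w (I • v) = I • Dtr A i j w v := Dr_I (tr_holo hw).self_of_nhds v

namespace Dat

variable (d : Dat A S p) {i j : A.ι} {w : Cn n}

/-- `z s d(z t) - z t d(z s)` -/
def θ (i : A.ι) (s t : S) : Cn n → V n := tht (d.z i s) (d.z i t)

/-- `ψ h Om` -/
def Ψ (i : A.ι) (s t : S) (y : Cn n) : V n := (d.ψ i s t y * d.h i y) • Om n

theorem CD_Ψ (s t : S) (hw : w ∈ (A.e i).target) : CD ∞ (d.Ψ i s t) w :=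
  CD_fsmul ((d.ψ_sm i s t w hw).mul (sm_of_an (d.h_an i w hw))) (CD.const _)

theorem uniq (hw : w ∈ (A.e i).target) {x : V n} {q : ℕ} (hx : x ∈ Ty p q)
    (h : ∀ s t, d.θ i s t w * x = 0) : x = 0 :=
  eq_zero_of_dz hx (by have := d.hp; omega) fun a => by
    obtain ⟨s, t, e⟩ := d.gen i w hw a
    rw [← e]
    exact h s t

theorem θ_tr (s t : S) (hw : w ∈ A.ov i j) :
    d.θ i s t w = d.lam i j w ^ 2 • pbC (Dtr A i j w) (d.θ j s t (tr A i j w)) :=
  tht_tr (dif_of_an (d.z_an j s _ (tr_mem hw))) (dif_of_an (d.z_an j t _ (tr_mem hw)))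
    ((tr_contDiffAt hw).differentiableAt (by simp)) (dif_of_an (d.lam_an i j w hw))
    (mem_of_superset (ov_nhds hw) fun y hy => d.z_tr i j s y hy)
    (mem_of_superset (ov_nhds hw) fun y hy => d.z_tr i j t y hy)

theorem Ψ_tr (s t : S) (hw : w ∈ A.ov i j) :
    d.Ψ i s t w = d.lam i j w ^ 2 • pbC (Dtr A i j w) (d.Ψ j s t (tr A i j w)) := by
  rw [Ψ, Ψ, pbC_smul, Pg58.pbC_Om (Dtr_I hw), smul_smul, smul_smul, d.h_tr i j w hw,
    ← d.ψ_tr i j s t w hw]
  congr 1
  ring

theorem dbC_Ψ_tr (s t : S) (hw : w ∈ A.ov i j) : dbC (d.Ψ i s t) w =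
    d.lam i j w ^ 2 • pbC (Dtr A i j w) (dbC (d.Ψ j s t) (tr A i j w)) := by
  have h1 := (d.CD_Ψ s t (tr_mem hw)).of_le Kah.one_le_inf
  have h2 := (tr_contDiffAt hw).of_le Kah.two_le_inf
  rw [dbC_congr (η := fun y => d.lam i j y ^ 2 • pullC (tr A i j) (d.Ψ j s t) y)
    (mem_of_superset (ov_nhds hw) fun y hy => d.Ψ_tr s t hy),
    dbC_hsmul ((d.lam_an i j w hw).fun_pow 2) (h1.pullC h2 (by norm_num)),
    dbC_pullC (tr_holo hw) h2 h1]
  rfl

theorem η_tr (hw : w ∈ A.ov i j) : d.η i w = pbC (Dtr A i j w) (d.η j (tr A i j w)) := by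
  rw [← sub_eq_zero]
  refine d.uniq hw.1 (sub_mem (d.η_ty i w hw.1)
    (Ty.pb_mem (Dtr_I hw) (d.η_ty j _ (tr_mem hw)))) fun s t => ?_
  have h1 : d.θ i s t w * d.η i w = -dbC (d.Ψ i s t) w := d.key i s t w hw.1
  have h2 : d.θ j s t _ * d.η j _ = -dbC (d.Ψ j s t) _ := d.key j s t _ (tr_mem hw)
  rw [mul_sub, h1, d.θ_tr s t hw, smul_mul_assoc, ← map_mul, h2, map_neg, smul_neg,
    ← d.dbC_Ψ_tr s t hw, sub_self]

/-- the global form -/
def form : FS A := FS.mk' d.η d.η_sm fun _ _ _ hw => d.η_tr hw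

theorem form_apply (hw : w ∈ (A.e i).target) : d.form.1 i w = d.η i w := FS.mk'_apply hw

theorem form_ty : TyF p 1 d.form := fun i w hw => d.form_apply hw ▸ d.η_ty i w hw

theorem dbF_form (ht : TyF p 2 (dbF A d.form)) : dbF A d.form = 0 := FS.ext' fun i w hw => by
  refine d.uniq hw (ht i w hw) fun s t => ?_
  rw [dbF_apply _ hw, ← neg_eq_zero, θ, ← dbC_tht_mul (d.z_an i s w hw) (d.z_an i t w hw)
    (d.form.sm1 hw), dbC_congr (η := fun y => -dbC (d.Ψ i s t) y)
      (mem_of_superset (tgt_nhds hw) fun y hy => by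
        change _ * d.form.1 i y = _
        rw [d.form_apply hy]
        exact d.key i s t y hy),
    dbC_neg (CD_dbC (d.CD_Ψ s t hw) (m := 1) (by exact Kah.two_le_inf)),
    dbC_dbC ((d.CD_Ψ s t hw).of_le Kah.two_le_inf), neg_zero]

section exact

variable {β : FS A}

/-- the holomorphic section of `K ⊗ L²` -/
def κ (β : FS A) (i : A.ι) (s t : S) (y : Cn n) : V n := d.Ψ i s t y - d.θ i s t y * β.1 i y

/-- the holomorphic section of `L⁻¹` -/
def f (β : FS A) (i : A.ι) (s t : S) (y : Cn n) : ℂ := co n (d.κ β i s t y) * (d.h i y)⁻¹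

theorem CD_κ (β : FS A) (s t : S) (hw : w ∈ (A.e i).target) : CD ∞ (d.κ β i s t) w :=
  (d.CD_Ψ s t hw).sub ((CD_tht (d.z_an i s w hw) (d.z_an i t w hw)).mul (β.sm hw))

theorem κ_mem (hβ : TyF p 0 β) (s t : S) (hw : w ∈ (A.e i).target) : d.κ β i s t w ∈ Ty n 0 := by
  refine sub_mem (Pg58.smul_Om_mem _) ?_
  have h := Ty.mul (tht_mem (d.z_an i s w hw) (d.z_an i t w hw)) (hβ i w hw)
  rwa [add_comm 1 p, d.hp] at h

theorem dbC_κ (he : dbF A β = d.form) (s t : S) (hw : w ∈ (A.e i).target) :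
    dbC (d.κ β i s t) w = 0 := by
  unfold κ θ
  rw [dbC_sub ((d.CD_Ψ s t hw).of_le Kah.one_le_inf)
    (((CD_tht (d.z_an i s w hw) (d.z_an i t w hw)).of_le Kah.one_le_inf).mul (β.sm1 hw)),
    dbC_tht_mul (d.z_an i s w hw) (d.z_an i t w hw) (β.sm1 hw), ← dbF_apply _ hw, he,
    d.form_apply hw, d.key i s t w hw, neg_neg]
  exact sub_self _

theorem f_dif (hβ : TyF p 0 β) (he : dbF A β = d.form) (s t : S) (hw : w ∈ (A.e i).target) :
    DifferentiableAt ℂ (d.f β i s t) w := by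
  refine (holo_of_dbC ((CD_fun (co n) (d.CD_κ β s t hw)).of_le Kah.one_le_inf) ?_).fun_mul
    ((d.h_an i w hw).inv (d.h_ne i w hw)).differentiableAt
  rw [← d.dbC_κ he s t hw]
  exact dbC_congr (mem_of_superset (tgt_nhds hw) fun y hy => (eq_co (d.κ_mem hβ s t hy)).symm)

theorem f_an (hβ : TyF p 0 β) (he : dbF A β = d.form) (s t : S) (hw : w ∈ (A.e i).target) :
    AnalyticAt ℂ (d.f β i s t) w :=
  ((R266.SCV.contDiffOn_omega_of_differentiableOn (A.e i).open_target fun _ hy =>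
    (d.f_dif hβ he s t hy).differentiableWithinAt).contDiffAt (tgt_nhds hw)).analyticAt

theorem f_tr (hβ : TyF p 0 β) (s t : S) (hw : w ∈ A.ov i j) :
    d.lam i j w * d.f β i s t w = d.f β j s t (tr A i j w) := by
  have h1 : d.κ β i s t w = d.lam i j w ^ 2 • pbC (Dtr A i j w) (d.κ β j s t (tr A i j w)) := by
    rw [κ, κ, d.Ψ_tr s t hw, d.θ_tr s t hw, β.tr' hw, map_sub, map_mul, smul_sub, smul_mul_assoc]
  have h2 := d.h_ne i w hw.1
  have h3 := d.h_ne j _ (tr_mem hw)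
  rw [f, f, h1, eq_co (d.κ_mem hβ s t (tr_mem hw)), pbC_smul, Pg58.pbC_Om (Dtr_I hw), smul_smul,
    smul_smul, Pg58.co_smul_Om, Pg58.co_smul_Om, ← div_eq_mul_inv, ← div_eq_mul_inv,
    ← mul_div_assoc, div_eq_div_iff h2 h3, d.h_tr i j w hw]
  ring

/-- the global holomorphic function -/
def fn (hβ : TyF p 0 β) (he : dbF A β = d.form) (s t u : S) : FS A :=
  FS.mk' (fun i y => (d.z i u y * d.f β i s t y) • 1)
    (fun i w hw => CD_fsmul (sm_of_an ((d.z_an i u w hw).fun_mul (d.f_an hβ he s t hw))) (CD.const _))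
    fun i j w hw => by
      rw [pbC_smul, map_one, ← d.f_tr hβ s t hw, d.z_tr i j u w hw]
      congr 1
      ring

theorem not_exact [Nonempty M] (hc : ∀ u : FS A, TyF 0 0 u → dbF A u = 0 → dF A u = 0)
    (hβ : TyF p 0 β) : dbF A β ≠ d.form := fun he => by
  have h1 : ∀ s t u i, ∀ w ∈ (A.e i).target,
      d.z i u w • D (d.f β i s t) w + d.f β i s t w • D (d.z i u) w = 0 := fun s t u i w hw => by
    have h2 := hc (d.fn hβ he s t u) (fun i w hw => by
      rw [fn, FS.mk'_apply hw]; exact Submodule.smul_mem _ _ one_mem_Ty)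
      (FS.ext' fun i w hw => by
        rw [dbF_apply _ hw, fn, dbC_congr (FS.mk'_ev hw),
          dbC_hsmul ((d.z_an i u w hw).fun_mul (d.f_an hβ he s t hw)) (CD.const _), dbC_const,
          smul_zero, FS.zero_apply])
    have h3 := dF_apply (d.fn hβ he s t u) hw
    rw [h2, fn, dC_congr (FS.mk'_ev hw), Pg58.dC_smul_const
      (dif_of_an ((d.z_an i u w hw).fun_mul (d.f_an hβ he s t hw))), mul_one] at h3
    rw [← D_mul (dif_of_an (d.z_an i u w hw)) (dif_of_an (d.f_an hβ he s t hw))]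
    exact h3.symm
  obtain ⟨x⟩ := ‹Nonempty M›
  obtain ⟨i, hi⟩ := A.cover x
  have hw := (A.e i).map_source hi
  obtain ⟨s, t, h2, h3⟩ := d.nrm i _ hw
  obtain ⟨u, v, h4⟩ := d.gen i _ hw ⟨0, by have := d.hp; omega⟩
  have h5 : d.f β i s t (A.e i x) • tht (d.z i u) (d.z i v) (A.e i x) = 0 := by
    rw [tht]
    linear_combination (norm := module) d.z i u (A.e i x) • h1 s t v i _ hw -
      d.z i v (A.e i x) • h1 s t u i _ hw
  rw [h4, smul_eq_zero, or_iff_left (dz_ne _), f, κ, θ, h2, zero_mul, sub_zero, Ψ,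
    Pg58.co_smul_Om, mul_inv_cancel_right₀ (d.h_ne i _ hw)] at h5
  exact h3 h5

end exact

include d

/-- **a closed form of type `(p,1)` which is not exact** -/
theorem exists_form [Nonempty M] [CompactSpace M] {G : KP n (FS A)} {om : FS A} (c : Cmp G om)
    (hdb : G.db = dbF A) : ∃ u : FS A, TyF p 1 u ∧ dF A u = 0 ∧ ¬ ∃ v, dF A v = u := by
  have h1 : G.Ty p 1 d.form := (c.ty (p := p) (q := 1)).2 d.form_ty
  have h2 : G.db d.form = 0 := by
    rw [hdb]
    exact d.dbF_form ((c.ty (p := p) (q := 2)).1 (hdb ▸ G.ty_db h1))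
  obtain ⟨u, y, u1, y1, e⟩ := G.dolb h1 h2
  refine ⟨u, (c.ty (p := p) (q := 1)).1 u1.ty, (c.d u).symm.trans u1.cl, fun hu => ?_⟩
  obtain ⟨y', hy'⟩ := (G.ex_iff_db u1.cl u1.db).1 (c.ex.2 hu)
  have h3 : G.db (G.pr p 0 y') = u := by
    rw [G.sh_db.apply, add_zero, zero_add, hy']
    exact u1.ty
  refine d.not_exact (β := G.pr p 0 y' + y) (fun v v1 v2 => ?_)
    ((c.ty (p := p) (q := 0)).1 ((G.ty_pr p 0 y').add y1)) (by rw [← hdb, map_add, h3, e])
  rw [← c.d]
  exact (G.hol_closed (p := 0) ((c.ty (p := 0) (q := 0)).2 v1) (hdb ▸ v2)).cl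

variable {E : Type} [NormedAddCommGroup E] [NormedSpace ℝ E] [FiniteDimensional ℝ E]

theorem typH_ne [Nonempty M] [CompactSpace M] [T2Space M] [Finite A.ι] (ε : Emb A E) (K : KF A)
    (P : Part A) (hp : Even (p + 1)) : typH ε p 1 ≠ ⊥ := fun h => by
  obtain ⟨u, h1, h2, h3⟩ := d.exists_form (K.cmp P) rfl
  have h4 : toH ε ⟨u, h1.mem_ZF hp h2⟩ ∈ typH ε p 1 := ⟨_, h1, rfl⟩
  rw [h, Submodule.mem_bot, toH_eq_zero_iff] at h4
  exact h3 h4

end Dat

end Crest.Agent.X262.H31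
end
end

-- ▼ part X262/H31/Loc
section

/-!
# X262 / H31 (helper60), file Loc: the local data of a hypersurface

`Lf A` : local lifts `Z` and gradients `g`; `B = (v, Z, ∂Z)` with `v = conj g / |g|²`;
`Lf.dat : Dat A (R n → ℂ) p`.
-/

set_option autoImplicit false
set_option linter.unusedSectionVars false

open Complex Filter Topology Matrix
open scoped ContDiff ComplexConjugate

noncomputable section

namespace Crest.Agent.X262.H31

open Crest.Agent.R208.F Crest.Agent.R208.CW Crest.Agent.X262.Kah Crest.Agent.X262.Kah.Fib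
open Crest.Agent.R275.Geo (Cn dbj Atl Part)
open Crest.Agent.R275.Fm96 (dbj_hol dbj_sum dbj_sub dbj_congr dbj_const contDiffAt_dbj)
open Crest.Agent.X262.Pg58 (Om Om_mem)

variable {n : ℕ} {M : Type} [TopologicalSpace M]

section flat

variable {f g : Cn n → ℂ} {w : Cn n}

theorem contDiffAt_det {𝕜 : Type*} [NontriviallyNormedField 𝕜] [NormedAlgebra 𝕜 ℂ] {E : Type*}
    [NormedAddCommGroup E] [NormedSpace 𝕜 E] {k : WithTop ℕ∞} {ι : Type*} [Fintype ι]
    [DecidableEq ι] {B : E → Matrix ι ι ℂ} {x : E}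
    (h : ∀ a b, ContDiffAt 𝕜 k (fun y => B y a b) x) : ContDiffAt 𝕜 k (fun y => (B y).det) x := by
  simp only [det_apply']
  exact ContDiffAt.sum fun σ _ => contDiffAt_const.mul (contDiffAt_prod fun a _ => h _ _)

theorem dbj_hmul (a : Fin n) (hf : DifferentiableAt ℂ f w) (hg : DifferentiableAt ℝ g w) :
    dbj a (fun y => f y * g y) w = f w * dbj a g w := by
  have h := dbj_hol (a := a) hf
  rw [dbj_eq'] at h
  rw [dbj_eq', dbj_eq', fderiv_fun_mul (hf.restrictScalars ℝ) hg]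
  simp only [_root_.add_apply, _root_.smul_apply, smul_eq_mul]
  linear_combination g w * h

theorem pd_sum_mul {ι : Type*} [Fintype ι] (a : Fin n) {F : ι → Cn n → ℂ}
    (h : ∀ k, DifferentiableAt ℂ (F k) w) (s : ι → ℂ) :
    pd a (fun y => ∑ k, F k y * s k) w = ∑ k, pd a (F k) w * s k := by
  rw [pd, fderiv_fun_sum fun k _ => (h k).mul_const _, _root_.sum_apply]
  refine Finset.sum_congr rfl fun k _ => ?_
  rw [fderiv_mul_const (h k), _root_.smul_apply, smul_eq_mul, mul_comm, pd]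

theorem dbj_sum_mul {ι : Type*} [Fintype ι] (a : Fin n) {F : ι → Cn n → ℂ}
    (h : ∀ k, DifferentiableAt ℝ (F k) w) (s : ι → ℂ) :
    dbj a (fun y => ∑ k, F k y * s k) w = ∑ k, dbj a (F k) w * s k := by
  rw [dbj_sum fun k _ => (h k).mul_const _]
  refine Finset.sum_congr rfl fun k _ => ?_
  simp only [mul_comm _ (s k)]
  exact dbj_hmul a (differentiableAt_const _) (h k)

theorem pd_tr {φ : Cn n → Cn n} {l f' : Cn n → ℂ} (a : Fin n) (hf : DifferentiableAt ℂ f (φ w))
    (hφ : DifferentiableAt ℂ φ w) (hl : DifferentiableAt ℂ l w)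
    (e : f' =ᶠ[𝓝 w] fun y => l y * f (φ y)) :
    pd a f' w = pd a l w * f (φ w) + l w * ∑ b, mat (Dr φ w) b a * pd b f (φ w) := by
  rw [pd, e.fderiv_eq, fderiv_fun_mul hl (hf.fun_comp' w hφ), fderiv_fun_comp w hf hφ]
  simp only [_root_.add_apply, _root_.smul_apply, smul_eq_mul,
    ContinuousLinearMap.comp_apply]
  rw [sum_ep' (fderiv ℂ φ w (ep a)), map_sum, add_comm, mul_comm, pd]
  simp only [map_smul, smul_eq_mul, mat, of_apply, Dr, hφ.fderiv_restrictScalars ℝ]
  rfl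

theorem mul_eta (x : Fin n → ℂ) (y : Fin n → Fin n → ℂ) :
    (∑ c, x c • dz c) * ∑ b, ∑ a, y b a • (dzb b * iz a (Om n)) =
      -((∑ b, (∑ a, x a * y b a) • dzb b) * Om n) := by
  have h : ∀ c b a, dz c * (dzb b * iz a (Om n)) = if a = c then -(dzb b * Om n) else 0 := by
    intro c b a
    rw [← mul_assoc, show dz c * dzb b = -(dzb b * dz c) from th_anti (.inl c) (.inr b), neg_mul,
      mul_assoc, dz_iz_Om]
    split_ifs <;> simp
  simp only [Finset.sum_mul, Finset.mul_sum, smul_mul_assoc, mul_smul_comm, h, smul_ite, smul_zero,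
    Finset.sum_ite_eq, Finset.mem_univ, if_true, Finset.sum_smul, ← Finset.sum_neg_distrib]
  exact Finset.sum_congr rfl fun b _ => Finset.sum_congr rfl fun a _ => by
    rw [smul_neg, smul_neg, smul_smul, mul_comm]

end flat

/-- the index set of the homogeneous coordinates -/
abbrev R (n : ℕ) : Type := Fin 2 ⊕ Fin n

/-- lifts and gradients -/
structure Lf (A : Atl n M) where
  /-- the lifts -/
  Z : A.ι → R n → Cn n → ℂ
  /-- the gradient -/
  g : A.ι → R n → Cn n → ℂ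
  /-- the cocycle -/
  lam : A.ι → A.ι → Cn n → ℂ
  hn : n = 4
  Z_an : ∀ i k, ∀ w ∈ (A.e i).target, AnalyticAt ℂ (Z i k) w
  g_an : ∀ i k, ∀ w ∈ (A.e i).target, AnalyticAt ℂ (g i k) w
  lam_an : ∀ i j, ∀ w ∈ A.ov i j, AnalyticAt ℂ (lam i j) w
  lam_ne : ∀ i j, ∀ w ∈ A.ov i j, lam i j w ≠ 0
  Z_tr : ∀ i j k, ∀ w ∈ A.ov i j, Z i k w = lam i j w * Z j k (tr A i j w)
  g_tr : ∀ i j k, ∀ w ∈ A.ov i j, g i k w = lam i j w ^ 2 * g j k (tr A i j w)
  g_ne : ∀ i, ∀ w ∈ (A.e i).target, ∃ k, g i k w ≠ 0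
  gZ : ∀ i, ∀ w ∈ (A.e i).target, ∑ k, Z i k w * g i k w = 0
  gdZ : ∀ i, ∀ w ∈ (A.e i).target, ∀ a, ∑ k, pd a (Z i k) w * g i k w = 0
  ind : ∀ i, ∀ w ∈ (A.e i).target, ∀ (c : ℂ) (t : Fin n → ℂ),
    (∀ k, c * Z i k w + ∑ a, t a * pd a (Z i k) w = 0) → c = 0 ∧ t = 0

namespace Lf

variable {A : Atl n M} (L : Lf A)

section

variable {i j : A.ι} {w : Cn n}

/-- `|g|²` -/
def N (i : A.ι) (w : Cn n) : ℂ := ∑ k, conj (L.g i k w) * L.g i k w

/-- the normal vector -/
def v (i : A.ι) (k : R n) (w : Cn n) : ℂ := conj (L.g i k w) * (L.N i w)⁻¹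

/-- the frame -/
def B (i : A.ι) (w : Cn n) : Matrix (R n) (R n) ℂ :=
  of fun r k => Sum.elim ![L.v i k w, L.Z i k w] (fun a => pd a (L.Z i k) w) r

@[simp] theorem B_0 (k : R n) : L.B i w (.inl 0) k = L.v i k w := rfl
@[simp] theorem B_1 (k : R n) : L.B i w (.inl 1) k = L.Z i k w := rfl
@[simp] theorem B_r (a : Fin n) (k : R n) : L.B i w (.inr a) k = pd a (L.Z i k) w := rfl

theorem N_ne (hw : w ∈ (A.e i).target) : L.N i w ≠ 0 := by
  obtain ⟨k, hk⟩ := L.g_ne i w hw
  simp only [N, ← normSq_eq_conj_mul_self, ← ofReal_sum, ofReal_ne_zero]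
  exact (Finset.sum_pos' (fun l _ => normSq_nonneg (L.g i l w))
    ⟨k, Finset.mem_univ k, normSq_pos.2 hk⟩).ne'

theorem v_sm (k : R n) (hw : w ∈ (A.e i).target) : ContDiffAt ℝ ∞ (L.v i k) w := by
  have h : ∀ k, ContDiffAt ℝ ∞ (fun y => conj (L.g i k y)) w := fun k =>
    conjCLE.contDiff.contDiffAt.comp w (sm_of_an (L.g_an i k w hw))
  exact (h k).mul ((ContDiffAt.sum fun k _ => (h k).mul (sm_of_an (L.g_an i k w hw))).inv
    (L.N_ne hw))

theorem v_dif (k : R n) (hw : w ∈ (A.e i).target) : DifferentiableAt ℝ (L.v i k) w :=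
  (L.v_sm k hw).differentiableAt (by simp)

theorem vg (hw : w ∈ (A.e i).target) : ∑ k, L.v i k w * L.g i k w = 1 := by
  simp only [v, mul_right_comm _ (L.N i w)⁻¹, ← Finset.sum_mul]
  exact mul_inv_cancel₀ (L.N_ne hw)

theorem v_tr (k : R n) (hw : w ∈ A.ov i j) :
    L.v i k w = (L.lam i j w ^ 2)⁻¹ * L.v j k (tr A i j w) := by
  have h1 : L.N i w = conj (L.lam i j w ^ 2) * L.lam i j w ^ 2 * L.N j (tr A i j w) := by
    simp only [N, L.g_tr i j _ w hw, map_mul, Finset.mul_sum]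
    exact Finset.sum_congr rfl fun k _ => by ring
  have h2 : conj (L.lam i j w ^ 2) ≠ 0 := (map_ne_zero _).2 (pow_ne_zero 2 (L.lam_ne i j w hw))
  rw [v, v, h1, L.g_tr i j k w hw, map_mul, mul_inv, mul_inv]
  field_simp

theorem B_g (hw : w ∈ (A.e i).target) : L.B i w *ᵥ (L.g i · w) = Pi.single (.inl 0) 1 := by
  funext r
  rcases r with r | a
  · fin_cases r
    · exact (L.vg hw).trans (by simp)
    · exact (L.gZ i w hw).trans (by simp)
  · exact (L.gdZ i w hw a).trans (by simp)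

theorem det_ne (hw : w ∈ (A.e i).target) : (L.B i w).det ≠ 0 := fun h => by
  obtain ⟨x, hx, h1⟩ := exists_vecMul_eq_zero_iff.2 h
  have h2 : x (.inl 0) = 0 := by
    have h3 := dotProduct_mulVec x (L.B i w) (L.g i · w)
    rwa [L.B_g hw, h1, zero_dotProduct, dotProduct_single, mul_one] at h3
  obtain ⟨h3, h4⟩ := L.ind i w hw (x (.inl 1)) (fun a => x (.inr a)) fun k => by
    have h5 := congrFun h1 k
    simpa [vecMul, dotProduct, h2] using h5
  refine hx (funext fun r => ?_)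
  rcases r with r | a
  · fin_cases r
    exacts [h2, h3]
  · exact congrFun h4 a

theorem adj_g (hw : w ∈ (A.e i).target) (k : R n) :
    (L.B i w).adjugate k (.inl 0) = (L.B i w).det * L.g i k w := by
  have h := mulVec_mulVec (L.g i · w) (L.B i w).adjugate (L.B i w)
  rw [L.B_g hw, adjugate_mul, smul_mulVec, one_mulVec, mulVec_single_one] at h
  exact congrFun h k

theorem B_sm (hw : w ∈ (A.e i).target) (r k : R n) : ContDiffAt ℝ ∞ (fun y => L.B i y r k) w := by
  rcases r with r | a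
  · fin_cases r
    exacts [L.v_sm k hw, sm_of_an (L.Z_an i k w hw)]
  · exact sm_of_an (an_pd a (L.Z_an i k w hw))

theorem adj_sm (hw : w ∈ (A.e i).target) (k r : R n) :
    ContDiffAt ℝ ∞ (fun y => (L.B i y).adjugate k r) w := by
  simp only [adjugate_apply]
  refine contDiffAt_det fun a b => ?_
  simp only [updateRow_apply]
  split_ifs
  exacts [contDiffAt_const, L.B_sm hw a b]

theorem det_an (hw : w ∈ (A.e i).target) : AnalyticAt ℂ (fun y => (L.B i y).det) w := by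
  obtain ⟨k, hk⟩ := L.g_ne i w hw
  have h1 : AnalyticAt ℂ (fun y => (L.B i y).adjugate k (.inl 0)) w := by
    simp only [adjugate_apply]
    refine (contDiffAt_det (k := ω) fun a b => ?_).analyticAt
    simp only [updateRow_apply]
    split_ifs with h
    · exact contDiffAt_const
    rcases a with r | a
    · fin_cases r
      exacts [absurd rfl h, (L.Z_an i b w hw).contDiffAt]
    · exact (an_pd a (L.Z_an i b w hw)).contDiffAt
  refine (h1.fun_mul ((L.g_an i k w hw).fun_inv hk)).congr ?_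
  filter_upwards [tgt_nhds hw, (L.g_an i k w hw).continuousAt.eventually_ne hk] with y hy h2
  rw [L.adj_g hy, mul_inv_cancel_right₀ h2]

theorem det_tr (hw : w ∈ A.ov i j) : (L.B i w).det =
    L.lam i j w ^ 3 * (mat (Dtr A i j w)).det * (L.B j (tr A i j w)).det := by
  have h1 : L.B i w = fromBlocks (diagonal ![(L.lam i j w ^ 2)⁻¹, L.lam i j w]) 0
      (of fun a => ![0, pd a (L.lam i j) w]) (L.lam i j w • (mat (Dtr A i j w))ᵀ) *
        L.B j (tr A i j w) := by
    ext r k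
    rcases r with r | a
    · fin_cases r
      · simpa [mul_apply] using L.v_tr k hw
      · simpa [mul_apply] using L.Z_tr i j k w hw
    · rw [B_r, pd_tr a (L.Z_an j k _ (tr_mem hw)).differentiableAt (tr_holo hw).self_of_nhds
        (L.lam_an i j w hw).differentiableAt
        (mem_of_superset (ov_nhds hw) fun y hy => L.Z_tr i j k y hy)]
      simp [mul_apply, Finset.mul_sum, mul_assoc, Dtr]
  have h2 := L.lam_ne i j w hw
  rw [h1, det_mul, det_fromBlocks_zero₁₂, det_smul, det_transpose, det_diagonal, Fin.prod_univ_two,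
    (Fintype.card_fin n).trans L.hn]
  simp only [cons_val_zero, cons_val_one]
  field_simp

/-- the section with coefficients `s` -/
def z (i : A.ι) (s : R n → ℂ) (w : Cn n) : ℂ := ∑ k, L.Z i k w * s k

/-- the component of `v` -/
def vs (i : A.ι) (s : R n → ℂ) (w : Cn n) : ℂ := ∑ k, L.v i k w * s k

/-- the coefficients of `h ∂̄ v` in the frame -/
def c (i : A.ι) (b : Fin n) (w : Cn n) : R n → ℂ :=
  (fun k => dbj b (L.v i k) w) ᵥ* (L.B i w).adjugate

theorem z_an (s : R n → ℂ) (hw : w ∈ (A.e i).target) : AnalyticAt ℂ (L.z i s) w :=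
  Finset.analyticAt_fun_sum _ fun k _ => (L.Z_an i k w hw).fun_mul analyticAt_const

theorem vs_sm (s : R n → ℂ) (hw : w ∈ (A.e i).target) : ContDiffAt ℝ ∞ (L.vs i s) w :=
  ContDiffAt.sum fun k _ => (L.v_sm k hw).mul contDiffAt_const

theorem pd_z (s : R n → ℂ) (hw : w ∈ (A.e i).target) (a : Fin n) :
    pd a (L.z i s) w = (L.B i w *ᵥ s) (.inr a) :=
  pd_sum_mul a (fun k => (L.Z_an i k w hw).differentiableAt) s

theorem exists_dual (hw : w ∈ (A.e i).target) (r : R n) :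
    ∃ s, L.vs i s w = Pi.single (M := fun _ => ℂ) r 1 (.inl 0) ∧
      L.z i s w = Pi.single (M := fun _ => ℂ) r 1 (.inl 1) ∧
      ∀ a, pd a (L.z i s) w = Pi.single (M := fun _ => ℂ) r 1 (.inr a) := by
  have h : L.B i w *ᵥ ((L.B i w)⁻¹ *ᵥ Pi.single r 1) = Pi.single r 1 := by
    rw [mulVec_mulVec, mul_nonsing_inv _ (L.det_ne hw).isUnit, one_mulVec]
  exact ⟨_, congrFun h (.inl 0), congrFun h (.inl 1), fun a => (L.pd_z _ hw a).trans (congrFun h _)⟩

theorem c_sm (hw : w ∈ (A.e i).target) (b : Fin n) (r : R n) :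
    ContDiffAt ℝ ∞ (fun y => L.c i b y r) w := by
  simp only [c, vecMul, dotProduct]
  exact ContDiffAt.sum fun k _ => (contDiffAt_dbj (L.v_sm k hw)).mul (L.adj_sm hw k r)

theorem c_zero (hw : w ∈ (A.e i).target) (b : Fin n) : L.c i b w (.inl 0) = 0 := by
  have h1 : dbj b (fun y => ∑ k, L.g i k y * L.v i k y) w = 0 := by
    rw [dbj_congr (g := fun _ => 1) (mem_of_superset (tgt_nhds hw) fun y hy => by
      simpa only [mul_comm, Set.mem_ofPred_eq] using L.vg hy), dbj_const]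
  rw [dbj_sum fun k _ => (dif_of_an (L.g_an i k w hw)).fun_mul (L.v_dif k hw)] at h1
  simp only [fun k => dbj_hmul b (L.g_an i k w hw).differentiableAt (L.v_dif k hw)] at h1
  simp only [c, vecMul, dotProduct, L.adj_g hw]
  rw [← mul_zero (L.B i w).det, ← h1, Finset.mul_sum]
  exact Finset.sum_congr rfl fun k _ => by ring

theorem c_B (hw : w ∈ (A.e i).target) (b : Fin n) (s : R n → ℂ) :
    ∑ a, pd a (L.z i s) w * L.c i b w (.inr a) =
      (L.B i w).det * dbj b (L.vs i s) w - L.c i b w (.inl 1) * L.z i s w := by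
  have h1 := dotProduct_mulVec (L.c i b w) (L.B i w) s
  rw [c, vecMul_vecMul, adjugate_mul, vecMul_smul, vecMul_one, smul_dotProduct, ← c, dotProduct,
    Fintype.sum_sum_type, Fin.sum_univ_two, L.c_zero hw, zero_mul, zero_add] at h1
  have h2 : dbj b (L.vs i s) w = _ := dbj_sum_mul b (fun k => L.v_dif k hw) s
  rw [h2, eq_sub_iff_add_eq']
  simp only [L.pd_z s hw, mul_comm _ (L.c i b w _)]
  exact h1

end

/-- **the data** -/
def dat {p : ℕ} (hp : p + 1 = n) : Dat A (R n → ℂ) p where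
  z := L.z
  ψ i s t w := L.z i s w * L.vs i t w - L.z i t w * L.vs i s w
  h i w := (L.B i w).det
  lam := L.lam
  η i w := ∑ b, ∑ a, L.c i b w (.inr a) • (dzb b * iz a (Om n))
  hp := hp
  z_an _ s _ hw := L.z_an s hw
  h_an _ _ hw := L.det_an hw
  lam_an := L.lam_an
  ψ_sm _ s t _ hw := ((sm_of_an (L.z_an s hw)).mul (L.vs_sm t hw)).sub
    ((sm_of_an (L.z_an t hw)).mul (L.vs_sm s hw))
  η_sm _ _ hw := CD.sum fun b _ => CD.sum fun a _ => CD_fsmul
    (L.c_sm hw b (.inr a)) (CD.const _)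
  η_ty _ _ _ := Submodule.sum_mem _ fun b _ => Submodule.sum_mem _ fun a _ =>
    Submodule.smul_mem _ _ (Ty.ezb_mem b (Ty.iz_mem a (by subst hp; exact Om_mem)))
  h_ne _ _ hw := L.det_ne hw
  z_tr i j s w hw := by simp only [z, L.Z_tr i j _ w hw, Finset.mul_sum, mul_assoc]
  ψ_tr i j s t w hw := by
    have h := L.lam_ne i j w hw
    simp only [z, vs, L.Z_tr i j _ w hw, L.v_tr _ hw, mul_assoc, ← Finset.mul_sum]
    field_simp
  h_tr _ _ _ hw := L.det_tr hw
  gen i w hw a := by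
    obtain ⟨s, -, s1, -⟩ := L.exists_dual hw (.inl 1)
    obtain ⟨t, -, t1, t2⟩ := L.exists_dual hw (.inr a)
    refine ⟨s, t, ?_⟩
    rw [tht_eq (L.z_an s hw).differentiableAt (L.z_an t hw).differentiableAt]
    simp [s1, t1, t2, Pi.single_apply]
  nrm i w hw := by
    obtain ⟨s, -, s1, -⟩ := L.exists_dual hw (.inl 1)
    obtain ⟨t, t0, t1, t2⟩ := L.exists_dual hw (.inl 0)
    refine ⟨s, t, ?_, by simp [s1, t0, t1]⟩
    rw [tht_eq (L.z_an s hw).differentiableAt (L.z_an t hw).differentiableAt]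
    simp [t1, t2]
  key i s t w hw := by
    have hs := (L.z_an s hw).differentiableAt
    have ht := (L.z_an t hw).differentiableAt
    have vs := (L.vs_sm s hw).differentiableAt (by simp)
    have vt := (L.vs_sm t hw).differentiableAt (by simp)
    have h1 := (hs.restrictScalars ℝ).fun_mul vt
    have h2 := (ht.restrictScalars ℝ).fun_mul vs
    rw [tht_eq hs ht, mul_eta, dbC_Om ((((sm_of_an (L.z_an s hw)).mul (L.vs_sm t hw)).sub
      ((sm_of_an (L.z_an t hw)).mul (L.vs_sm s hw))).mul (sm_of_an (L.det_an hw)) |>.of_le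
        Kah.one_le_inf)]
    congr 3
    funext b
    congr 1
    simp only [mul_comm _ (L.B i _).det]
    rw [dbj_hmul b (L.det_an hw).differentiableAt (h1.fun_sub h2), dbj_sub h1 h2,
      dbj_hmul b hs vt, dbj_hmul b ht vs]
    simp only [sub_mul, mul_assoc, Finset.sum_sub_distrib, ← Finset.mul_sum, L.c_B hw]
    ring

end Lf

end Crest.Agent.X262.H31
end
end

-- ▼ part X262/Q74/Lft
section

/-!
# Row 262, COH (helper74): hypersurfaces as complex manifolds

* `hyp_dim`      : the dimension of a hypersurface;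
* `eval_Pr`      : the homogeneous coordinates satisfy the equation;
* `typH_ne_bot`  : a nonzero Dolbeault class gives a nonzero class of the same type;
* `Core31`, `h31_of`, `h31Stmt_of` : the analytic statement which gives `H^{3,1} ≠ 0` for a smooth cubic;
* `Lft`, `lft`, `CoreL`, `h31Stmt_ofL` : the same with the lifts read in the charts.
-/

set_option autoImplicit false

open Set Module MvPolynomial
open scoped KaehlerDifferential

noncomputable section

namespace Crest.Agent.X262.Q74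

open Crest.Agent.X277 Crest.Agent.X277.Lef Crest.Agent.X277.AN.G1
open Crest.Agent.R275.Geo Crest.Agent.R275.Core144 Crest.Agent.R273.Defs_333
open Crest.Agent.X262.Kah Crest.Agent.X262.Brg
open Crest.Agent.X262.Man (Emb em an emb)
open Crest.Agent.X262.Top (Hyp SmCub)

variable {K : Type} [Field K] [Algebra ℂ K] {N d : ℕ}

theorem aeval_div {G : MvPolynomial (Fin (N + 1)) ℂ} (Y : Hyp N G K) (i : Fin (N + 1))
    {q : MvPolynomial (Fin (N + 1)) ℂ} (hq : q.IsHomogeneous d) :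
    aeval (fun j => Y.y j / Y.y i) q = 0 ↔ G ∣ q := by
  rw [show (fun j => Y.y j / Y.y i) = (Y.y i)⁻¹ • Y.y from funext fun j => div_eq_inv_mul _ _,
    Hyp0.aeval_smul hq, mul_eq_zero, or_iff_right (pow_ne_zero _ (inv_ne_zero (Y.y_ne i))),
    Y.ker _ _ hq]

/-- the dimension of a hypersurface -/
theorem hyp_dim {G : MvPolynomial (Fin (N + 2)) ℂ} (Y : Hyp (N + 1) G K) (hG : G.IsHomogeneous d)
    (h0 : G ≠ 0) : BD.dim ℂ K = N := by
  let x : Fin (N + 1) → K := fun i => Y.y i.succ / Y.y 0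
  have e : (Fin.cons 1 x : Fin (N + 2) → K) = fun j => Y.y j / Y.y 0 := funext fun j =>
    Fin.cases (div_self (Y.y_ne 0)).symm (fun _ => rfl) j
  have hk : RingHom.ker (aeval x : MvPolynomial (Fin (N + 1)) ℂ →ₐ[ℂ] K) =
      Ideal.span {Cubic.deh G} := by
    ext p
    rw [RingHom.mem_ker, Ideal.mem_span_singleton]
    refine ⟨fun hp => ?_, ?_⟩
    · rw [← Cubic.deh_hom (le_refl p.totalDegree), ← Hyp0.aeval_cons, e,
        aeval_div Y 0 (Cubic.hom_isHomogeneous _ p)] at hp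
      exact Cubic.deh_hom (le_refl p.totalDegree) ▸ map_dvd Cubic.deh hp
    · rintro ⟨r, rfl⟩
      rw [map_mul, ← Hyp0.aeval_cons, e, (aeval_div Y 0 hG).2 dvd_rfl, zero_mul]
  have h1 : Cubic.deh G ≠ 0 := fun h =>
    h0 (Cubic.eq_of_deh hG (isHomogeneous_zero _ _ d) (by rw [h, map_zero]))
  have h2 : Prime (Cubic.deh G) :=
    (Ideal.span_singleton_prime h1).1 (hk ▸ RingHom.ker_isPrime _)
  have h3 : (aeval x : MvPolynomial (Fin (N + 1)) ℂ →ₐ[ℂ] K).range = Y.P.A 0 := by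
    rw [← Algebra.adjoin_range_eq_range_aeval]
    refine le_antisymm (Algebra.adjoin_mono ?_) (Algebra.adjoin_le ?_)
    · rintro _ ⟨i, rfl⟩
      exact ⟨i.succ, rfl⟩
    · rintro _ ⟨j, rfl⟩
      refine Fin.cases ?_ (fun i => Algebra.subset_adjoin ⟨i, rfl⟩) j
      simp only [div_self (Y.y_ne 0)]
      exact one_mem _
  have h4 := (((Ideal.quotientEquivAlgOfEq ℂ hk.symm).trans
    (Ideal.quotientKerEquivRange _)).trans (Subalgebra.equivOfEq _ _ h3)).trdeg_eq
  have := finite_kaehler Y.P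
  have := Y.P.isFractionRing 0
  rw [Cubic.trdeg_quot h2, ← Cubic.trdeg_frac ℂ (Y.P.A 0) K, Jet.trdeg_eq] at h4
  exact_mod_cast h4.symm

theorem SmCub.ne_zero {G : MvPolynomial (Fin 6) ℂ} (hG : SmCub G) : G ≠ 0 := by
  rintro rfl
  obtain ⟨i, hi⟩ := hG.2 1 one_ne_zero (map_zero _)
  simp at hi

theorem cub_dim {G : MvPolynomial (Fin 6) ℂ} (Y : Hyp 5 G K) (hG : SmCub G) : BD.dim ℂ K = 4 :=
  hyp_dim (N := 4) Y hG.1 (SmCub.ne_zero hG)

/-- the homogeneous coordinates satisfy the equation -/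
theorem eval_Pr {G : MvPolynomial (Fin (N + 1)) ℂ} {Y : Hyp N G K} (hG : G.IsHomogeneous d) {n : ℕ}
    (X : AnP Y.P n) (α : X.A.ι) (x : Pts Y.P) (hx : x ∈ (X.A.e α).source) :
    eval (X.Pr.F α x) G = 0 := by
  have h := ev_aeval (X.sub α x hx) G
  rw [(aeval_div Y _ hG).2 dvd_rfl, ← funext (ev_y (X.sub α x hx))] at h
  exact h.symm.trans (lp x).v_zero

section

variable {n : ℕ} {M : Type} [TopologicalSpace M] [T2Space M] [CompactSpace M] {A : Atl n M}
  [Finite A.ι] {E : Type} [NormedAddCommGroup E] [NormedSpace ℝ E] [FiniteDimensional ℝ E]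



end





/-! ### local lifts read in the charts -/

/-- local holomorphic lifts of a smooth hypersurface -/
structure Lft {n N : ℕ} {M : Type} [TopologicalSpace M] (A : Atl n M)
    (G : MvPolynomial (Fin N) ℂ) where
  /-- the lifts -/
  Z : A.ι → Cn n → Fin N → ℂ
  /-- the coordinate which is one -/
  r : A.ι → Fin N
  hol : ∀ i, ∀ z ∈ (A.e i).target, ∀ k, AnalyticAt ℂ (fun w => Z i w k) z
  tr : ∀ i j, ∀ z ∈ A.ov i j, ∀ a b, Z j (tr A i j z) a * Z i z b = Z j (tr A i j z) b * Z i z a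
  one : ∀ i, ∀ z ∈ (A.e i).target, Z i z (r i) = 1
  zero : ∀ i, ∀ z ∈ (A.e i).target, eval (Z i z) G = 0
  ind : ∀ i, ∀ z ∈ (A.e i).target, ∀ (c : ℂ) (t : Fin n → ℂ),
    (∀ k, c * Z i z k + ∑ a, t a * fderiv ℂ (fun w => Z i w k) z (Fib.ep a) = 0) → c = 0 ∧ t = 0
  grad : ∀ i, ∀ z ∈ (A.e i).target, ∃ k, eval (Z i z) (pderiv k G) ≠ 0

/-- the lifts of a smooth cubic -/
def lft {G : MvPolynomial (Fin 6) ℂ} {Y : Hyp 5 G K} (hG : SmCub G) {n : ℕ} (X : AnP Y.P n) :
    Lft X.A G where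
  Z i w := X.Pr.F i ((X.A.e i).symm w)
  r := X.r
  hol i z hz k := by
    have hx := (X.A.e i).map_target hz
    have h := AnP.analyticAt_ev hx (y_mem (X.sub i _ hx) k)
    rwa [(X.A.e i).right_inv hz] at h
  tr i j z hz a b := by
    obtain ⟨c, hc⟩ := X.Pr.tr i j _ ⟨(X.A.e i).map_target hz.1, hz.2⟩
    rw [symm_tr hz, hc, Pi.smul_apply, Pi.smul_apply, smul_eq_mul, smul_eq_mul]
    ring
  one i z _ := by
    rw [AnP.Pr_F, div_self (Y.y_ne _)]
    exact LP.v_one _
  zero i z hz := eval_Pr hG.1 X i _ ((X.A.e i).map_target hz)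
  ind i z hz c t h := by
    have hx := (X.A.e i).map_target hz
    have hd : ∀ k, DifferentiableAt ℂ (fun w => X.Pr.F i ((X.A.e i).symm w) k) z := fun k => by
      have h := AnP.diffAt hx (y_mem (X.sub i _ hx) k)
      rwa [(X.A.e i).right_inv hz] at h
    have h1 := X.Pr.imm i z hz (∑ a, t a • Fib.ep a) ⟨-c, funext fun k => by
      rw [fderiv_pi hd, ContinuousLinearMap.pi_apply, map_sum, Pi.smul_apply, smul_eq_mul,
        neg_mul, eq_neg_iff_add_eq_zero, add_comm]
      simpa only [map_smul, smul_eq_mul] using h k⟩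
    have h2 : t = 0 := funext fun a => by
      simpa [Fib.ep_apply, Finset.sum_apply] using congrArg (fun v : Cn n => v a) h1
    obtain ⟨k, hk⟩ := Function.ne_iff.1 (X.Pr.ne i _ hx)
    have h3 := h k
    simp only [h2, Pi.zero_apply, zero_mul, Finset.sum_const_zero, add_zero] at h3
    exact ⟨(mul_eq_zero.1 h3).resolve_right hk, h2⟩
  grad i z hz := hG.2 _ (X.Pr.ne i _ ((X.A.e i).map_target hz))
    (eval_Pr hG.1 X i _ ((X.A.e i).map_target hz))

/-- the analytic core in terms of lifts -/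
def CoreL : Prop := ∀ (M : Type) [TopologicalSpace M] [T2Space M] [CompactSpace M]
  [ConnectedSpace M] (A : Atl 4 M) [Finite A.ι] (G : MvPolynomial (Fin 6) ℂ) (_ : Lft A G)
  (E : Type) [NormedAddCommGroup E] [NormedSpace ℝ E] [FiniteDimensional ℝ E] (ε : Emb A E)
  (_ : KF A) (_ : Part A), G.IsHomogeneous 3 → typH ε 3 1 ≠ ⊥

theorem h31_embL (h : CoreL) {G : MvPolynomial (Fin 6) ℂ} {Y : Hyp 5 G K} (hG : SmCub G) {n : ℕ}
    (X : AnP Y.P n) : typH (emb X) 3 1 ≠ ⊥ := by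
  obtain rfl : 4 = n := (cub_dim Y hG).symm.trans (Man.dim_eq X)
  have := Man.connectedP Y.P
  exact h _ X.A G (lft hG X) _ _ (KF.ofKah (R273.FS_333.fsKah X.Pr)) X.PA hG.1

theorem h31Stmt_ofL (h : CoreL) (c1 : ∀ X : Coh.SV, BD ℂ X.F → Man.HP X.P)
    (Lam : ∀ X : Coh.SV, AddSubgroup (Man.HP X.P)) : Chn.H31Stmt (Man.thOf typP c1 Lam) :=
  fun _ hG _ _ _ _ => h31_embL h hG _

end Crest.Agent.X262.Q74
end
end

-- ▼ part X262/H31/Main
section

/-!
# X262 / H31 (helper60), file Main: `H^{3,1}` of a smooth cubic fourfold is not zero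

* `coreL : Q74.CoreL`;  `h31Stmt : Chn.H31Stmt (thOf typP c1 Lam)`;  `h31 : Hx56.H31 (..)`.
-/

set_option autoImplicit false

open Filter Topology MvPolynomial

noncomputable section

namespace Crest.Agent.X262.H31

open Crest.Agent.X277 Crest.Agent.X262.Kah Crest.Agent.X262.Kah.Fib
open Crest.Agent.R275.Geo (Cn Atl Part)
open Crest.Agent.X262.Q74 (Lft)

section

variable {n : ℕ} {σ : Type} [Fintype σ] {F : σ → Cn n → ℂ} {w : Cn n}

omit [Fintype σ] in
theorem an_eval (h : ∀ k, AnalyticAt ℂ (F k) w) (q : MvPolynomial σ ℂ) :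
    AnalyticAt ℂ (fun y => eval (fun k => F k y) q) w := by
  induction q using MvPolynomial.induction_on with
  | C a => simpa only [eval_C] using analyticAt_const
  | add p q hp hq => simpa only [map_add] using hp.fun_add hq
  | mul_X p k hp => simpa only [map_mul, eval_X] using hp.fun_mul (h k)

theorem pd_eval (h : ∀ k, AnalyticAt ℂ (F k) w) (a : Fin n) (q : MvPolynomial σ ℂ) :
    pd a (fun y => eval (fun k => F k y) q) w =
      ∑ k, pd a (F k) w * eval (fun k => F k w) (pderiv k q) := by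
  classical
  induction q using MvPolynomial.induction_on with
  | C a => simp [pd]
  | add p q hp hq =>
    simp only [map_add, mul_add, Finset.sum_add_distrib, ← hp, ← hq]
    rw [pd, fderiv_fun_add (an_eval h p).differentiableAt (an_eval h q).differentiableAt]
    rfl
  | mul_X p k hp =>
    simp only [map_mul, eval_X, Derivation.leibniz, smul_eq_mul, map_add, pderiv_X, mul_add,
      Finset.sum_add_distrib, mul_left_comm _ (F k w), ← Finset.mul_sum, ← hp]
    rw [pd, fderiv_fun_mul (an_eval h p).differentiableAt (h k).differentiableAt]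
    simp [pd, Pi.single_apply, apply_ite, mul_comm]

end

variable {M : Type} [TopologicalSpace M] {A : Atl 4 M} {G : MvPolynomial (Fin 6) ℂ}

/-- the lifts with the gradient -/
def lf (L : Lft A G) (hG : G.IsHomogeneous 3) : Lf A where
  Z i k w := L.Z i w (finSumFinEquiv k)
  g i k w := eval (L.Z i w) (pderiv (finSumFinEquiv k) G)
  lam i j w := L.Z i w (L.r j)
  hn := rfl
  Z_an i k w hw := L.hol i w hw _
  g_an i k w hw := an_eval (L.hol i w hw) _
  lam_an i j w hw := L.hol i w hw.1 _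
  lam_ne i j w hw h := by
    have h1 := L.tr i j w hw (L.r j) (L.r i)
    rw [L.one j _ (tr_mem hw), L.one i w hw.1, h, mul_zero, mul_one] at h1
    exact one_ne_zero h1
  Z_tr i j k w hw := by
    have h1 := L.tr i j w hw (L.r j) (finSumFinEquiv k)
    rwa [L.one j _ (tr_mem hw), one_mul, mul_comm] at h1
  g_tr i j k w hw := by
    have h1 : L.Z i w = L.Z i w (L.r j) • L.Z j (tr A i j w) := funext fun k => by
      have h1 := L.tr i j w hw (L.r j) k
      rwa [L.one j _ (tr_mem hw), one_mul, mul_comm] at h1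
    conv_lhs => rw [h1]
    exact Brg.Hyp0.aeval_smul (K := ℂ) hG.pderiv _ _
  g_ne i w hw := by
    obtain ⟨k, hk⟩ := L.grad i w hw
    exact ⟨finSumFinEquiv.symm k, by rwa [Equiv.apply_symm_apply]⟩
  gZ i w hw := by
    have h := congrArg (eval (L.Z i w)) hG.sum_X_mul_pderiv
    simp only [map_sum, map_mul, eval_X, map_nsmul, L.zero i w hw, smul_zero] at h
    exact ((finSumFinEquiv (m := 2) (n := 4)).sum_comp
      fun k => L.Z i w k * eval (L.Z i w) (pderiv k G)).trans h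
  gdZ i w hw a := by
    have h := pd_eval (L.hol i w hw) a G
    rw [pd, Filter.EventuallyEq.fderiv_eq (f := fun _ => 0)
      (mem_of_superset (tgt_nhds hw) fun y hy => L.zero i y hy), fderiv_fun_const] at h
    exact ((finSumFinEquiv (m := 2) (n := 4)).sum_comp
      fun k => pd a (fun y => L.Z i y k) w * eval (L.Z i w) (pderiv k G)).trans h.symm
  ind i w hw c t h := L.ind i w hw c t fun k => by
    have h1 := h (finSumFinEquiv.symm k)
    rwa [Equiv.apply_symm_apply] at h1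

theorem coreL : Q74.CoreL := fun _ _ _ _ _ _ _ _ L _ _ _ _ ε K P hG =>
  ((lf L hG).dat (p := 3) rfl).typH_ne ε K P (by decide)

/-- **`H^{3,1} ≠ 0`** -/
theorem h31Stmt (c1 : ∀ X : Coh.SV, BD ℂ X.F → Man.HP X.P)
    (Lam : ∀ X : Coh.SV, AddSubgroup (Man.HP X.P)) : Chn.H31Stmt (Man.thOf typP c1 Lam) :=
  Q74.h31Stmt_ofL coreL c1 Lam


end Crest.Agent.X262.H31
end
end

-- ▼ part X262/Top/Fin1

/-!
# Row 262, top level (helper70): the de Rham theory is plugged in
-/

set_option autoImplicit false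

namespace Crest.Agent.X262.Top.Final

/-- the Künneth formula for a projective space in the de Rham theory -/
theorem kunp : Gwb.KUNP Coh.th := fun X Y hX z => PD.th_kunp X Y hX z

/-- the theorem from the roots and the certificate -/
theorem main_of1 (hR : ∀ C : Coh.Th, C.Ax → Gwb.KUNP C → Chn.RootStmt C) (hC : St91.CertStmt) :
    Top.Main :=
  main_of Coh.ax_th (H31.h31Stmt _ _) (hR _ Coh.ax_th kunp) hC

end Crest.Agent.X262.Top.Final
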