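import Crest.Agent.X262.Cc46.Main_Mg
import Crest.Agent.X262.Num64.Dsc
import Crest.Agent.X262.Vb.Ax0
import Crest.Agent.X262.Ends.Pl
import Crest.Agent.X262.Tr89.Pb
import Crest.Agent.X262.Vb37.Univ
import Crest.Agent.X262.Ends.Defs
import Crest.Agent.X262.Vb.Bas0
import Crest.Agent.X262.Hb.Bas
import Crest.Agent.X262.Vb.Res
import Crest.Agent.X262.Gen42.Two
import Crest.Agent.X262.Vb37.Mob
import Crest.Agent.X262.Ends.Rees
import Crest.Agent.X262.Geo.Val
import Crest.Agent.R003.Kr576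
import Crest.Agent.R276.FGSub_595
import Crest.Agent.X262.Str37.Dvz_Mg
import Crest.Agent.X262.PD.Pt_Mg
import Crest.Agent.X262.Emb11.Main_Mg
import Crest.Agent.X262.Emb96.Main_Mg
import Crest.Agent.X262.Sym65.Two
import Crest.Agent.X262.Gwb59.Conc
import Crest.Agent.X262.PrdA18.Main_Mg
import Crest.Agent.X262.Rb6.Main_Mg
import Crest.Agent.X262.Pf19.Main_Mg
import Crest.Agent.X262.Pic28.Main_Mg
import Crest.Agent.X262.Nf68.Main
import Crest.Agent.X262.Ex91.Dat
import Crest.Agent.X262.Nc29.Dat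
import Crest.Agent.X262.Cert21.Sm
import Crest.Agent.X262.Top.Fin1

-- ▼ part X262/Cd62/Uc
section

/-!
# Row 262, road B (helper62): concavity at field level, unconditional
-/

namespace Crest.Agent.X262.Cd62

/-- **concavity at field level** -/
theorem concF : Conc78.ConcF := concF_of Cc46.cStmt

end Crest.Agent.X262.Cd62
end

-- ▼ part X262/Num64/Main
section

/-!
# Row 262, road B, ENDS (helper64), part 2: the number of the swept family is positive

* `count`      : the dimension count on a component;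
* `term`       : the contribution of a component of good reduction is a natural number;
* `numStmt_of` : `RbStmt → PosStmt → GoodStmt → TermStmt → ExStmt → NumStmt`.
-/

set_option autoImplicit false
set_option linter.unusedSectionVars false

noncomputable section

namespace Crest.Agent.X262.Num64

open Crest.Agent.X277 Crest.Agent.X277.BD Crest.Agent.X277.Pst Crest.Agent.X277.BD.Cyc Polynomial
open Crest.Agent.X262.Hb Crest.Agent.X262.Vb Crest.Agent.X262.Ends
open Crest.Agent.X262.Geo (od od_eq_zero od_nonneg essFT_Rf dim_Rf')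
open Crest.Agent.X262.Tree87 (GoodS)
open Crest.Agent.R273.FG_259 (essFiniteType_of_le)

/-- the dimension count on a component -/
theorem count {R : Type} [Field R] [Algebra ℂ R] [Algebra.EssFiniteType ℂ R]
    (F : IntermediateField ℂ R) [CharZero F] [Algebra.EssFiniteType ℂ F]
    [Algebra.EssFiniteType F R] {P : Type} [Fintype P] {U : Submodule F (P → F)} {u : P → R}
    (hu : u ∈ mapS (IsScalarTower.toAlgHom ℂ F R) U) (h0 : u ≠ 0) {n : ℕ} (h1 : dim ℂ F ≤ n)
    (h2 : Module.finrank F U + n ≤ dim ℂ R + 1) :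
    ∃ r, Module.finrank F U = r + 1 ∧ r + dim ℂ F ≤ dim ℂ R ∧
      (dim ℂ R ≤ dim ℂ (F ⊔ qf ℂ u : IntermediateField ℂ R) →
        dim ℂ F = n ∧ 0 < bnum (List.replicate r (mxf F u))) := by
  have h3 := dim_qf_le hu h0
  obtain ⟨r, hr⟩ : ∃ r, Module.finrank F U = r + 1 := ⟨Module.finrank F U - 1, by omega⟩
  refine ⟨r, hr, by omega, fun h4 => ?_⟩
  have := essFiniteType_of_le (qf F u)
  have := essFiniteType_of_le (F ⊔ qf ℂ u : IntermediateField ℂ R)
  have : Algebra.EssFiniteType ℂ (qf F u) := Algebra.EssFiniteType.comp ℂ F _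
  have : Algebra.EssFiniteType (qf F u) R := Algebra.EssFiniteType.of_comp F _ _
  have : CharZero (qf F u) := algebraRat.charZero _
  have h5 : F ⊔ qf ℂ u ≤ (qf F u).restrictScalars ℂ :=
    sup_le (fun x hx => (qf F u).algebraMap_mem ⟨x, hx⟩) (IntermediateField.adjoin_le_iff.2 (by
      rintro _ ⟨i, j, rfl⟩
      exact div_mem_qf (k := F) u i j))
  let α : (F ⊔ qf ℂ u : IntermediateField ℂ R) →ₐ[ℂ] qf F u :=
    { toFun := fun x => ⟨x, h5 x.2⟩
      map_one' := rfl
      map_mul' := fun _ _ => rfl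
      map_zero' := rfl
      map_add' := fun _ _ => rfl
      commutes' := fun _ => rfl }
  have h6 := dim_le α
  have h7 := dim_tow ℂ F (qf F u)
  have h8 := dim_tow ℂ F R
  have h9 := dim_tow F (qf F u) R
  have h10 : Algebra.IsAlgebraic (qf F u) R := trdeg_eq_zero_iff.1 (by
    rw [trdeg_eq_dim, show dim (qf F u) R = 0 by omega, Nat.cast_zero])
  refine ⟨by omega, bnum_pos (by rw [List.length_replicate]; omega) fun x hx => ?_⟩
  rw [List.eq_of_mem_replicate hx]
  exact ⟨(va_mxf h10).nef, (va_mxf h10).big⟩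

variable {J : Type} [Fintype J] [DecidableEq J] {io : J → Type} [∀ j, Fintype (io j)]
  [∀ j, DecidableEq (io j)] {A : Type} [Fintype A] {K L I M : Type} [Field K] [Algebra ℂ K]
  [Algebra.EssFiniteType ℂ K] [Field L] [Algebra ℂ L] [Algebra.EssFiniteType ℂ L] [Fintype I]
  [Fintype M] {B : Th} {T : Tgt io A} {d ν : J → ℕ} {j₁ : J} {c N : ℕ} {S : Syz T}
  {f : (j : J) → io j → K[X]} {η : Dat io d I L} {m : M → I} {a₁ a₂ a₃ : M}

theorem mcls_lin (hB : B.Ax) (q₀ : M) : MCls B T (lin B ν j₁ q₀) where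
  scl E _ _ _ y c h1 h2 h3 := by
    simp only [lin, fun j q => (cls_hc (T := T) hB j).scl E (y q) (c q) (h1 q) (h2 q) (h3 q)]
  nat K E _ _ _ _ _ _ p y h1 h2 := by
    simp only [lin, map_mul, map_prod, map_pow,
      fun j q => (cls_hc (T := T) hB j).nat K E p (y q) (h1 q) (h2 q)]

/-- the three marks are rational -/
theorem exists_marks (hM : Fintype.card M = 3) (h₁ : η.x (m a₁) = none) (h₂ : η.x (m a₂) = some 0)
    (h₃ : η.x (m a₃) = some 1) {E : Type} [Field E] [Algebra ℂ E] (p : Pl ℂ L ℂ E) (F : Type)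
    [Field F] [Algebra F E] : ∃ x : M → Option F, x a₁ = none ∧ x a₂ = some 0 ∧ x a₃ = some 1 ∧
      ∀ q, rx p (η.x (m q)) = (x q).map (algebraMap F E) := by
  classical
  have h12 : a₁ ≠ a₂ := by rintro rfl; simp [h₁] at h₂
  have h13 : a₁ ≠ a₃ := by rintro rfl; simp [h₁] at h₃
  have h23 : a₂ ≠ a₃ := by rintro rfl; simp [h₂] at h₃
  have h : ({a₁, a₂, a₃} : Finset M) = Finset.univ := Finset.eq_univ_of_card _
    (hM ▸ Finset.card_eq_three.2 ⟨_, _, _, h12, h13, h23, rfl⟩)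
  refine ⟨fun q => if q = a₁ then none else if q = a₂ then some 0 else some 1, by simp,
    by simp [h12.symm], by simp [h13.symm, h23.symm], fun q => ?_⟩
  have hq := h ▸ Finset.mem_univ q
  simp only [Finset.mem_insert, Finset.mem_singleton] at hq
  rcases hq with rfl | rfl | rfl
  · simp [h₁, rx]
  · simp [h₂, rx, h12.symm]
  · simp [h₃, rx, h13.symm, h23.symm]

/-- **the contribution of a component of good reduction** -/
theorem term (hR : RbStmt) (hP : PosStmt) (hT : TermStmt) (hB : B.Ax) (hS : GoodS S c d)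
    (hN : Tree87.Big S N) (hL : Line T d ν j₁ f) (hk : Ends.Rk T d (∑ j, ν j) f) (q₀ : M)
    (hη : η.NrmUp N) (hM : Fintype.card M = 3) (h₁ : η.x (m a₁) = none)
    (h₂ : η.x (m a₂) = some 0) (h₃ : η.x (m a₃) = some 1) (hd : dim ℂ L = mdim io d 3)
    {W : RZ ℂ L} (hW : Dvs W) {s : J → L} {g : (j : J) → io j → (Rf W)[X]}
    (hg : GR (plV W) η.f s g) (hm : Mb d f g) {τ : L}
    (hτ : ∀ y, τ * eqc T d (scf s η.f) y ∈ W.1) {u : Cx T d → Rf W}
    (hu : ∀ y, u y = (plV W).r (τ * eqc T d (scf s η.f) y)) (h0 : u ≠ 0) :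
    ∃ n : ℕ, B.itg (Rf W) (trm B T η.cfg m (lin B ν j₁ q₀) W) = n ∧
      (dim ℂ (Rf W) ≤ dim ℂ (cfl g ⊔ qf ℂ u : IntermediateField ℂ (Rf W)) → n ≠ 0) := by
  have := essFT_Rf hW
  have := essFiniteType_of_le (cfl g)
  have : Algebra.EssFiniteType (cfl g) (Rf W) := Algebra.EssFiniteType.of_comp ℂ _ _
  have : CharZero (cfl g) := algebraRat.charZero _
  obtain ⟨g₀, e, hm₀⟩ := mb_desc hL hg.one hm
  obtain ⟨h4, h5, h6, h7⟩ := hR T c d ν j₁ f S hS hL hk _ g₀ hm₀
  have h8 := dim_of_top (cfl_eq_top e)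
  obtain ⟨x, x₁, x₂, x₃, hx⟩ := exists_marks hM h₁ h₂ h₃ (plV W) (cfl g)
  obtain ⟨h9, h10⟩ := hT B hB T c d S N hS hN η m hη W hW g₀ s x h4 h5 (e.symm ▸ hg) hx τ hτ u hu h0
  obtain ⟨r, hr, h11, h12⟩ := count (cfl g) h9 h0 (h8 ▸ h6) (by rw [← dim_Rf' hW, hd]; omega)
  obtain ⟨h13, h14⟩ := hP B hB (io := io) ν j₁ q₀ (cfl g)
  obtain ⟨n, hn⟩ := h13 fun q => pt d g₀ (x q)
  obtain ⟨b, hb⟩ := Int.eq_ofNat_of_zero_le (bnum_nonneg (l := List.replicate r (mxf (cfl g) u))
    fun x hx => List.eq_of_mem_replicate hx ▸ (free_mxf u).nef)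
  refine ⟨b * n, by rw [h10 _ r (mcls_lin hB q₀) hr h11, hn, hb]; simp, fun h => ?_⟩
  obtain ⟨h15, h16⟩ := h12 h
  have h17 := h14 T d f hL g₀ x a₁ a₂ a₃ hm₀ hM x₁ x₂ x₃ h15 h8
  rw [hn] at h17
  rw [hb] at h16
  exact mul_ne_zero (by omega) (by exact_mod_cast h17)

/-- every component contributes a natural number -/
theorem term_nat (hR : RbStmt) (hP : PosStmt) (hG : GoodStmt) (hT : TermStmt) (hB : B.Ax)
    (hS : GoodS S c d) (hN : Tree87.Big S N) (hL : Line T d ν j₁ f)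
    (hk : Ends.Rk T d (∑ j, ν j) f) (q₀ : M) (hη : η.NrmUp N) (hM : Fintype.card M = 3)
    (h₁ : η.x (m a₁) = none) (h₂ : η.x (m a₂) = some 0) (h₃ : η.x (m a₃) = some 1)
    (hd : dim ℂ L = mdim io d 3) (W : RZ ℂ L) (hW : Dvs W) : ∃ n : ℕ,
      (od W (η.cfg.dv T) : ℂ) * B.itg (Rf W) (trm B T η.cfg m (lin B ν j₁ q₀) W) = n := by
  by_cases h4 : (η.cfg.dv T).val W = 1
  · exact ⟨0, by simp [(od_eq_zero hW).2 h4]⟩
  by_cases h5 : (lin B ν j₁ q₀ (Rf W) fun q => (η.cfg.red (plV W)).y (m q)) = 0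
  · exact ⟨0, by simp [trm, h5]⟩
  obtain ⟨s, g, hg, hm⟩ := hG B hB T d ν j₁ f hL hN.k_le η m q₀ a₁ a₂ a₃ hη hM h₁ h₂ h₃ (LP.at W)
    (on_at η.cfg_nz h4) h5
  obtain ⟨y, h6, h7⟩ := Tree87.exists_prim W fun h0 =>
    h4 (by rw [Cfg.dv_of_on T ((on_iff_eqc hη hN.k_le (GR.ne hg)).2 h0), val_zero])
  obtain ⟨n, hn, -⟩ := term hR hP hT hB hS hN hL hk q₀ hη hM h₁ h₂ h₃ hd hW hg hm h7
    (fun _ => rfl) fun h0 => by
      have h8 := congrFun h0 y
      rw [inv_mul_cancel₀ h6, Pl.r_one] at h8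
      exact one_ne_zero h8
  obtain ⟨o, ho⟩ := Int.eq_ofNat_of_zero_le (od_nonneg (V := W) (Cfg.dv_nonneg T η.cfg_nz))
  exact ⟨o * n, by rw [hn, ho]; simp⟩

/-- **the number of the swept family is positive** -/
theorem numStmt_of (hR : RbStmt) (hP : PosStmt) (hG : GoodStmt) (hT : TermStmt) (hE : ExStmt) :
    NumStmt := by
  intro B hB J _ _ io _ _ A _ T c d ν j₁ K _ _ _ f hg hL hk M _ q₀ hM
  obtain ⟨N₀, hv⟩ := hg.vir_eq hB
  obtain ⟨hF, S, hS⟩ := hg
  obtain ⟨N₁, hN₁⟩ := Tree87.exists_big S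
  obtain ⟨K', _, _, _, ξ', hξ'⟩ := Vb37.exists_univ' (M := M) (Vb37.cp_cond hL.cp) hM.ge
  obtain ⟨L, K₀, _, _, _, _, _, _, θ, n, ξ, η, hθ, hξ, e, ho, hη⟩ :=
    HasUniv.exists ⟨K', _, _, ξ', hξ'⟩ (max N₀ N₁)
  have hN := hN₁ _ (le_max_right N₀ N₁)
  have h1 := hv _ (mcls_lin (T := T) (ν := ν) (j₁ := j₁) hB q₀) ho
    (Vb10.nrmUp_mono hη (le_max_left _ _))
  have hd : dim ℂ L = mdim io d 3 := by
    have h := hξ.2.2
    rw [trdeg_eq_dim, hM] at h
    rw [(deg_pos_iff θ).1 hθ]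
    exact_mod_cast h
  obtain ⟨a₁, a₂, a₃, x₁, x₂, x₃⟩ := hξ.1
  have hx : ∀ q, η.x (Sum.inl q) = (ξ.x q).map θ := congrFun (congrArg Dat.x e)
  have h₁ : η.x (Sum.inl a₁) = none := by simp [hx, x₁]
  have h₂ : η.x (Sum.inl a₂) = some 0 := by simp [hx, x₂]
  have h₃ : η.x (Sum.inl a₃) = some 1 := by simp [hx, x₃]
  obtain ⟨W, s, g, τ, u, hW, h2, h3, h4, h5, h6, h7⟩ := hE T d ν j₁ f hF hL ξ θ hξ hM hθ
  rw [← show η.f = (ξ.map θ).f from congrArg Dat.f e] at h2 h4 h5
  obtain ⟨n₀, h8, h9⟩ := term hR hP hT hB hS hN hL hk q₀ hη hM h₁ h₂ h₃ hd hW h2 h3 h4 h5 h6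
  obtain ⟨h10, h11, -⟩ := hR T c d ν j₁ f S hS hL hk _ g h3
  have h12 : od W (η.cfg.dv T) ≠ 0 := (od_eq_zero hW).not.2
    ((Cfg.on_red_iff T (lnr_plV W) η.cfg_nz fun h => h6 (_root_.funext fun y => by
      rw [h5, (on_iff_eqc hη hN.k_le (GR.ne (p := plV W) h2)).1 h]
      simp)).1 (on_red (p := LP.at W) h2 h10 h11))
  choose! k hk using term_nat hR hP hG hT hB hS hN hL hk q₀ hη hM h₁ h₂ h₃ hd
  have h13 := fs_vir hB (mcls_lin (T := T) (ν := ν) (j₁ := j₁) hB q₀) η.cfg_nz Sum.inl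
  have h14 : (od W (η.cfg.dv T) : ℂ) *
      B.itg (Rf W) (trm B T η.cfg Sum.inl (lin B ν j₁ q₀) W) ≠ 0 :=
    mul_ne_zero (by exact_mod_cast h12) (by rw [h8]; exact_mod_cast h9 h7)
  have h15 : vir B T η.cfg Sum.inl (lin B ν j₁ q₀) = (∑ V ∈ h13.toFinset, k V : ℕ) := by
    rw [Nat.cast_sum]
    exact (Sym65.sm_sum (fun V hV => (h13.mem_toFinset.1 hV).1) fun V h h' =>
      h13.mem_toFinset.2 ⟨h, h'⟩).trans
      (Finset.sum_congr rfl fun V hV => hk V (h13.mem_toFinset.1 hV).1)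
  have h16 : 0 < ∑ V ∈ h13.toFinset, k V := Finset.sum_pos' (fun _ _ => Nat.zero_le _)
    ⟨W, h13.mem_toFinset.2 ⟨hW, h14⟩, Nat.pos_of_ne_zero fun h => h14 (by
      rw [hk W hW, h, Nat.cast_zero])⟩
  refine ⟨(∑ V ∈ h13.toFinset, k V : ℕ) / (deg θ : ℕ), by positivity, ?_⟩
  have h17 : (deg θ : ℂ) ≠ 0 := by exact_mod_cast hθ.ne'
  rw [Complex.ofReal_div, Complex.ofReal_natCast, Complex.ofReal_natCast, ← h15, h1,
    mul_div_cancel_left₀ _ h17]

end Crest.Agent.X262.Num64
end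
end

-- ▼ part X262/NumPos/Main
section

/-!
# Row 262, road B, ENDS (helper14): positivity of the insertion

* `exists_list` : a product of hyperplane classes on a generically finite cover of a product;
* `posStmt`     : `Ends.PosStmt`.
-/

set_option autoImplicit false
set_option linter.unusedSectionVars false
set_option linter.style.haveILetI false

noncomputable section

namespace Crest.Agent.X262.NumPos

open Crest.Agent.X277 Crest.Agent.X277.BD Polynomial
open Crest.Agent.X262.Hb Crest.Agent.X262.Vb Crest.Agent.X262.Ends Crest.Agent.X262.Vb37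
open Crest.Agent.X262.Tr89 (pc pc_cons pc_nil pc_append fib lin_mxf_div)
open Crest.Agent.X262.Bub96 (hv)
open Crest.Agent.X262.Loc (eftSub dim_self dim_tower)
open List (replicate)
open IntermediateField (adjoin)
open Matrix

section Num

variable {k F : Type} [Field k] [Field F] [Algebra k F] [CharZero k] [Algebra.EssFiniteType k F]
  {J : Type}

/-- multilinear expansion -/
theorem exists_exp (s : Finset J) (h : J → BD k F) : ∀ (m : ℕ) (l : List (BD k F)),
    bnum (replicate m (∑ j ∈ s, h j) ++ l) ≠ 0 →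
    ∃ L : List J, L.length = m ∧ (∀ j ∈ L, j ∈ s) ∧ bnum (L.map h ++ l) ≠ 0
  | 0, _, h0 => ⟨[], rfl, by simp, h0⟩
  | m + 1, l, h0 => by
    rw [List.replicate_succ, List.cons_append, bnum_sum] at h0
    obtain ⟨j, hj, h1⟩ := Finset.exists_ne_zero_of_sum_ne_zero h0
    rw [bnum_perm List.perm_middle.symm] at h1
    obtain ⟨L, h2, h3, h4⟩ := exists_exp s h m _ h1
    exact ⟨j :: L, by simp [h2], List.forall_mem_cons.2 ⟨hj, h3⟩, by
      rwa [List.map_cons, List.cons_append, bnum_perm List.perm_middle.symm]⟩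

theorem zero_mxf {ι : Type} [Fintype ι] {y : ι → F} (hy : ∃ i, y i ≠ 0) {m : ℕ}
    (hm : dim k (qf k y) < m) (l : List (BD k F)) : bnum (replicate m (mxf k y) ++ l) = 0 := by
  obtain ⟨i, hi⟩ := hy
  have h1 : Lin (mxf k y) (pb (qf k y).val (mxf k fun j => ⟨y j / y i, div_mem_qf y i j⟩)) := by
    rw [pb_mxf]
    exact lin_mxf_div hi ⟨i, hi⟩
  rw [bnum_comm, Loc.bnum_rep_lin h1, bnum_comm, ← List.map_replicate,
    bnum_pb_zero _ (by simpa using hm)]

theorem sum_count [Fintype J] [DecidableEq J] (L : List J) : ∑ j, L.count j = L.length := by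
  simpa using Multiset.sum_count_eq_card (s := Finset.univ) (m := (L : Multiset J)) (by simp)

/-- a product of hyperplane classes on a generically finite cover of a product -/
theorem exists_list [Fintype J] [DecidableEq J] {ι : J → Type} [∀ j, Fintype (ι j)]
    (y : ∀ j, ι j → F) (ν : J → ℕ) (hnz : ∀ j, ν j ≠ 0 → ∃ i, y j i ≠ 0)
    (hd : ∀ j, ν j ≠ 0 → dim k (qf k (y j)) ≤ ν j) (hn : ∑ j, ν j = dim k F)
    (halg : ∀ x : F, IsAlgebraic (adjoin k {t | ∃ j i i', ν j ≠ 0 ∧ t = y j i / y j i'}) x) :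
    ∃ L : List J, (∀ j, L.count j = ν j) ∧ bnum (L.map fun j => mxf k (y j)) ≠ 0 := by
  let s := Finset.univ.filter fun j => ν j ≠ 0
  have hf : ∀ s : Finset J, Free (∑ j ∈ s, mxf k (y j)) := fun s => Free.sum _ fun _ _ => free_mxf _
  have hb : Big (∑ j ∈ s, mxf k (y j)) := by
    refine big_of_alg (hf s).eff ⟨fun x => isAlg_mono ?_ (halg x)⟩
    refine IntermediateField.adjoin_le_iff.2 ?_
    rintro _ ⟨j, i, i', hj, rfl⟩
    obtain ⟨g, hg, h0⟩ := (hf (s.erase j)).eff
    rw [← Finset.add_sum_erase s _ (show j ∈ s by simpa [s] using hj)]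
    exact sf_le_add hg h0 (qf_le_sf _ (div_mem_qf _ _ _))
  have h1 := bnum_pos (l := replicate (dim k F) (∑ j ∈ s, mxf k (y j))) (by simp)
    (all_rp ⟨(hf s).nef, hb⟩ _)
  obtain ⟨L, h2, h3, h4⟩ := exists_exp s (fun j => mxf k (y j)) (dim k F) [] (by simpa using h1.ne')
  rw [List.append_nil] at h4
  have h5 : ∀ j, L.count j ≤ ν j := fun j => by
    by_cases hj : ν j = 0
    · rw [List.count_eq_zero_of_not_mem fun h => by simpa [s, hj] using h3 j h]
      exact Nat.zero_le _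
    · by_contra h6
      rw [bnum_perm ((List.filter_append_perm (· = j) L).symm.map _), List.filter_eq,
        List.map_append, List.map_replicate] at h4
      exact h4 (zero_mxf (hnz j hj) ((hd j hj).trans_lt (not_le.1 h6)) _)
  refine ⟨L, fun j => ?_, h4⟩
  exact (Finset.sum_eq_sum_iff_of_le fun j _ => h5 j).1 (by rw [sum_count, h2, hn]) j
    (Finset.mem_univ _)

omit [Algebra.EssFiniteType k F] in
theorem dim_simple {S : IntermediateField k F} [Algebra.EssFiniteType k S] {t : F}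
    (h : S ≤ adjoin k (Set.range fun _ : Unit => t)) : dim k S ≤ 1 :=
  haveI := Lin62.eft_of_top (Lin62.adjoin_sub (k := k) fun _ : Unit => t)
  (dim_le (IntermediateField.inclusion h)).trans
    (Lin62.dim_le_card (Lin62.adjoin_sub (k := k) fun _ : Unit => t))

end Num

section Cls

variable {B : Th} {K : Type} [Field K] [Algebra ℂ K] {J : Type} [Fintype J] [DecidableEq J]

theorem prod_eq_pc {L : List J} {ν : J → ℕ} (hL : ∀ j, L.count j = ν j) (h : J → BD ℂ K) :
    ∏ j, B.c1 (h j) ^ ν j = pc B (L.map h) := by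
  rw [pc, List.map_map, Finset.prod_list_map_count]
  refine (Finset.prod_subset (Finset.subset_univ _) fun j _ hj => ?_).symm.trans
    (Finset.prod_congr rfl fun j _ => by rw [hL]; rfl)
  rw [← hL, List.count_eq_zero_of_not_mem (by simpa using hj), pow_zero]

theorem exists_count (ν : J → ℕ) : ∃ L : List J, ∀ j, L.count j = ν j :=
  ⟨(∑ j, Multiset.replicate (ν j) j).toList, fun j => by
    rw [← Multiset.coe_count, Multiset.coe_toList, Multiset.count_sum']
    simp [Multiset.count_replicate]⟩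

theorem ty_pc (hB : B.Ax) : ∀ l : List (BD ℂ K), pc B l ∈ B.ty K l.length l.length
  | [] => hB.ty_one
  | a :: l => by
    rw [pc_cons, List.length_cons, add_comm]
    exact hB.ty_mul (hB.ty_c1 a) (ty_pc hB l)

theorem itg_pc (hB : B.Ax) [Algebra.EssFiniteType ℂ K] (l : List (BD ℂ K)) :
    B.itg K (pc B l) = bnum (l.map (up ℂ)) := by
  by_cases h : l.length ≤ dim ℂ K
  · have h1 := fib hB (K := ℂ) 1 l (by rwa [dim_self, add_zero])
    rwa [map_one, mul_one, hB.itg_one, mul_one] at h1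
  · rw [hB.ty_itg (ty_pc hB l) (Or.inl (by omega)), bnum_of_ne (by rw [List.length_map]; omega),
      Int.cast_zero]

end Cls

section Line

variable {E ι : Type} [Field E]

/-- the parameter of a point of a line is a rational function of its coordinates -/
theorem mem_of_line {k : Type} [Field k] [Algebra k E] (S : IntermediateField k E) {p : ι → E[X]}
    (h1 : ∀ i, (p i).natDegree ≤ 1) (h2 : ∀ t, ∃ i, hv 1 (p i) t ≠ 0)
    (h3 : ∀ i l, (p i).coeff l ∈ S) {t : E} (h4 : ∀ i i', (p i).eval t / (p i').eval t ∈ S) :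
    t ∈ S := by
  have he : ∀ i s, (p i).eval s = (p i).coeff 1 * s + (p i).coeff 0 := fun i s => by
    conv_lhs => rw [eq_X_add_C_of_natDegree_le_one (h1 i)]
    simp
  obtain ⟨i₀, h5⟩ := h2 none
  obtain ⟨i₁, h6⟩ := h2 (some (-(p i₀).coeff 0 / (p i₀).coeff 1))
  obtain ⟨i₂, h7⟩ := h2 (some t)
  change (p i₀).coeff 1 ≠ 0 at h5
  change (p i₁).eval _ ≠ 0 at h6
  change (p i₂).eval t ≠ 0 at h7
  have h8 : (p i₀).coeff 1 * (p i₁).coeff 0 - (p i₁).coeff 1 * (p i₀).coeff 0 ≠ 0 := fun h => h6 (by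
    rw [he]
    field_simp
    linear_combination h)
  have h9 : t = ((p i₁).coeff 0 * ((p i₀).eval t / (p i₂).eval t) -
      (p i₀).coeff 0 * ((p i₁).eval t / (p i₂).eval t)) /
      ((p i₀).coeff 1 * ((p i₁).eval t / (p i₂).eval t) -
        (p i₁).coeff 1 * ((p i₀).eval t / (p i₂).eval t)) := by
    rw [← mul_div_assoc, ← mul_div_assoc, ← mul_div_assoc, ← mul_div_assoc, ← sub_div, ← sub_div,
      div_div_div_cancel_right₀ h7, he i₀, he i₁, eq_div_iff (fun h => h8 (by linear_combination h))]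
    ring
  rw [h9]
  exact div_mem (sub_mem (mul_mem (h3 _ _) (h4 _ _)) (mul_mem (h3 _ _) (h4 _ _)))
    (sub_mem (mul_mem (h3 _ _) (h4 _ _)) (mul_mem (h3 _ _) (h4 _ _)))

theorem hv_mem {k : Type} [Field k] [Algebra k E] (S : IntermediateField k E) {p : E[X]}
    (h : ∀ l, p.coeff l ∈ S) (d : ℕ) {t : Option E} (ht : ∀ s, t = some s → s ∈ S) :
    hv d p t ∈ S := by
  cases t with
  | none => exact h d
  | some s =>
    change p.eval s ∈ S
    rw [eval_eq_sum_range]
    exact sum_mem fun l _ => mul_mem (h l) (pow_mem (ht s rfl) l)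

end Line

/-- **positivity of the insertion** -/
theorem posStmt : PosStmt := by
  intro B hB J _ _ io _ _ ν j₁ M _ q₀ E _ _ _
  classical
  refine ⟨fun y => ?_,
    fun T d K _ _ _ f hL g x a b c ⟨β, μ, s, hμ, hs, hg⟩ hM ha hb hc' hE hcf => ?_⟩
  · obtain ⟨L, hL⟩ := exists_count ν
    obtain ⟨L', hL'⟩ := exists_count fun _ : M => 1
    have h1 := prod_eq_pc (B := B) hL' fun q => ln (y q) j₁
    simp only [pow_one] at h1
    have h2 : 0 ≤ bnum ((L'.map (fun q => ln (y q) j₁) ++ L.map (ln (y q₀))).map (up ℂ)) :=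
      bnum_nonneg fun a ha => by
        simp only [List.map_append, List.map_map, List.mem_append, List.mem_map] at ha
        rcases ha with ⟨q, -, rfl⟩ | ⟨j, -, rfl⟩ <;> exact (Free.up (K := ℂ) (free_mxf _)).nef
    refine ⟨_, Eq.trans ?_ (congrArg Int.cast (Int.toNat_of_nonneg h2).symm)⟩
    rw [← itg_pc hB, pc_append, ← h1, ← prod_eq_pc hL]
    rfl
  letI : Algebra K E := β.toRingHom.toAlgebra
  haveI : IsScalarTower ℂ K E := IsScalarTower.of_algebraMap_eq fun c => (β.commutes c).symm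
  haveI : CharZero K := charZero_of_injective_algebraMap (algebraMap ℂ K).injective
  haveI : Algebra.EssFiniteType K E := Algebra.EssFiniteType.of_comp ℂ K E
  have hf := hL.cp.map (β : K →+* E)
  choose u t hu ht using fun q => exists_hx (w := μ *ᵥ hx (x q)) fun h =>
    hx_ne _ (Matrix.eq_zero_of_mulVec_eq_zero hμ h)
  have hy : ∀ q j i, pt d g (x q) j i =
      s j * u q ^ d j * hv (d j) ((f j i).map (β : K →+* E)) (t q) := fun q j i => by
    rw [pt, hg, hv_C_mul, hv_mob, ht, hev_smul, hev_hx (hf.1 j i), mul_assoc]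
  have hsu : ∀ q j, s j * u q ^ d j ≠ 0 := fun q j => mul_ne_zero (hs j) (pow_ne_zero _ (hu q))
  have hco : ∀ (S : IntermediateField K E) j i l, ((f j i).map (β : K →+* E)).coeff l ∈ S :=
    fun S j i l => by rw [coeff_map]; exact S.algebraMap_mem _
  -- the base
  have hnz : ∀ j, ν j ≠ 0 → ∃ i, (f j i).coeff 0 ≠ 0 := fun j hj => hL.zero j hj ▸ hL.cp.2.1 j
  obtain ⟨L, hL1, hL2⟩ := exists_list (k := ℂ) (fun j i => (f j i).coeff 0) ν hnz hL.dj hL.dm.symm
    fun z => isAlgebraic_algebraMap (⟨z, by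
      change z ∈ bas ν fun j i => (f j i).coeff 0
      rw [hL.gen]
      exact IntermediateField.mem_top⟩ : adjoin ℂ _)
  have h1 : ∏ j, hc B j E (pt d g (x q₀)) ^ ν j = B.pb (LP.hom (IsScalarTower.toAlgHom ℂ K E))
      (pc B (L.map fun j => mxf ℂ fun i => (f j i).coeff 0)) := by
    rw [← prod_eq_pc hL1, map_prod]
    refine Finset.prod_congr rfl fun j _ => ?_
    by_cases hj : ν j = 0
    · simp [hj]
    rw [map_pow, hB.pb_c1_hom, pb_mxf]
    have h2 : ∀ i, pt d g (x q₀) j i / (s j * u q₀ ^ d j) = β ((f j i).coeff 0) := fun i => by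
      have h3 := hL.cp.1 j i
      rw [hy, mul_div_cancel_left₀ _ (hsu q₀ j)]
      rw [hL.zero j hj] at h3 ⊢
      rw [eq_C_of_natDegree_le_zero h3]
      cases t q₀ <;> simp [hv]
    obtain ⟨i, hi⟩ := hnz j hj
    have h3 := lin_mxf_div (k := ℂ) (hsu q₀ j) (x := pt d g (x q₀) j) ⟨i, fun h =>
      (_root_.map_ne_zero β).2 hi (by rw [← h2, h, zero_div])⟩
    simp only [h2] at h3
    exact congrArg (· ^ ν j) (hB.c1_lin h3)
  -- the fibre
  have hq : ∀ q i i', pt d g (x q) j₁ i / pt d g (x q) j₁ i' =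
      hv 1 ((f j₁ i).map (β : K →+* E)) (t q) / hv 1 ((f j₁ i').map (β : K →+* E)) (t q) :=
    fun q i i' => by rw [hy, hy, mul_div_mul_left _ _ (hsu q j₁), hL.one]
  have hcp : Cp d g := _root_.funext (fun j => _root_.funext (hg j)) ▸ cp_mob hf hμ hs
  have hdK : dim K E = 3 := by
    have := dim_tower ℂ K E
    have := hL.dm
    omega
  obtain ⟨L', hL3, hL4⟩ := exists_list (k := K) (fun q => pt d g (x q) j₁) (fun _ => 1)
    (fun q _ => cp_hv hcp j₁ (x q))
    (fun q _ => dim_simple (t := (t q).getD 0) (IntermediateField.adjoin_le_iff.2 (by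
      rintro _ ⟨i, i', rfl⟩
      have h2 : ∀ i, hv 1 ((f j₁ i).map (β : K →+* E)) (t q) ∈
          adjoin K (Set.range fun _ : Unit => (t q).getD 0) := fun i =>
        hv_mem _ (hco _ _ _) _ fun s hs => IntermediateField.subset_adjoin _ _ ⟨(), by simp [hs]⟩
      rw [hq]
      exact div_mem (h2 _) (h2 _)))) (by simp [hM, hdK]) fun z => by
      set S := adjoin K {w | ∃ q i i', (1 : ℕ) ≠ 0 ∧ w = pt d g (x q) j₁ i / pt d g (x q) j₁ i'}
      have h2 : (⟨_, t, hf⟩ : Dat io d M E).Eqv ⟨g, x, hcp⟩ :=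
        ⟨μ, s, hμ, hs, hg, fun q => ⟨u q, ht q⟩⟩
      have h3 : cfl g ≤ S.restrictScalars ℂ := by
        refine le_trans (IntermediateField.adjoin.mono _ _ _ fun w hw => Or.inl hw)
          ((crd_le_of_eqv (eqv_symm h2) ⟨ha, hb, hc'⟩).trans (IntermediateField.adjoin_le_iff.2 ?_))
        rintro w (⟨j, i, i', l, l', rfl⟩ | ⟨q, hw⟩)
        · exact div_mem (hco S _ _ _) (hco S _ _ _)
        · refine mem_of_line S (hL.one ▸ hf.1 j₁) (hL.one ▸ cp_hv hf j₁) (hco S j₁) fun i i' => ?_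
          have h4 := hq q i i'
          rw [show t q = some w from hw] at h4
          exact IntermediateField.subset_adjoin _ _ ⟨q, i, i', one_ne_zero, h4.symm⟩
      haveI : Module.Finite (cfl g) E :=
        Module.finite_of_finrank_pos ((deg_pos_iff (cfl g).val).2 hcf.symm)
      exact isAlg_mono h3 (Algebra.IsAlgebraic.isAlgebraic z)
  have h2 := prod_eq_pc (B := B) hL3 fun q => ln (pt d g (x q)) j₁
  simp only [pow_one] at h2
  have h3 := length_of_ne hL4
  rw [List.length_map] at h3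
  have h4 := fib hB (pc B (L.map fun j => mxf ℂ fun i => (f j i).coeff 0))
    (L'.map fun q => ln (pt d g (x q)) j₁) (by rw [List.length_map, h3, dim_tower ℂ K E, add_comm])
  rw [← h1, ← h2, itg_pc hB, List.map_map, List.map_map] at h4
  simp only [Function.comp_def, ln, up_mxf] at h4
  refine h4.trans_ne ?_
  exact mul_ne_zero (Int.cast_ne_zero.2 hL4) (Int.cast_ne_zero.2 hL2)

end Crest.Agent.X262.NumPos
end
end

-- ▼ part X262/EndsZ/Main
section

/-!
# Row 262, road B, ENDS-ZERO (helper82): too many base classes vanish on the trees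

* `hmg`           : multihomogenisation;
* `trdeg_le_of_rel` : the transcendence degree drops under specialisation;
* `rel_base`      : the relations between the base coordinates of the line hold on the trees;
* `zeroStmt`      : `Ends.ZeroStmt`.
-/

set_option autoImplicit false
set_option linter.unusedSectionVars false

noncomputable section

namespace Crest.Agent.X262.EndsZ

open Polynomial Crest.Agent.X277 Crest.Agent.X277.BD Crest.Agent.X262.Vb Crest.Agent.X262.Hb
  Crest.Agent.X262.Ends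

variable {J : Type} [Fintype J] [DecidableEq J] {io : J → Type} [∀ j, Fintype (io j)]
  [∀ j, DecidableEq (io j)] {A : Type} [Fintype A] {K E : Type} [Field K] [Algebra ℂ K]
  [Field E] [Algebra ℂ E]

theorem mh_prod (i : ∀ j, io j) (κ : J → ℕ) :
    MH (∏ j, MvPolynomial.X (⟨j, i j⟩ : Vr io) ^ κ j) κ := by
  have h := MvPolynomial.IsWeightedHomogeneous.prod (R := ℂ) Finset.univ
    (fun j => MvPolynomial.X (⟨j, i j⟩ : Vr io) ^ κ j) (fun j => κ j • (Pi.single j 1 : J → ℕ))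
    (w := fun v => (Pi.single v.1 1 : J → ℕ))
    fun j _ => (MvPolynomial.isWeightedHomogeneous_X ℂ _ (⟨j, i j⟩ : Vr io)).pow _
  rwa [show ∑ j, κ j • (Pi.single j 1 : J → ℕ) = κ from
    _root_.funext fun j => by simp [Pi.single_apply]] at h

/-- multihomogenisation -/
theorem hmg (i : ∀ j, io j) {σ : Type} (s : σ → Vr io) (P : MvPolynomial σ ℂ) :
    ∃ q κ, MH q κ ∧ ∀ (R : Type) [CommRing R] [Algebra ℂ R] (y : (j : J) → io j → R) (z : σ → R),
      (∀ t, y (s t).1 (s t).2 = y (s t).1 (i (s t).1) * z t) →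
      MvPolynomial.aeval (fun v : Vr io => y v.1 v.2) q =
        (∏ j, y j (i j) ^ κ j) * MvPolynomial.aeval z P := by
  induction P using MvPolynomial.induction_on with
  | C c => exact ⟨MvPolynomial.C c, 0, MvPolynomial.isWeightedHomogeneous_C _ c, by simp⟩
  | add p p' hp hp' =>
    obtain ⟨q, κ, h1, h2⟩ := hp
    obtain ⟨q', κ', h3, h4⟩ := hp'
    refine ⟨_, κ + κ', (h1.mul (mh_prod i κ')).add (add_comm κ κ' ▸ h3.mul (mh_prod i κ)),
      fun R _ _ y z h => ?_⟩
    simp only [map_add, map_mul, map_prod, map_pow, MvPolynomial.aeval_X, h2 R y z h, h4 R y z h,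
      Pi.add_apply, pow_add, Finset.prod_mul_distrib]
    ring
  | mul_X p t hp =>
    obtain ⟨q, κ, h1, h2⟩ := hp
    refine ⟨_, _, h1.mul (MvPolynomial.isWeightedHomogeneous_X ℂ _ (s t)), fun R _ _ y z h => ?_⟩
    simp only [map_mul, MvPolynomial.aeval_X, h2 R y z h, h t, Pi.add_apply, pow_add,
      Finset.prod_mul_distrib, Pi.single_apply, pow_ite, pow_one, pow_zero, Finset.prod_ite_eq',
      Finset.mem_univ, if_true]
    ring

open scoped IntermediateField.algebraAdjoinAdjoin in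
/-- the transcendence degree drops under specialisation -/
theorem trdeg_le_of_rel {σ : Type} {z : σ → K} {w : σ → E}
    (h : ∀ P : MvPolynomial σ ℂ, MvPolynomial.aeval z P = 0 → MvPolynomial.aeval w P = 0) :
    Algebra.trdeg ℂ (IntermediateField.adjoin ℂ (Set.range w)) ≤ Algebra.trdeg ℂ K := by
  have : FaithfulSMul ℂ (Algebra.adjoin ℂ (Set.range w)) :=
    (faithfulSMul_iff_algebraMap_injective _ _).2 (algebraMap ℂ _).injective
  rw [← trdeg_add_eq ℂ (Algebra.adjoin ℂ (Set.range w)), trdeg_eq_zero (R := Algebra.adjoin ℂ _),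
    add_zero, Algebra.adjoin_range_eq_range_aeval]
  refine (trdeg_le_of_surjective _ (AlgHom.liftOfSurjective_surjective _
    (MvPolynomial.aeval z).rangeRestrict_surjective _ (fun P hP => ?_)
    (MvPolynomial.aeval w).rangeRestrict_surjective)).trans
    (trdeg_le_of_injective (Subalgebra.val _) Subtype.val_injective)
  exact Subtype.ext (h P (congrArg Subtype.val hP))

variable {T : Tgt io A} {d ν : J → ℕ} {j₁ : J} {f : (j : J) → io j → K[X]} {y : Pnt io E}

theorem tree_nz {M : Type} {z : M → Pnt io E} (h : TreePts T d z) (q : M) : NZ (z q) := fun j => by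
  obtain ⟨L, _, _, _, α, t, x, c, h1, -, -, h4, h5⟩ := h
  obtain ⟨i, hi⟩ := nz_ev t h1 (x q) j
  exact ⟨i, fun h0 => mul_ne_zero (h4 q j) hi (by rw [← h5, h0, map_zero])⟩




end Crest.Agent.X262.EndsZ
end
end

-- ▼ part X262/EndsZ/Van
section

/-!
# Row 262, road B, ENDS (helper82): vanishing by dimension

* `dim_le_add` : the dimension of a subfield of `β(K)(x)`;
* `vanStmt`    : `Ends.VanStmt`;
* `sq_of`      : `Ends.SqStmt` from `Ends.ParStmt`.
-/

set_option autoImplicit false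
set_option linter.unusedSectionVars false

noncomputable section

namespace Crest.Agent.X262.EndsZ

open Polynomial Crest.Agent.X277 Crest.Agent.X277.BD Crest.Agent.X262.Vb Crest.Agent.X262.Hb
  Crest.Agent.X262.Ends
open Crest.Agent.X262.Bub96 (hv)

variable {J : Type} [Fintype J] [DecidableEq J] {io : J → Type} [∀ j, Fintype (io j)]
  [∀ j, DecidableEq (io j)] {A : Type} [Fintype A] {K E : Type} [Field K] [Algebra ℂ K]
  [Field E] [Algebra ℂ E]

open scoped IntermediateField.algebraAdjoinAdjoin in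
theorem trdeg_adjoin_le [Algebra K E] {ι : Type} [Fintype ι] (x : ι → E) :
    Algebra.trdeg K (IntermediateField.adjoin K (Set.range x)) ≤ Fintype.card ι := by
  have : FaithfulSMul K (Algebra.adjoin K (Set.range x)) :=
    (faithfulSMul_iff_algebraMap_injective _ _).2 (algebraMap K _).injective
  rw [← trdeg_add_eq K (Algebra.adjoin K (Set.range x)), trdeg_eq_zero (R := Algebra.adjoin K _),
    add_zero, Algebra.adjoin_range_eq_range_aeval]
  simpa using trdeg_le_of_surjective _ (MvPolynomial.aeval (R := K) x).rangeRestrict_surjective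

/-- the dimension of a subfield of `β(K)(x)` -/
theorem dim_le_add [Algebra.EssFiniteType ℂ K] (β : K →ₐ[ℂ] E) {ι : Type} [Fintype ι] (x : ι → E)
    (F : IntermediateField ℂ E) [Algebra.EssFiniteType ℂ F]
    (h : ∀ G : IntermediateField ℂ E, (∀ a, β a ∈ G) → (∀ i, x i ∈ G) → F ≤ G) :
    dim ℂ F ≤ dim ℂ K + Fintype.card ι := by
  let _ := (β : K →+* E).toAlgebra
  have : IsScalarTower ℂ K E := .of_algebraMap_eq fun c => (β.commutes c).symm
  have h1 := h ((IntermediateField.adjoin K (Set.range x)).restrictScalars ℂ)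
    (fun a => (IntermediateField.adjoin K (Set.range x)).algebraMap_mem a)
    fun i => IntermediateField.subset_adjoin K _ ⟨i, rfl⟩
  have h2 : Algebra.trdeg ℂ F ≤ Algebra.trdeg ℂ (IntermediateField.adjoin K (Set.range x)) :=
    trdeg_le_of_injective (IntermediateField.inclusion h1) (IntermediateField.inclusion h1).injective
  rw [← trdeg_add_eq ℂ K (A := IntermediateField.adjoin K (Set.range x)), trdeg_eq_dim (F := K),
    trdeg_eq_dim (F := F)] at h2
  exact_mod_cast h2.trans (add_le_add le_rfl (trdeg_adjoin_le x))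

instance eft_bas (ν : J → ℕ) (y : Pnt io E) : Algebra.EssFiniteType ℂ (bas ν y) :=
  essFT_adjoin' ((Set.finite_range fun p : Σ j, io j × io j => y p.1 p.2.1 / y p.1 p.2.2).subset
    fun _ ⟨j, i, i', _, h⟩ => ⟨⟨j, i, i'⟩, h.symm⟩)

theorem div_mem_bas {ν : J → ℕ} (y : Pnt io E) {j : J} (h : ν j ≠ 0) (i i' : io j) :
    y j i / y j i' ∈ bas ν y := IntermediateField.subset_adjoin _ _ ⟨j, i, i', h, rfl⟩

/-- **VAN** -/
theorem vanStmt : VanStmt := by
  intro B hB J _ _ io _ _ ν E _ _ y hy h2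
  choose i hi using id hy
  let a : J → BD ℂ (bas ν y) := fun j => if h : ν j ≠ 0 then mxf ℂ fun s : io j =>
    (⟨_, div_mem_bas y h s (i j)⟩ : bas ν y) else 0
  have h4 : ∀ j, hc B j E y ^ ν j = B.pb (LP.hom (bas ν y).val) (B.c1 (a j) ^ ν j) := fun j => by
    by_cases h : ν j = 0
    · rw [h, pow_zero, pow_zero, map_one]
    · have h4 := ln_scl hy (c := fun j => (y j (i j))⁻¹) (fun j => inv_ne_zero (hi j)) j
      rw [map_pow, hB.pb_c1_hom, show a j = _ from dif_pos h, pb_mxf, hc,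
        ← add_zero (B.c1 (ln y j)), ← hB.c1_pr (y j (i j))⁻¹, ← map_add, ← h4]
      exact congrArg (fun u => B.c1 (mxf ℂ u) ^ ν j)
        (_root_.funext fun s => (div_eq_inv_mul (y j s) (y j (i j))).symm)
  have h5 : ∏ j, B.c1 (a j) ^ ν j ∈ B.ty (bas ν y) (∑ j, ν j) (∑ j, ν j) := by
    refine Finset.induction_on (motive := fun s : Finset J =>
      ∏ j ∈ s, B.c1 (a j) ^ ν j ∈ B.ty (bas ν y) (∑ j ∈ s, ν j) (∑ j ∈ s, ν j)) Finset.univ
      (by simpa using hB.ty_one) fun j s hj ih => ?_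
    rw [Finset.prod_insert hj, Finset.sum_insert hj]
    exact hB.ty_mul (by simpa using hB.ty_pow (hB.ty_c1 (a j)) (ν j)) ih
  simp only [h4]
  rw [← map_prod, hB.ty_zero h5 (.inl h2), map_zero]

theorem hv_mem (β : K →ₐ[ℂ] E) {G : IntermediateField ℂ E} (h : ∀ a, β a ∈ G) {t : Option E}
    (ht : t.getD 0 ∈ G) (n : ℕ) (f : K[X]) : hv n (f.map (β : K →+* E)) t ∈ G := by
  rcases t with _ | t
  · simpa [hv] using h _
  · rw [hv, eval_map, eval₂_eq_sum_range]
    exact sum_mem fun l _ => mul_mem (h _) (pow_mem ht _)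

/-- **SQ** -/
theorem sq_of (hP : ParStmt) : SqStmt := by
  intro B hB J _ _ io _ _ A _ T d ν j₁ K _ _ _ f hL E _ _ y hy
  rcases lt_or_ge (dim ℂ (bas ν y)) (∑ j, ν j) with h | h
  · rw [vanStmt B hB ν E y hy.1 h, mul_zero]
  obtain ⟨β, t, c, h1, h2⟩ := (hP T d ν j₁ f hL E y hy).2 h
  have h3 := dim_le_add β (fun _ : Unit => t.getD 0) (bas (Pi.single j₁ 2 + ν) y) fun G h3 h4 =>
    IntermediateField.adjoin_le_iff.2 (by
      rintro _ ⟨j, i, i', -, rfl⟩
      rw [h2, h2, mul_div_mul_left _ _ (h1 j)]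
      exact div_mem (hv_mem β h3 (h4 ()) _ _) (hv_mem β h3 (h4 ()) _ _))
  have h4 := vanStmt B hB (Pi.single j₁ 2 + ν) E y hy.1 (h3.trans_lt (by
    simp [hL.dm, Finset.sum_add_distrib]
    omega))
  simp only [Pi.add_apply, pow_add, Finset.prod_mul_distrib] at h4
  simpa [Pi.single_apply, pow_ite] using h4

end Crest.Agent.X262.EndsZ
end
end

-- ▼ part X262/EndsZ/Red
section

/-!
# Row 262, road B, ENDS (helper82): good reduction of a datum

* `hv_red`, `prim_gc`, `redP_gc`, `le_iff` : reduction of points and of values of forms;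
* `rdat`      : the reduced datum;
* `geqN_red`  : the reduction of the configuration is the configuration of the reduced datum;
* `nrmUp_red` : the reduced datum is norming.
-/

set_option autoImplicit false
set_option linter.unusedSectionVars false

noncomputable section

namespace Crest.Agent.X262.EndsZ

open Polynomial Crest.Agent.X277 Crest.Agent.X277.BD Crest.Agent.X277.BD.Cyc Crest.Agent.X262.Vb
  Crest.Agent.X262.Hb Crest.Agent.X262.Ends
open Crest.Agent.X262.Bub96 (hv hv_C_mul hv_none hv_some)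
open Crest.Agent.X262.Bub96.Tr (dot)
open Crest.Agent.X262.Gen42 (PR exists_pr top_est r_congr)
open Crest.Agent.X262.Node22 (chr chr_ne scl)

variable {J : Type} [Fintype J] [DecidableEq J] {io : J → Type} [∀ j, Fintype (io j)]
  [∀ j, DecidableEq (io j)] {A I : Type} [Fintype A] [Fintype I] {K L E : Type} [Field K]
  [Algebra ℂ K] [Field L] [Algebra ℂ L] [Field E] [Algebra ℂ E] {p : Pl ℂ L ℂ E} {d κ : J → ℕ}
  {f : (j : J) → io j → L[X]} {s : J → L} {g : (j : J) → io j → E[X]} {σ : L[X]} {τ : E[X]}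
  {n N : ℕ}

open Classical in
/-- the scalar which normalises a point of the line -/
def bx (p : Pl ℂ L ℂ E) : Option L → L
  | none => 1
  | some t => if t ∈ p.V.1 then 1 else t⁻¹

theorem bx_ne (x : Option L) : bx p x ≠ 0 := by
  rcases x with _ | t
  · exact one_ne_zero
  · rw [bx]
    split_ifs with h
    exacts [one_ne_zero, inv_ne_zero fun h0 => h (h0 ▸ zero_mem _)]

theorem hv_red (h : PR p σ τ) (hd : σ.natDegree ≤ n) (x : Option L) :
    bx p x ^ n * hv n σ x ∈ p.V.1 ∧ p.r (bx p x ^ n * hv n σ x) = hv n τ (rx p x) := by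
  rcases x with _ | t
  · simpa [bx, rx] using h n
  · by_cases ht : t ∈ p.V.1
    · simpa [bx, rx, ht] using h.eval ht
    · have h1 := r_congr (h n).1 (top_est h.le hd (not_le.1 fun h2 => ht (RZ.le_one_iff.1 h2)))
      simpa [bx, rx, ht, (h n).2] using h1

/-- the primitive gauge -/
def gc (p : Pl ℂ L ℂ E) (s : J → L) (d : J → ℕ) (x : Option L) : J → L :=
  fun j => s j * bx p x ^ d j

theorem chr_gc (x : Option L) : chr (gc p s d x) κ = chr s κ * bx p x ^ dot κ d := by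
  simp only [chr, gc, mul_pow, Finset.prod_mul_distrib, ← pow_mul, Finset.prod_pow_eq_pow_sum, dot,
    mul_comm (d _)]

theorem s_ne (h : GR p f s g) (j : J) : s j ≠ 0 := fun h0 => by
  obtain ⟨i, l, h1⟩ := h.one j
  rw [← h.red, h0, zero_mul, Pl.r_zero] at h1
  exact zero_ne_one h1

theorem gc_ne (h : GR p f s g) (x : Option L) (j : J) : gc p s d x j ≠ 0 :=
  mul_ne_zero (s_ne h j) (pow_ne_zero _ (bx_ne x))

theorem pr_gr (h : GR p f s g) (j : J) (i : io j) : PR p (C (s j) * f j i) (g j i) := fun l => by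
  rw [coeff_C_mul]
  exact ⟨h.mem j i l, h.red j i l⟩

theorem red_gc (h : GR p f s g) (hd : ∀ j i, (f j i).natDegree ≤ d j) (x : Option L) (j : J)
    (i : io j) : scl (gc p s d x) (pt d f x) j i ∈ p.V.1 ∧
      p.r (scl (gc p s d x) (pt d f x) j i) = pt d g (rx p x) j i := by
  have h1 := hv_red (pr_gr h j i) ((natDegree_C_mul_le _ _).trans (hd j i)) x
  rwa [hv_C_mul, mul_left_comm, ← mul_assoc] at h1

theorem redP_gc (h : GR p f s g) (hd : ∀ j i, (f j i).natDegree ≤ d j) (x : Option L) :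
    redP p (scl (gc p s d x) (pt d f x)) = pt d g (rx p x) :=
  _root_.funext fun j => _root_.funext fun i => (red_gc h hd x j i).2

theorem prim_gc (h : GR p f s g) (hd : ∀ j i, (f j i).natDegree ≤ d j) (cp : Cp d g)
    (x : Option L) : Prim p.V (scl (gc p s d x) (pt d f x)) := fun j =>
  ⟨fun i => (red_gc h hd x j i).1, ((Bub96.cop_of_cp cp).2 j (rx p x)).imp fun i hi =>
    Pl.r_ne_zero_iff.1 ((red_gc h hd x j i).2.trans_ne hi)⟩

theorem v_le_res {a : BD ℂ L} (ha : a.val p.V = 1) {x : L} (hx : x ∈ p.V.1) (Z : RZ ℂ E) :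
    (p.cm Z).v x ≤ a.val (p.cm Z) ↔ Z.v (p.r x) ≤ (p.res a).val Z := by
  rw [Pl.val_res_gen ha, ← Pl.v_le_iff hx (Pl.unit_of_gen ha (v_gen _ _)), v_gen]

theorem le_scl {y : Pnt io L} (hy : NZ y) {c : J → L} (hc : ∀ j, c j ≠ 0) (W : RZ ℂ L) (u : L) :
    W.v u ≤ (lw κ y).val W ↔ W.v (chr c κ * u) ≤ (lw κ (scl c y)).val W := by
  rw [lw_scl hy hc, val_add, val_pr (chr_ne hc κ), map_mul, mul_comm ((lw κ y).val W),
    mul_le_mul_iff_right₀ (RZ.pos (chr_ne hc κ))]

theorem nz_pt (hf : Cp d f) (x : Option L) : NZ (pt d f x) := fun j => (Bub96.cop_of_cp hf).2 j x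

theorem le_iff_mem (h : GR p f s g) (hf : Cp d f) (cp : Cp d g) (x : Option L) (u : L) :
    p.V.v u ≤ (lw κ (pt d f x)).val p.V ↔ chr (gc p s d x) κ * u ∈ p.V.1 := by
  rw [le_scl (nz_pt hf x) (gc_ne h x), (prim_gc h hf.1 cp x).val_lw,
    RZ.le_one_iff]

theorem le_iff (h : GR p f s g) (hf : Cp d f) (cp : Cp d g) (hσ : PR p (C (chr s κ) * σ) τ)
    (hd : σ.natDegree ≤ dot κ d) (x : Option L) (Z : RZ ℂ E) :
    (p.cm Z).v (hv (dot κ d) σ x) ≤ (lw κ (pt d f x)).val (p.cm Z) ↔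
      Z.v (hv (dot κ d) τ (rx p x)) ≤ (lw κ (pt d g (rx p x))).val Z := by
  have h1 := hv_red hσ ((natDegree_C_mul_le _ _).trans hd) x
  rw [hv_C_mul, mul_left_comm, ← mul_assoc, ← chr_gc] at h1
  have h2 := prim_gc h hf.1 cp x
  rw [le_scl (nz_pt hf x) (gc_ne h x), v_le_res (h2.val_lw κ) h1.1, h1.2,
    ← lw_red h2, redP_gc h hf.1]

/-- the reduced datum -/
def rdat (η : Dat io d I L) (p : Pl ℂ L ℂ E) (cp : Cp d g) : Dat io d I E :=
  ⟨g, fun q => rx p (η.x q), cp⟩

variable {η : Dat io d I L}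

/-- a form whose values at the norming points are integral is integral -/
theorem exists_pr_of (h : GR p η.f s g) (cp : Cp d g) (hκ : η.Nrm κ) (hd : σ.natDegree ≤ dot κ d)
    (hi : ∀ q, chr (gc p s d (η.x q)) κ * hv (dot κ d) σ (η.x q) ∈ p.V.1) :
    ∃ τ, PR p (C (chr s κ) * σ) τ := by
  have h1 := hκ L (AlgHom.id ℂ L) p.V σ hd
  rw [Dat.map_id] at h1
  refine exists_pr (Drop30.le_of_eval (Gen42.Rd.triv p.V) fun u hu => ?_)
  have h2 := (le_iff_mem h η.cp cp (some u) _).1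
    (h1 (fun q => (le_iff_mem h η.cp cp _ _).2 (hi q)) (some u))
  rw [chr_gc, bx, if_pos (RZ.le_one_iff.1 hu.le), one_pow, mul_one] at h2
  rw [eval_mul, eval_C]
  exact RZ.le_one_iff.2 h2

theorem pr_cfg (h : GR p η.f s g) (cp : Cp d g) : (η.cfg.gau fun q => gc p s d (η.x q)).Pr p.V :=
  fun q => prim_gc h η.cp.1 cp (η.x q)

theorem red0_y (h : GR p η.f s g) (cp : Cp d g) :
    (rdat η p cp).cfg.y = ((η.cfg.gau fun q => gc p s d (η.x q)).red0 p).y :=
  _root_.funext fun q => (redP_gc h η.cp.1 (η.x q)).symm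

theorem red0_V (h : GR p η.f s g) (cp : Cp d g) (hκ : η.Nrm κ) :
    (rdat η p cp).cfg.V κ = ((η.cfg.gau fun q => gc p s d (η.x q)).red0 p).V κ := by
  classical
  have e : ∀ (σ : L[X]) q, chr (gc p s d (η.x q)) κ * hv (dot κ d) σ (η.x q) =
      bx p (η.x q) ^ dot κ d * hv (dot κ d) (C (chr s κ) * σ) (η.x q) := fun σ q => by
    rw [chr_gc, hv_C_mul]
    ring
  refine le_antisymm ?_ (redS_le ?_)
  · change Submodule.map _ _ ≤ _
    rw [degreeLE_eq_span_X_pow]
    refine Submodule.map_le_iff_le_comap.2 (Submodule.span_le.2 ?_)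
    rintro _ hl'
    obtain ⟨l, hl, rfl⟩ := Finset.mem_image.1 hl'
    have h1 : (X ^ l : L[X]).natDegree ≤ dot κ d := by
      rw [natDegree_X_pow]
      exact Nat.lt_succ_iff.1 (Finset.mem_range.1 hl)
    have h2 : PR p (X ^ l) (X ^ l) := fun m => by
      rw [coeff_X_pow, coeff_X_pow]
      split_ifs
      exacts [⟨one_mem _, p.r_one⟩, ⟨zero_mem _, p.r_zero⟩]
    have h3 := fun q => hv_red h2 h1 (η.x q)
    have h4 : C (chr s κ) * (C (chr s κ)⁻¹ * X ^ l) = X ^ l := by
      rw [← mul_assoc, ← C_mul, mul_inv_cancel₀ (chr_ne (s_ne h) κ), C_1, one_mul]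
    have h5 := mem_redS p (U := (η.cfg.gau fun q => gc p s d (η.x q)).V κ)
      (scl_mem (Dat.mem_cfg.2 ⟨_, (natDegree_C_mul_le (chr s κ)⁻¹ _).trans h1, rfl⟩)) fun q => by
        change chr _ κ * _ ∈ _
        rw [e, h4]
        exact (h3 q).1
    change (fun q => hv (dot κ d) (X ^ l) (rx p (η.x q))) ∈ redS p _
    convert h5 using 2 with q
    exact (h3 q).2.symm.trans (congrArg p.r ((e _ q).trans (by rw [h4])).symm)
  · rintro _ ⟨_, hu, rfl⟩ hi
    obtain ⟨σ, hσ, rfl⟩ := Dat.mem_cfg.1 hu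
    obtain ⟨τ, hτ⟩ := exists_pr_of h cp hκ hσ hi
    have h1 := (natDegree_C_mul_le (chr s κ) _).trans hσ
    refine Dat.mem_cfg.2 ⟨τ, hτ.natDegree_le.trans h1, _root_.funext fun q => ?_⟩
    refine (hv_red hτ h1 (η.x q)).2.symm.trans ?_
    rw [← e]
    rfl

/-- **good reduction of the configuration** -/
theorem geqN_red (h : GR p η.f s g) (cp : Cp d g) (hN : η.NrmUp N) :
    Cfg.GeqN N (η.cfg.red p) (rdat η p cp).cfg :=
  (((Cfg.geq_gau _ fun q => gc_ne h (η.x q)).red_red0 (pr_cfg h cp)).geqN N).trans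
    (Cfg.GeqN.of_eq (red0_y h cp) fun κ hκ => red0_V h cp (hN κ hκ))

theorem exists_lift (hs : Function.Surjective p.φ) (τ : E[X]) :
    ∃ σ : L[X], σ.natDegree ≤ τ.natDegree ∧ PR p σ τ := by
  choose u hu using hs
  refine ⟨∑ l ∈ Finset.range (τ.natDegree + 1), monomial l (u (τ.coeff l)),
    natDegree_sum_le_of_forall_le _ _ fun l hl => (natDegree_monomial_le _).trans
      (Nat.lt_succ_iff.1 (Finset.mem_range.1 hl)), fun l => ?_⟩
  simp only [finsetSum_coeff, coeff_monomial, Finset.sum_ite_eq', Finset.mem_range]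
  split_ifs with h1
  · exact ⟨(u _).2, (p.r_coe _).trans (hu _)⟩
  · rw [coeff_eq_zero_of_natDegree_lt (by omega), Pl.r_zero]
    exact ⟨zero_mem _, rfl⟩

theorem rx_surj (hs : Function.Surjective p.φ) : Function.Surjective (rx p) := by
  rintro (_ | e)
  · exact ⟨none, rfl⟩
  · obtain ⟨x, rfl⟩ := hs e
    exact ⟨some x, by rw [rx, if_pos x.2, p.r_coe]⟩

/-- **the reduced datum is norming** -/
theorem nrm_red (hp : Lnr p) (h : GR p η.f s g) (cp : Cp d g) (hκ : η.Nrm κ) :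
    (rdat η p cp).Nrm κ := by
  intro E' _ _ γ W τ hτ hq t
  obtain ⟨F, _, _, _, α, U, β, h1, h2, -⟩ :=
    Bub96.exists_ext ((LP.mk p hp).comp (LP.hom γ)).toPl
  rw [LP.comp_hom_V] at h1 h2
  have h3 : ∀ x, α x ∈ (plV U).V.1 ↔ x ∈ p.V.1 := fun x =>
    (mem_cm (j := (α : L →+* F)) (h := alg_ov α) (W := U)).symm.trans (by rw [h1])
  have h0 : ∀ x ∈ p.V.1, (plV U).r (α x) = β (γ (p.r x)) := fun x hx => by
    have h4 := h2 x hx
    rw [r_comp _ _ hx, r_hom] at h4
    exact h4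
  let β' : E' →ₐ[ℂ] Rf U :=
    { toRingHom := β
      commutes' := fun c => by
        have h5 := h0 _ (p.V.2 c)
        rw [α.commutes, lnr_plV, hp, γ.commutes] at h5
        exact h5.symm }
  have h4 : ∀ x ∈ p.V.1, (plV U).r (α x) = β' (γ (p.r x)) := h0
  clear_value β'
  have h5 : ∀ x, rx (plV U) (Option.map α x) = ((rx p x).map γ).map β' := by
    rintro (_ | x)
    · rfl
    · by_cases hx : x ∈ p.V.1
      · rw [Option.map_some, rx, rx, if_pos hx, if_pos ((h3 x).2 hx), h4 x hx]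
        rfl
      · rw [Option.map_some, rx, rx, if_neg hx, if_neg ((h3 x).not.2 hx)]
        rfl
  have h6 : GR (plV U) (η.map α).f (fun j => α (s j)) (((rdat η p cp).map γ).map β').f :=
    ⟨fun j i l => by
      simpa [Dat.map] using (h3 _).2 (h.mem j i l), fun j i l => by
      simpa [Dat.map, rdat, h.red] using h4 _ (h.mem j i l), fun j => by
      obtain ⟨i, l, h6⟩ := h.one j
      exact ⟨i, l, by simp [Dat.map, rdat, h6]⟩⟩
  obtain ⟨Z, rfl⟩ := cm_surjective β' W
  obtain ⟨σ, h7, h8⟩ := exists_lift (surj_plV U) (τ.map (β' : E' →+* Rf U))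
  have h9 := (natDegree_C_mul_le (chr (fun j => α (s j)) κ)⁻¹ σ).trans
    (h7.trans (natDegree_map_le.trans hτ))
  have h10 := fun x => le_iff h6 (η.map α).cp (((rdat η p cp).map γ).map β').cp
    (by rwa [← mul_assoc, ← C_mul, mul_inv_cancel₀ (chr_ne (s_ne h6) κ), C_1, one_mul]) h9 x Z
  have key : ∀ t, Z.v (hv (dot κ d) (τ.map (β' : E' →+* Rf U)) (Option.map β' t)) ≤
      (lw κ (pt d (((rdat η p cp).map γ).map β').f (t.map β'))).val Z ↔
      (cm _ (alg_ov β') Z).v (hv (dot κ d) τ t) ≤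
        (lw κ (((rdat η p cp).map γ).pt t)).val (cm _ (alg_ov β') Z) := fun t => by
    rw [show pt d _ (t.map β') = _ from Bub96.pt_map _ β' t, Bub96.lw_map,
      show t.map β' = t.map (β' : E' →+* Rf U) from rfl, Bub96.hv_map]
    exact v_le_val_mp
  obtain ⟨x, hx⟩ := rx_surj (surj_plV U) (t.map β')
  rw [← key, ← hx, ← h10]
  refine hκ F α _ _ h9 (fun q => (h10 _).2 ?_) x
  rw [show (η.map α).x q = (η.x q).map α from rfl, h5]
  exact (key _).2 (hq q)

theorem nrmUp_red (hp : Lnr p) (h : GR p η.f s g) (cp : Cp d g) (hN : η.NrmUp N) :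
    (rdat η p cp).NrmUp N := fun κ hκ => nrm_red hp h cp (hN κ hκ)

end Crest.Agent.X262.EndsZ
end
private theorem rz_f25e0a73ce : type_of% @_root_.Crest.Agent.X262.EndsZ.bx.eq_1 := @_root_.Crest.Agent.X262.EndsZ.bx.eq_1 -- L36
end

-- ▼ part X262/Ends/Red
section

/-!
# Row 262, road B, ENDS (helper25): good reduction of forms and data

* `PR p σ σ'`  : `σ'` is the coefficientwise reduction of `σ`; `PR.hv` : values reduce to values;
* `hv_pf`, `pf_map`, `pr_pf`, `pol` calculus, `hv_syz`, `KS_eq`, `KS_map`;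
* `Cst x n`    : the points contain `0, …, n`.
-/

set_option autoImplicit false
set_option linter.unusedSectionVars false

noncomputable section

namespace Crest.Agent.X262.Ends

open Crest.Agent.X277 Crest.Agent.X277.BD Crest.Agent.X277.Pst Crest.Agent.X277.BD.Cyc Polynomial
open Crest.Agent.X262.Hb Crest.Agent.X262.Vb
open Crest.Agent.X262.Bub96 (hv Tr hv_sum hv_mul hv_zero hv_add hv_smul)
open Crest.Agent.X262.Bub96.Tr (dot)
open Crest.Agent.X262.Vb37 (hev hev_smul hev_hx hv_map hv_C_mul cp_hv)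
open Crest.Agent.X262.Node22 (chr scl chr_ne pv_scl mem_Eb mem_Vt)

variable {K E L : Type} [Field K] [Algebra ℂ K] [Field E] [Algebra ℂ E] [Field L] [Algebra ℂ L]

section PR

variable {p : Pl ℂ L ℂ E} {σ : L[X]} {σ' : E[X]} {n : ℕ}

open Classical in
/-- the scalar which makes the homogeneous coordinates of a point primitive -/
def nx (V : RZ ℂ L) : Option L → L
  | none => 1
  | some t => if t ∈ V.1 then 1 else t⁻¹


theorem r_hx (p : Pl ℂ L ℂ E) : ∀ (t : Option L) (i : Fin 2),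
    (nx p.V t • hx t) i ∈ p.V.1 ∧ p.r ((nx p.V t • hx t) i) = hx (rx p t) i
  | none, i => by fin_cases i <;> simp [nx, rx, hx]
  | some t, i => by
    by_cases h : t ∈ p.V.1
    · fin_cases i <;> simp [nx, rx, hx, h]
    · have h0 : t ≠ 0 := fun h0 => h (h0 ▸ p.V.1.zero_mem)
      have h1 : p.r t = 0 := dif_neg h
      fin_cases i <;>
        simp [nx, rx, hx, h, h0, Pl.r_inv, h1, (p.V.1.mem_or_inv_mem t).resolve_left h]

theorem r_nat (p : Pl ℂ L ℂ E) (i : ℕ) : p.r i = i := by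
  rw [p.r_eq (natCast_mem _ i)]
  exact map_natCast p.φ i

theorem rx_nat (p : Pl ℂ L ℂ E) (i : ℕ) : rx p (some (i : L)) = some (i : E) := by
  rw [rx, if_pos (natCast_mem _ i), r_nat]


/-- coefficientwise reduction -/
def PR (p : Pl ℂ L ℂ E) (σ : L[X]) (σ' : E[X]) : Prop :=
  ∀ l, σ.coeff l ∈ p.V.1 ∧ p.r (σ.coeff l) = σ'.coeff l

theorem PR.deg (h : PR p σ σ') (hσ : σ.natDegree ≤ n) : σ'.natDegree ≤ n :=
  natDegree_le_iff_coeff_eq_zero.2 fun l hl => by
    rw [← (h l).2, natDegree_le_iff_coeff_eq_zero.1 hσ l hl, Pl.r_zero]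

theorem PR.hv (h : PR p σ σ') (hσ : σ.natDegree ≤ n) (t : Option L) :
    nx p.V t ^ n * hv n σ t ∈ p.V.1 ∧ p.r (nx p.V t ^ n * hv n σ t) = hv n σ' (rx p t) := by
  have h1 := r_hx p t
  have h2 : ∀ l ∈ Finset.range (n + 1), σ.coeff l * (nx p.V t • hx t) 0 ^ l *
      (nx p.V t • hx t) 1 ^ (n - l) ∈ p.V.1 := fun l _ =>
    mul_mem (mul_mem (h l).1 (pow_mem (h1 0).1 _)) (pow_mem (h1 1).1 _)
  rw [← hev_hx hσ, ← hev_hx (h.deg hσ), ← hev_smul, hev, hev]
  refine ⟨sum_mem h2, ?_⟩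
  rw [Tree87.r_sum _ h2]
  refine Finset.sum_congr rfl fun l _ => ?_
  rw [Pl.r_mul (mul_mem (h l).1 (pow_mem (h1 0).1 _)) (pow_mem (h1 1).1 _),
    Pl.r_mul (h l).1 (pow_mem (h1 0).1 _), Pl.r_pow (h1 0).1, Pl.r_pow (h1 1).1, (h1 0).2, (h1 1).2,
    (h l).2]

theorem exists_pr (h : ∀ l, σ.coeff l ∈ p.V.1) : ∃ σ', PR p σ σ' :=
  ⟨σ.sum fun l a => monomial l (p.r a), fun l => ⟨h l, by
    rw [Polynomial.sum, finsetSum_coeff]
    simp only [coeff_monomial, Finset.sum_ite_eq', mem_support_iff]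
    split_ifs with h0
    · rfl
    · rw [notMem_support_iff.1 h0, Pl.r_zero]⟩⟩


theorem PR.add {τ : L[X]} {τ' : E[X]} (h : PR p σ σ') (h' : PR p τ τ') : PR p (σ + τ) (σ' + τ') :=
  fun l => by
    rw [coeff_add, coeff_add, Pl.r_add (h l).1 (h' l).1, (h l).2, (h' l).2]
    exact ⟨add_mem (h l).1 (h' l).1, rfl⟩

theorem PR.mul {τ : L[X]} {τ' : E[X]} (h : PR p σ σ') (h' : PR p τ τ') : PR p (σ * τ) (σ' * τ') :=
  fun l => by
    have h1 := fun (x : ℕ × ℕ) (_ : x ∈ Finset.HasAntidiagonal.antidiagonal l) =>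
      mul_mem (h x.1).1 (h' x.2).1
    rw [coeff_mul, coeff_mul, Tree87.r_sum _ h1]
    exact ⟨sum_mem h1, Finset.sum_congr rfl fun x _ => by
      rw [Pl.r_mul (h _).1 (h' _).1, (h _).2, (h' _).2]⟩

theorem pr_C {a : L} (h : a ∈ p.V.1) : PR p (C a) (C (p.r a)) := fun l => by
  rw [coeff_C, coeff_C]
  split_ifs <;> simp [h]

theorem pr_zero : PR p 0 0 := by simpa using pr_C p.V.1.zero_mem

theorem PR.sum {ι : Type*} (s : Finset ι) {τ : ι → L[X]} {τ' : ι → E[X]}
    (h : ∀ i ∈ s, PR p (τ i) (τ' i)) : PR p (∑ i ∈ s, τ i) (∑ i ∈ s, τ' i) := by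
  classical
  induction s using Finset.induction_on with
  | empty => exact pr_zero
  | insert a s ha ih =>
    rw [Finset.sum_insert ha, Finset.sum_insert ha]
    exact (h a (by simp)).add (ih fun i hi => h i (by simp [hi]))

theorem PR.uniq {τ' : E[X]} (h : PR p σ σ') (h' : PR p σ τ') : σ' = τ' :=
  Polynomial.ext fun l => (h l).2.symm.trans (h' l).2

end PR

/-- the points contain `0, …, n` -/
def Cst {I : Type} (x : I → Option E) (n : ℕ) : Prop := ∀ i : ℕ, i ≤ n → ∃ q, x q = some (i : E)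


theorem Cst.rx {I : Type} {x : I → Option L} {n : ℕ} (h : Cst x n) (p : Pl ℂ L ℂ E) :
    Cst (fun q => rx p (x q)) n := fun i hi => (h i hi).imp fun _ hq => by
  simp only [hq, rx_nat]

variable {J : Type} [Fintype J] [DecidableEq J] {io : J → Type} [∀ j, Fintype (io j)]
  [∀ j, DecidableEq (io j)] {A : Type} [Fintype A] {T : Tgt io A} {d κ : J → ℕ}
  {g : (j : J) → io j → E[X]} {q : MvPolynomial (Vr io) ℂ}

theorem hv_pf (hq : MH q κ) (hg : ∀ j i, (g j i).natDegree ≤ d j) :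
    (pf g q).natDegree ≤ dot κ d ∧ ∀ t, hv (dot κ d) (pf g q) t = pv (pt d g t) q := by
  have h1 : (∑ j, (κ j : ℤ) * d j) = (dot κ d : ℕ) := by
    simp only [dot]; push_cast; rfl
  have h2 := (Tree87.MZ.of_MH hq).sb hg
  rw [h1] at h2
  exact ⟨Tree87.DL_nat.1 h2.1, fun t => (Tree87.ev_eq_hv _ _ _).symm.trans (h2.2 t)⟩

theorem pf_map (β : E →ₐ[ℂ] L) (g : (j : J) → io j → E[X]) (q : MvPolynomial (Vr io) ℂ) :
    pf (mpf (β : E →+* L) g) q = (pf g q).map (β : E →+* L) :=
  (MvPolynomial.comp_aeval_apply (fun v : Vr io => g v.1 v.2) (mapAlgHom β) q).symm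

theorem pt_map (β : E →ₐ[ℂ] L) (g : (j : J) → io j → E[X]) (t : Option E) :
    pt d (mpf (β : E →+* L) g) (t.map β) = mapP β (pt d g t) :=
  funext fun _ => funext fun _ => hv_map (β : E →+* L) _ _ t

theorem pr_pf {p : Pl ℂ L ℂ E} (hp : Lnr p) {f : (j : J) → io j → L[X]}
    (h : ∀ j i, PR p (f j i) (g j i)) (q : MvPolynomial (Vr io) ℂ) : PR p (pf f q) (pf g q) := by
  unfold pf
  induction q using MvPolynomial.induction_on with
  | C c =>
    have := pr_C (p := p) (p.V.2 c)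
    rw [hp c] at this
    simpa using this
  | add a b ha hb => simpa using ha.add hb
  | mul_X a v ha => simpa using ha.mul (h v.1 v.2)

theorem syz_pf (S : Syz T) (g : (j : J) → io j → E[X]) (b : Fin S.r) :
    ∑ a, pf g (S.ρ b a) * pf g (T.F a) = 0 := by
  have h := congrArg (pf g) (S.syz b)
  simpa only [pf, map_sum, map_mul, map_zero] using h

theorem coeff_pol (u : Cx T d → E) (a : A) (l : Fin (dot (T.k a) d + 1)) :
    (pol u a).coeff l = u ⟨a, l⟩ := by
  simp [pol, coeff_monomial, Fin.val_inj]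

theorem deg_pol (u : Cx T d → E) (a : A) : (pol u a).natDegree ≤ dot (T.k a) d :=
  natDegree_sum_le_of_forall_le _ _ fun l _ =>
    (natDegree_monomial_le _).trans (Nat.lt_succ_iff.1 l.2)

theorem pol_ext {u : Cx T d → E} {a : A} {σ : E[X]} (hσ : σ.natDegree ≤ dot (T.k a) d)
    (h : ∀ l : Fin (dot (T.k a) d + 1), u ⟨a, l⟩ = σ.coeff l) : pol u a = σ :=
  Polynomial.ext fun l => by
    by_cases hl : l < dot (T.k a) d + 1
    · exact (coeff_pol u a ⟨l, hl⟩).trans (h _)
    · rw [natDegree_le_iff_coeff_eq_zero.1 hσ l (by omega),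
        natDegree_le_iff_coeff_eq_zero.1 (deg_pol u a) l (by omega)]

theorem pol_eq_zero {u : Cx T d → E} (h : ∀ a, pol u a = 0) : u = 0 :=
  funext fun x => by rw [← coeff_pol u x.1 x.2, h, coeff_zero, Pi.zero_apply]

theorem hv_syz (S : Syz T) (hg : ∀ j i, (g j i).natDegree ≤ d j) (u : Cx T d → E) (b : Fin S.r) :
    (∑ a, pf g (S.ρ b a) * pol u a).natDegree ≤ dot (S.e b) d ∧ ∀ t,
      hv (dot (S.e b) d) (∑ a, pf g (S.ρ b a) * pol u a) t =
        ∑ a, pv (pt d g t) (S.ρ b a) * hv (dot (T.k a) d) (pol u a) t := by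
  have key : ∀ a, (pf g (S.ρ b a) * pol u a).natDegree ≤ dot (S.e b) d ∧ ∀ t,
      hv (dot (S.e b) d) (pf g (S.ρ b a) * pol u a) t =
        pv (pt d g t) (S.ρ b a) * hv (dot (T.k a) d) (pol u a) t := fun a => by
    rcases S.hom b a with h | ⟨κ, h1, h2⟩
    · simp [h, pf, pv, hv_zero]
    · have h3 : dot (S.e b) d = dot κ d + dot (T.k a) d := by
        simp only [← h1, dot, Pi.add_apply, add_mul, Finset.sum_add_distrib]
      have h4 := hv_pf h2 hg
      rw [h3]
      exact ⟨natDegree_mul_le.trans (add_le_add h4.1 (deg_pol u a)), fun t => by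
        rw [hv_mul h4.1 (deg_pol u a), h4.2]⟩
  exact ⟨natDegree_sum_le_of_forall_le _ _ fun a _ => (key a).1, fun t => by
    rw [hv_sum]; exact Finset.sum_congr rfl fun a _ => (key a).2 t⟩

theorem KS_eq (S : Syz T) (hg : ∀ j i, (g j i).natDegree ≤ d j) : KS S d g = LinearMap.ker
    (Matrix.of fun (y : Σ b, Fin (dot (S.e b) d + 1)) (x : Cx T d) =>
      (pf g (S.ρ y.1 x.1) * X ^ (x.2 : ℕ)).coeff y.2).mulVecLin := by
  ext u
  have key : ∀ b l, (∑ a, pf g (S.ρ b a) * pol u a).coeff l =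
      ∑ x : Cx T d, (pf g (S.ρ b x.1) * X ^ (x.2 : ℕ)).coeff l * u x := fun b l => by
    rw [Fintype.sum_sigma, finsetSum_coeff]
    refine Finset.sum_congr rfl fun a _ => ?_
    rw [pol, Finset.mul_sum, finsetSum_coeff]
    refine Finset.sum_congr rfl fun i _ => ?_
    rw [← C_mul_X_pow_eq_monomial, mul_left_comm, coeff_C_mul, mul_comm]
  refine ⟨fun h => funext fun y => (key y.1 y.2).symm.trans (by rw [h y.1]; rfl),
    fun h b => Polynomial.ext fun l => ?_⟩
  by_cases hl : l < dot (S.e b) d + 1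
  · exact (key b l).trans (congrFun h ⟨b, ⟨l, hl⟩⟩)
  · exact natDegree_le_iff_coeff_eq_zero.1 (hv_syz S hg u b).1 l (by omega)

theorem KS_map (S : Syz T) (hg : ∀ j i, (g j i).natDegree ≤ d j) (β : E →ₐ[ℂ] L) :
    KS S d (mpf (β : E →+* L) g) = mapS β (KS S d g) := by
  rw [KS_eq S hg, Tree87.mapS_ker, KS_eq (g := mpf _ g) S fun j i => natDegree_map_le.trans (hg j i)]
  congr 2
  ext y x
  simp only [Matrix.of_apply, Matrix.map_apply, pf_map]
  rw [← Polynomial.map_X (β : E →+* L), ← Polynomial.map_pow, ← Polynomial.map_mul, coeff_map]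
  rfl

end Crest.Agent.X262.Ends
end
private theorem rz_3e7450f803 : type_of% @_root_.Crest.Agent.X262.Ends.nx.eq_1 := @_root_.Crest.Agent.X262.Ends.nx.eq_1 -- L35
end

-- ▼ part X262/Good3/Main
section

/-!
# Row 262, road B, ENDS (helper3): components of good reduction

* `ry`, `sw_ry`  : the reduction of any point of the curve lies on the swept variety;
* `exists_gr`, `pt_gr` : the reduction of the forms and of their values;
* `good_of`      : `Ends.GoodStmt`.
-/

set_option autoImplicit false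
set_option linter.unusedSectionVars false

noncomputable section

namespace Crest.Agent.X262.Good3

open Crest.Agent.X277 Crest.Agent.X277.BD Polynomial
open Crest.Agent.X262.Hb Crest.Agent.X262.Vb Crest.Agent.X262.Ends
open Crest.Agent.X262.Bub96 (hv)
open Crest.Agent.X262.Node22 (chr scl pv_scl)

variable {J : Type} [Fintype J] [DecidableEq J] {io : J → Type} [∀ j, Fintype (io j)]
  [∀ j, DecidableEq (io j)] {A : Type} [Fintype A] {T : Tgt io A} {d ν : J → ℕ} {j₁ : J}
  {K L E I : Type} [Field K] [Algebra ℂ K] [Field L] [Algebra ℂ L] [Field E] [Algebra ℂ E]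
  [Fintype I] {f : (j : J) → io j → K[X]} {N : ℕ}

/-- the scalars which make a point of the curve primitive -/
def nr (V : RZ ℂ L) (η : Dat io d I L) (t : Option L) : J → L :=
  fun j => ((ln (η.pt t) j).gen V)⁻¹

/-- the reduction of a point of the curve -/
def ry (p : Pl ℂ L ℂ E) (η : Dat io d I L) (t : Option L) : Pnt io E :=
  redP p (scl (nr p.V η t) (η.pt t))

theorem prim_nr (V : RZ ℂ L) (η : Dat io d I L) (t : Option L) :
    Prim V (scl (nr V η t) (η.pt t)) :=
  prim_scl (Vb37.nz_pt η t) fun j => by rw [nr, map_inv₀, v_gen]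

theorem sw_ry (hL : Line T d ν j₁ f) (hk : ∀ a j, T.k a j ≤ N) {η : Dat io d I L}
    (hN : η.NrmUp N) (p : LP L E) (hO : (η.cfg.red p.toPl).On T) (t : Option L) :
    Sw f (ry p.toPl η t) := by
  let η' : Dat io d (Option I) L := ⟨η.f, fun q => q.elim t η.x, η.cp⟩
  have h1 : (η'.res some).NrmUp N := hN
  have h2 := (Dat.nrUp_cfg h1).red η'.cfg_nz p
  have h3 : (η'.cfg.red p.toPl).On T :=
    (Cfg.on_res (fun a => h2 _ (hk a)) ((η'.cfg_mul.red η'.cfg_nz p.toPl).sv_mem T)).1 fun q => hO q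
  have h4 := treePts_red hk (Dat.nrmUp_of_res h1) p.toPl h3 fun _ : Unit => none
  exact ⟨EndsZ.tree_nz h4 (), fun q κ hq h0 => hL.sw q κ hq h0 E _ h4⟩

theorem exists_gr (p : Pl ℂ L ℂ E) (η : Dat io d I L) : ∃ s g, GR p η.f s g := by
  have h1 : ∀ j, ∃ s : L, (∀ i l, s * (η.f j i).coeff l ∈ p.V.1) ∧
      ∃ i l, s * (η.f j i).coeff l = 1 := fun j => by
    let y : io j × Fin (d j + 1) → L := fun x => (η.f j x.1).coeff x.2
    obtain ⟨i₀, h0⟩ := η.cp.2.1 j
    obtain ⟨x, hx⟩ := exists_val_mxf (k := ℂ) (s := y) ⟨(i₀, Fin.last _), h0⟩ p.V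
    have hx0 : y x ≠ 0 := RZ.ne_zero_iff.1 (hx ▸ val_ne _ _)
    refine ⟨(y x)⁻¹, fun i l => ?_, x.1, x.2, inv_mul_cancel₀ hx0⟩
    by_cases hl : l < d j + 1
    · rw [← RZ.le_one_iff, map_mul, map_inv₀, inv_mul_le_iff₀ (RZ.pos hx0), mul_one, hx]
      exact mem_Sec_mxf y (i, ⟨l, hl⟩) p.V
    · rw [natDegree_le_iff_coeff_eq_zero.1 (η.cp.1 j i) l (by omega), mul_zero]
      exact zero_mem _
  choose s hs hs1 using h1
  have h2 : ∀ j i, ∃ σ', PR p (C (s j) * η.f j i) σ' := fun j i =>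
    exists_pr fun l => by rw [coeff_C_mul]; exact hs j i l
  choose g hg using h2
  refine ⟨s, g, hs, fun j i l => by rw [← (hg j i l).2, coeff_C_mul], fun j => ?_⟩
  obtain ⟨i, l, h⟩ := hs1 j
  exact ⟨i, l, by rw [← (hg j i l).2, coeff_C_mul, h, Pl.r_one]⟩

variable {p : Pl ℂ L ℂ E} {η : Dat io d I L} {s : J → L} {g : (j : J) → io j → E[X]}

theorem pr_gr (h : GR p η.f s g) (j : J) (i : io j) : PR p (C (s j) * η.f j i) (g j i) :=
  fun l => by rw [coeff_C_mul]; exact ⟨h.mem j i l, h.red j i l⟩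

theorem deg_gr (h : GR p η.f s g) (j : J) (i : io j) : (g j i).natDegree ≤ d j :=
  (pr_gr h j i).deg ((natDegree_C_mul_le _ _).trans (η.cp.1 j i))

theorem pt_gr (h : GR p η.f s g) (t : Option L) :
    ∃ c : J → E, pt d g (rx p t) = scl c (ry p η t) := by
  refine ⟨fun j => p.r (nx p.V t ^ d j * s j / nr p.V η t j), _root_.funext fun j =>
    _root_.funext fun i => ?_⟩
  have h0 : nr p.V η t j ≠ 0 := inv_ne_zero (gen_ne _ _)
  have h1 := fun i => (pr_gr h j i).hv ((natDegree_C_mul_le _ _).trans (η.cp.1 j i)) t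
  have h2 : ∀ i, nx p.V t ^ d j * hv (d j) (C (s j) * η.f j i) t =
      nx p.V t ^ d j * s j / nr p.V η t j * scl (nr p.V η t) (η.pt t) j i := fun i => by
    rw [Bub96.hv_C_mul, scl, Dat.pt]
    field_simp
  obtain ⟨i₀, h3⟩ := (prim_nr p.V η t j).2
  have h4 : nx p.V t ^ d j * s j / nr p.V η t j ∈ p.V.1 := by
    have := RZ.le_one_iff.2 (h1 i₀).1
    rwa [h2, map_mul, h3, mul_one, RZ.le_one_iff] at this
  rw [pt, ← (h1 i).2, h2, Pl.r_mul h4 ((prim_nr p.V η t j).1 i)]
  rfl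

theorem swP_gr (h : GR p η.f s g) (hS : ∀ t, Sw f (ry p η t)) : SwP f g := fun q κ hq h0 => by
  have : CharZero E := charZero_of_injective_algebraMap (algebraMap ℂ E).injective
  refine eq_zero_of_infinite_isRoot _ ((Set.infinite_range_of_injective
    (Nat.cast_injective (R := E))).mono ?_)
  rintro _ ⟨n, rfl⟩
  obtain ⟨c, hc⟩ := pt_gr h (some (n : L))
  have h1 := (hv_pf hq (deg_gr h)).2 (some (n : E))
  rw [rx_nat] at hc
  rwa [hc, pv_scl hq, (hS _).2 q κ hq h0, mul_zero] at h1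

/-- on a factor of degree zero the reduced point does not depend on the point of the curve -/
theorem base_gr (h : GR p η.f s g) (t : Option L) {j : J} (hj : d j = 0) :
    ∃ c : E, c ≠ 0 ∧ ∀ i, (g j i).coeff 0 = c * ry p η t j i := by
  obtain ⟨c, hc⟩ := pt_gr h t
  have h1 : ∀ i, (g j i).coeff 0 = c j * ry p η t j i := fun i => by
    have h2 := congrFun (congrFun hc j) i
    rw [pt, eq_C_of_natDegree_le_zero ((deg_gr h j i).trans hj.le), hj] at h2
    rcases ht : rx p t with _ | u <;> simpa [ht, hv, scl] using h2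
  refine ⟨c j, fun h0 => ?_, h1⟩
  obtain ⟨i, l, hl⟩ := h.one j
  rcases l with _ | l
  · rw [h1, h0, zero_mul] at hl
    exact zero_ne_one hl
  · rw [natDegree_le_iff_coeff_eq_zero.1 (deg_gr h j i) _ (by omega)] at hl
    exact zero_ne_one hl

theorem c1_scl {B : Th} (hB : B.Ax) {ι : Type} [Fintype ι] {u v : ι → E} {c : E}
    (hu : ∃ i, u i ≠ 0) (h : ∀ i, u i = c * v i) : B.c1 (mxf ℂ u) = B.c1 (mxf ℂ v) := by
  obtain ⟨i₀, h0⟩ := hu
  rw [h, mul_ne_zero_iff] at h0
  have h1 : mxf ℂ v + pr ℂ c = mxf ℂ u := by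
    refine eq_mxf (fun i V => ?_) fun V => ?_
    · rw [val_add, val_pr h0.1, h, map_mul, mul_comm]
      exact mul_le_mul_left (mem_Sec_mxf v i V) _
    · obtain ⟨i, hi⟩ := exists_val_mxf (k := ℂ) (s := v) ⟨i₀, h0.2⟩ V
      exact ⟨i, by rw [val_add, val_pr h0.1, h, map_mul, mul_comm, hi]⟩
  rw [← h1, map_add, hB.c1_pr, add_zero]

/-- **GOOD** -/
theorem good_of (hV : VanStmt) (hQ : SqStmt) (hM : MobStmt) : GoodStmt := by
  intro B hB J _ _ io _ _ A _ T d ν j₁ K _ _ _ f hL N hk I M L E _ _ _ _ _ _ η m q₀ a b c hN _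
    ha hb hx p hO hlin
  classical
  obtain ⟨s, g, h⟩ := exists_gr p.toPl η
  have hS := sw_ry hL hk hN p hO
  let y : M → Pnt io E := fun q => ry p.toPl η (η.x (m q))
  change (∏ q, hc B j₁ E (y q)) * ∏ j, hc B j E (y q₀) ^ ν j ≠ 0 at hlin
  have hg0 : ∀ j, ∃ i, g j i ≠ 0 := fun j => by
    obtain ⟨i, l, hl⟩ := h.one j
    exact ⟨i, fun h0 => by simp [h0] at hl⟩
  refine ⟨s, g, h, hM T d ν j₁ f hL E g (deg_gr h) hg0 (swP_gr h hS) ?_ ?_⟩
  · have h1 : bas ν (fun j i => (g j i).coeff 0) = bas ν (y q₀) := by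
      unfold bas
      congr 1
      ext t
      refine exists_congr fun j => exists₂_congr fun i i' => and_congr_right fun hj => ?_
      obtain ⟨u, hu, h2⟩ := base_gr h (η.x (m q₀)) (hL.zero j hj)
      simp only [h2, mul_div_mul_left _ _ hu, y]
    rw [h1]
    exact not_lt.1 fun h2 => hlin (by rw [hV B hB ν E _ (hS _).1 h2, mul_zero])
  by_contra hmin
  push Not at hmin
  have hbase : ∀ q, ∏ j, hc B j E (y q₀) ^ ν j = ∏ j, hc B j E (y q) ^ ν j := fun q =>
    Finset.prod_congr rfl fun j _ => by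
      by_cases hj : ν j = 0
      · rw [hj, pow_zero, pow_zero]
      obtain ⟨u, hu, h2⟩ := base_gr h (η.x (m q₀)) (hL.zero j hj)
      obtain ⟨u', -, h3⟩ := base_gr h (η.x (m q)) (hL.zero j hj)
      have h4 : ∃ i, (g j i).coeff 0 ≠ 0 :=
        ((hS (η.x (m q₀))).1 j).imp fun i hi => h2 i ▸ mul_ne_zero hu hi
      exact congrArg (· ^ ν j) ((c1_scl hB h4 h2).symm.trans (c1_scl hB h4 h3))
  have key : ∀ q q', q ≠ q' → hc B j₁ E (y q) ≠ hc B j₁ E (y q') := fun q q' hq h1 => hlin (by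
    rw [← Finset.mul_prod_erase _ _ (Finset.mem_univ q), ← Finset.mul_prod_erase _ _
      (Finset.mem_erase.2 ⟨hq.symm, Finset.mem_univ q'⟩), ← h1, hbase q, ← mul_assoc, ← sq,
      mul_right_comm, hQ B hB T d ν j₁ f hL E _ (hS _), zero_mul])
  have hd := fun i => hL.one ▸ deg_gr h j₁ i
  obtain ⟨ca, h1⟩ := pt_gr h (η.x (m a))
  obtain ⟨cb, h2⟩ := pt_gr h (η.x (m b))
  obtain ⟨cc, h3⟩ := pt_gr h (η.x (m c))
  have e1 : ∀ i, (g j₁ i).coeff 1 = ca j₁ * y a j₁ i := fun i => by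
    have := congrFun (congrFun h1 j₁) i
    rwa [pt, hL.one, show rx p.toPl (η.x (m a)) = none by rw [ha]; rfl] at this
  have e2 : ∀ i, (g j₁ i).coeff 0 = cb j₁ * y b j₁ i := fun i => by
    have := congrFun (congrFun h2 j₁) i
    rwa [pt, show rx p.toPl (η.x (m b)) = some 0 by simpa [hb] using rx_nat p.toPl 0,
      Bub96.hv_some, ← coeff_zero_eq_eval_zero] at this
  have e3 : ∀ i, (g j₁ i).coeff 0 + (g j₁ i).coeff 1 = cc j₁ * y c j₁ i := fun i => by
    have := congrFun (congrFun h3 j₁) i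
    rwa [pt, show rx p.toPl (η.x (m c)) = some 1 by simpa [hx] using rx_nat p.toPl 1,
      Bub96.hv_some, eval_eq_sum_range' (n := 2) (Nat.lt_succ_of_le (hd i)), Finset.sum_range_succ,
      Finset.sum_range_one, pow_zero, pow_one, mul_one, mul_one] at this
  have hab : a ≠ b := fun e => by rw [e, hb] at ha; cases ha
  have hac : a ≠ c := fun e => by rw [e, hx] at ha; cases ha
  have hbc : b ≠ c := fun e => by rw [e, hx] at hb; simp at hb
  by_cases hA : ∃ i, (g j₁ i).coeff 0 ≠ 0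
  · by_cases hB' : ∃ i, (g j₁ i).coeff 1 ≠ 0
    · obtain ⟨i₀, h0⟩ := id hA
      refine key a b hab ((c1_scl hB hB' e1).symm.trans (c1_scl hB hB'
        (c := (g j₁ i₀).coeff 1 / (g j₁ i₀).coeff 0 * cb j₁) fun i => ?_))
      rw [mul_assoc, ← e2, div_mul_eq_mul_div, eq_div_iff h0, mul_comm, hmin i₀ i, mul_comm]
    · push Not at hB'
      exact key b c hbc ((c1_scl hB hA e2).symm.trans (c1_scl hB hA fun i => by
        rw [← e3, hB', add_zero]))
  · push Not at hA
    have hB' : ∃ i, (g j₁ i).coeff 1 ≠ 0 := (hg0 j₁).imp fun i hi h0 => hi (by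
      rw [eq_X_add_C_of_natDegree_le_one (hd i), h0, hA]; simp)
    exact key a c hac ((c1_scl hB hB' e1).symm.trans (c1_scl hB hB' fun i => by
      rw [← e3, hA, zero_add]))

end Crest.Agent.X262.Good3
end
end

-- ▼ part X262/Ends/Iso
section

/-!
# Row 262, road B, ENDS (helper25): bundles which are trivial along the fibres

`itg_iso` : the formula `Tr89.itg_cq` for a subspace which is isometric to a constant one at the
valuations which are trivial on the base field.
-/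

set_option autoImplicit false
set_option linter.unusedSectionVars false

noncomputable section

namespace Crest.Agent.X262.Ends

open Crest.Agent.X277 Crest.Agent.X277.BD Crest.Agent.X277.Pst Crest.Agent.X277.BD.Cyc Polynomial
open Crest.Agent.X262.Hb Crest.Agent.X262.Vb Crest.Agent.X262.Tr89
open List (replicate)

variable {B : Th} {K E : Type} [Field K] [Algebra ℂ K] [Field E] [Algebra ℂ E]
  {P P' : Type} [Fintype P] [Fintype P'] {Ψ : (P' → E) →ₗ[E] (P → E)} {a : P → BD ℂ E}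
  {a' : P' → BD ℂ E}

theorem ds_map {V : RZ ℂ E} (h : ∀ u, nm a V (Ψ u) = nm a' V u) (W : Submodule E (P' → E))
    (x : P' → E) : ds a V (W.map Ψ) (Ψ x) = ds a' V W x := by
  refine le_antisymm (le_ds.2 fun w hw => ?_) (le_ds.2 ?_)
  · rw [← h, map_sub]
    exact ds_le ⟨w, hw, rfl⟩
  · rintro _ ⟨w, hw, rfl⟩
    rw [← map_sub, h]
    exact ds_le hw

variable [Algebra K E] [IsScalarTower ℂ K E]

theorem flag_iso (h : ∀ (V : RZ K E) u, nm a (V.dn ℂ) (Ψ u) = nm a' (V.dn ℂ) u)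
    {W U : Submodule E (P' → E)} {l : List (P' → E)} (hl : Flag W l U)
    (h0 : ∀ b ∈ rts a' W l, up K b = 0) :
    Flag (W.map Ψ) (l.map Ψ) (U.map Ψ) ∧ ∀ b ∈ rts a (W.map Ψ) (l.map Ψ), up K b = 0 := by
  induction hl with
  | nil W => exact ⟨Flag.nil _, by simp [rts]⟩
  | @cons W U x l hx _ ih =>
    rw [rts, List.forall_mem_cons] at h0
    have h1 : Ψ x ∉ W.map Ψ := fun h2 => hx (ds_eq_zero.1
      ((ds_map (h (RZ.top K E)) W x).symm.trans (ds_eq_zero.2 h2)))
    have ih' := ih h0.2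
    rw [Submodule.map_sup, Submodule.map_span, Set.image_singleton] at ih'
    refine ⟨Flag.cons h1 ih'.1, ?_⟩
    rw [List.map_cons, rts, List.forall_mem_cons]
    refine ⟨?_, ih'.2⟩
    rw [← h0.1, map_neg, map_neg, neg_inj]
    exact ext' fun V => by rw [val_up, val_up, val_dst h1, val_dst hx, ds_map (h V)]

theorem ex_one (U : Submodule K (P → K)) :
    ex (fun _ => (1 : E)) U = mapS (IsScalarTower.toAlgHom ℂ K E) U := by
  unfold ex mapS
  congr 1
  ext w
  exact exists_congr fun u => and_congr_right fun _ => by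
    rw [eq_comm]
    refine iff_of_eq (congrArg _ (funext fun x => ?_))
    simp [exv]

theorem nm_zero_eq {u : P → E} (hu : u ≠ 0) (V : RZ ℂ E) :
    nm (fun _ => (0 : BD ℂ E)) V u = (mxf ℂ u).val V := by
  obtain ⟨i, hi⟩ := exists_val_mxf (k := ℂ) (Function.ne_iff.1 hu) V
  refine le_antisymm (nm_le.2 fun x => ?_) ?_
  · rw [val_zero, mul_one]
    exact mem_Sec_mxf u x V
  · simpa [hi] using le_nm (fun _ => (0 : BD ℂ E)) V u i

variable [Algebra.EssFiniteType ℂ K] [CharZero K] [Algebra.EssFiniteType ℂ E]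
  [Algebra.EssFiniteType K E]

theorem itg_iso (hB : B.Ax)
    (h : ∀ (V : RZ K E) u, nm a (V.dn ℂ) (Ψ u) = nm (fun _ => (0 : BD ℂ E)) (V.dn ℂ) u)
    {U : Submodule K (P' → K)} {r : ℕ} (hr : Module.finrank K U = r + 1)
    (hd : r + dim ℂ K ≤ dim ℂ E) {u : P' → E} (hu : u ≠ 0) (φ : B.H K) :
    B.itg E ((B.cq a ((mapS (IsScalarTower.toAlgHom ℂ K E) U).map Ψ)).eval (B.c1 (-sz (Ψ u) a)) *
      B.pb (LP.hom (IsScalarTower.toAlgHom ℂ K E)) φ) =
      bnum (replicate r (mxf K u)) * B.itg K φ := by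
  obtain ⟨m, hm⟩ := exists_flag (bot_le : ⊥ ≤ U)
  obtain ⟨h1, h2⟩ := flag_ex (g := fun _ => (1 : E)) (a := fun _ => (0 : BD ℂ E))
    (fun _ => one_ne_zero) (fun _ => by rw [map_zero, pr_one]) hm
  have h3 := hm.finrank
  obtain ⟨h4, h5⟩ := flag_iso h h1 h2
  rw [ex_bot, Submodule.map_bot] at h4 h5
  rw [ex_one] at h4
  have h6 : Ψ u ≠ 0 := fun h0 => hu (nm_eq_zero.1 ((h (RZ.top K E) u).symm.trans (by
    rw [h0, nm_zero])))
  have h7 : up K (- -sz (Ψ u) a) = mxf K u := by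
    rw [neg_neg, ← up_mxf (k := ℂ)]
    exact ext' fun V => by rw [val_up, val_up, val_sz h6, h, nm_zero_eq hu]
  rw [Th.cq, Th.cp, hB.cp2_eq h4, ← h7]
  refine itg_cl hB φ _ ?_ (fun b hb => h5 b hb ▸ Lin.rfl) hd
  rw [length_rts, List.length_map, List.length_map]
  simpa [hr] using h3.symm

end Crest.Agent.X262.Ends
end
end

-- ▼ part X262/EndsZ/Term
section

/-!
# Row 262, road B, ENDS (helper82): the contribution of a component of good reduction

`termStmt : Ends.TermStmt`.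
-/

set_option autoImplicit false
set_option linter.unusedSectionVars false

noncomputable section

namespace Crest.Agent.X262.EndsZ

open Polynomial Crest.Agent.X277 Crest.Agent.X277.BD Crest.Agent.X277.BD.Cyc Crest.Agent.X262.Vb
  Crest.Agent.X262.Hb Crest.Agent.X262.Ends
open Crest.Agent.X262.Bub96 (hv hv_C_mul hv_zero hv_add nrm_inj)
open Crest.Agent.X262.Bub96.Tr (dot)
open Crest.Agent.X262.Node22 (chr chr_ne scl pv_scl mem_Eb)

variable {J : Type} [Fintype J] [DecidableEq J] {io : J → Type} [∀ j, Fintype (io j)]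
  [∀ j, DecidableEq (io j)] {A I : Type} [Fintype A] [Fintype I] {K L E : Type} [Field K]
  [Algebra ℂ K] [Field L] [Algebra ℂ L] [Field E] [Algebra ℂ E] {d : J → ℕ} {T : Tgt io A}
  {N c : ℕ}

theorem nm_eq_of_one {P P' : Type} [Fintype P] [Fintype P'] {Ψ : (P' → E) →ₗ[E] (P → E)}
    {a : P → BD ℂ E} {a' : P' → BD ℂ E} {V : RZ ℂ E} (hi : ∀ u, Ψ u = 0 → u = 0)
    (h : ∀ u, nm a V (Ψ u) ≤ 1 ↔ nm a' V u ≤ 1) (u : P' → E) : nm a V (Ψ u) = nm a' V u := by
  refine le_antisymm (nm_le_of_one (U := ⊤) (fun x _ => (h x).2) trivial) ?_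
  by_cases h0 : Ψ u = 0
  · simp [hi u h0]
  obtain ⟨e, he⟩ := V.exists_v (nm a V (Ψ u))
  have h1 := (h (e⁻¹ • u)).1 (by
    rw [map_smul, nm_smul, map_inv₀, he, inv_mul_cancel₀ (nm_pos h0).ne'])
  rwa [nm_smul, map_inv₀, he, inv_mul_le_iff₀ (nm_pos h0), mul_one] at h1

variable (T) in
/-- the values of a section at the points -/
def psi (ξ : Dat io d I E) : (Cx T d → E) →ₗ[E] (A × I → E) where
  toFun u x := hv (dot (T.k x.1) d) (pol u x.1) (ξ.x x.2)
  map_add' u u' := _root_.funext fun x => by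
    have e : pol (u + u') x.1 = pol u x.1 + pol u' x.1 := by simp [pol, Finset.sum_add_distrib]
    rw [e, hv_add, Pi.add_apply]
  map_smul' a u := _root_.funext fun x => by
    have e : pol (a • u) x.1 = C a * pol u x.1 := by simp [pol, Finset.mul_sum, C_mul_monomial]
    rw [e, hv_C_mul]
    rfl

variable {ξ : Dat io d I E}

theorem psi_inj (hk : ∀ a, ξ.Nrm (T.k a)) (u : Cx T d → E) (h : psi T ξ u = 0) : u = 0 :=
  pol_eq_zero fun a => nrm_inj (hk a) (deg_pol u a) fun q => congrFun h (a, q)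

theorem Eb_eq (S : Syz T) (he : ∀ b, ξ.Nrm (S.e b)) (hO : ξ.cfg.On T)
    (hR : ∀ q, S.Reg c (ξ.cfg.y q)) : ξ.cfg.Eb T = (KS S d ξ.f).map (psi T ξ) := by
  refine le_antisymm (fun σ hσ => ?_) ?_
  · obtain ⟨h1, h2⟩ := mem_Eb.1 hσ
    choose τ h3 h4 using fun a => Dat.mem_cfg.1 (h1 a)
    have h5 : ∀ a, pol (T := T) (d := d) (fun y => (τ y.1).coeff y.2) a = τ a := fun a =>
      pol_ext (h3 a) fun _ => rfl
    refine ⟨fun y => (τ y.1).coeff y.2, fun b => nrm_inj (he b) (hv_syz S ξ.cp.1 _ b).1 fun q => ?_,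
      _root_.funext fun x => ?_⟩
    · rw [(hv_syz S ξ.cp.1 _ b).2, ← S.rho_Nm (hO q) (h2 q) b]
      refine Finset.sum_congr rfl fun a _ => ?_
      rw [h5, congrFun (h4 a) q]
      rfl
    · change hv _ _ _ = _
      rw [h5]
      exact congrFun (h4 x.1) x.2
  · rintro _ ⟨u, hu, rfl⟩
    refine mem_Eb.2 ⟨fun a => Dat.mem_cfg.2 ⟨pol u a, deg_pol u a, rfl⟩,
      fun q => (hR q).2 _ fun b => ?_⟩
    have h1 := (hv_syz S ξ.cp.1 u b).2 (ξ.x q)
    rw [hu b, hv_zero] at h1
    exact h1.symm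

/-- the evaluation is isometric at the valuations which are trivial on the field of definition -/
theorem nm_psi (α : K →+* E) {g : (j : J) → io j → K[X]} (cp : Cp d g) (hf : ξ.f = mpf α g)
    (h1 : ∀ j, ∃ i l, (g j i).coeff l = 1) (hk : ∀ a, ξ.Nrm (T.k a)) {U : RZ ℂ E}
    (hU : ∀ a, α a ∈ U.1) (u : Cx T d → E) :
    nm (ξ.cfg.ea T) U (psi T ξ u) = nm (fun _ => (0 : BD ℂ E)) U u := by
  let ρ : K →+* Rf U := (plV U).φ.comp (α.codRestrict U.1 hU)
  have h2 : GR (plV U) ξ.f (fun _ => 1) (mpf ρ g) :=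
    ⟨fun j i l => by rw [hf, one_mul, mpf, coeff_map]; exact hU _, fun j i l => by
      rw [hf, one_mul, mpf, coeff_map, mpf, coeff_map]
      exact (plV U).r_eq (hU _), fun j => by
      obtain ⟨i, l, h⟩ := h1 j
      exact ⟨i, l, by rw [mpf, coeff_map, h, map_one]⟩⟩
  have h3 : ∀ κ : J → ℕ, chr (fun _ => (1 : E)) κ = 1 := fun κ => by simp [chr]
  refine nm_eq_of_one (psi_inj hk) (fun u => ?_) u
  simp only [nm_le, one_mul, val_zero]
  refine ⟨fun h y => ?_, fun h x => ?_⟩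
  · obtain ⟨τ, hτ⟩ := exists_pr_of h2 (cp.map ρ) (hk y.1) (deg_pol u y.1) fun q =>
      (le_iff_mem h2 ξ.cp (cp.map ρ) _ _).1 (h (y.1, q))
    have h4 := (hτ y.2).1
    rw [h3, C_1, one_mul, coeff_pol] at h4
    exact RZ.le_one_iff.2 h4
  · obtain ⟨τ, hτ⟩ := Ends.exists_pr (p := plV U) (σ := pol u x.1) fun l => by
      by_cases hl : l < dot (T.k x.1) d + 1
      · exact (coeff_pol u x.1 ⟨l, hl⟩).symm ▸ RZ.le_one_iff.1 (h _)
      · rw [natDegree_le_iff_coeff_eq_zero.1 (deg_pol u x.1) l (by omega)]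
        exact zero_mem _
    refine (le_iff_mem h2 ξ.cp (cp.map ρ) _ _).2 ?_
    rw [chr_gc, h3, one_mul]
    exact (hv_red hτ (deg_pol u x.1) _).1

variable {p : Pl ℂ L ℂ E} {η : Dat io d I L} {s : J → L} {g : (j : J) → io j → E[X]} {τ : L}
  {u : Cx T d → E}

theorem deg_scf (η : Dat io d I L) (s : J → L) (j : J) (i : io j) :
    (scf s η.f j i).natDegree ≤ d j := (natDegree_C_mul_le _ _).trans (η.cp.1 j i)

theorem pr_pol (h1 : ∀ y, τ * eqc T d (scf s η.f) y ∈ p.V.1)
    (h2 : ∀ y, u y = p.r (τ * eqc T d (scf s η.f) y)) (a : A) :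
    Ends.PR p (C τ * pf (scf s η.f) (T.F a)) (pol u a) := fun l => by
  rw [coeff_C_mul]
  by_cases hl : l < dot (T.k a) d + 1
  · exact ⟨h1 ⟨a, ⟨l, hl⟩⟩, (h2 ⟨a, ⟨l, hl⟩⟩).symm.trans (coeff_pol u a ⟨l, hl⟩).symm⟩
  · rw [natDegree_le_iff_coeff_eq_zero.1 (deg_pol u a) l (by omega),
      natDegree_le_iff_coeff_eq_zero.1 (hv_pf (T.hom a) (deg_scf η s)).1 l (by omega), mul_zero]
    exact ⟨zero_mem _, p.r_zero⟩

theorem mem_KS (S : Syz T) (hp : Lnr p) (h : GR p η.f s g)
    (h1 : ∀ a, Ends.PR p (C τ * pf (scf s η.f) (T.F a)) (pol u a)) : u ∈ KS S d g := fun b => by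
  have h2 := Ends.PR.sum Finset.univ fun a _ =>
    (pr_pf hp (f := scf s η.f) (g := g) (pr_gr h) (S.ρ b a)).mul (h1 a)
  simp only [mul_left_comm _ (C τ), ← Finset.mul_sum, syz_pf, mul_zero] at h2
  exact h2.uniq pr_zero

theorem sv_red (h1 : ∀ a, Ends.PR p (C τ * pf (scf s η.f) (T.F a)) (pol u a)) (cp : Cp d g)
    (x : A × I) : (τ • (η.cfg.gau fun q => gc p s d (η.x q)).sv T) x ∈ p.V.1 ∧
      p.r ((τ • (η.cfg.gau fun q => gc p s d (η.x q)).sv T) x) = psi T (rdat η p cp) u x := by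
  have h2 := hv_pf (T.hom x.1) (deg_scf η s)
  have h3 := hv_red (h1 x.1) ((natDegree_C_mul_le _ _).trans h2.1) (η.x x.2)
  have h4 : pt d (scf s η.f) (η.x x.2) = scl s (η.cfg.y x.2) :=
    _root_.funext fun j => _root_.funext fun i => hv_C_mul _ _ _ _
  have h5 : (τ • (η.cfg.gau fun q => gc p s d (η.x q)).sv T) x = bx p (η.x x.2) ^ dot (T.k x.1) d *
      hv (dot (T.k x.1) d) (C τ * pf (scf s η.f) (T.F x.1)) (η.x x.2) := by
    rw [hv_C_mul, h2.2, h4, pv_scl (T.hom _), Cfg.sv_gau, Pi.smul_apply, chr_gc, Cfg.sv,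
      smul_eq_mul]
    ring
  rw [h5]
  exact h3

theorem pb_dv0 {B : Th} (hB : B.Ax) [Algebra.EssFiniteType ℂ L] [Algebra.EssFiniteType ℂ E]
    {p : LP L E} {z : Cfg io I L} (h3 : z.Pr p.V) {w : A × I → E} (hw : w ≠ 0)
    (h2 : ∀ x, (τ • z.sv T) x ∈ p.V.1 ∧ p.r ((τ • z.sv T) x) = w x) :
    B.pb p (B.c1 (z.dv T)) = B.c1 (-sz w ((z.red0 p.toPl).ea T)) := by
  obtain ⟨x, hx⟩ := Function.ne_iff.1 hw
  have h6 : p.V.v ((τ • z.sv T) x) = 1 := Pl.r_ne_zero_iff.1 ((h2 x).2.trans_ne hx)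
  have h7 : nm (z.ea T) p.V (τ • z.sv T) = 1 := by
    refine le_antisymm (nm_le.2 fun y => ?_) ?_
    · rw [h3.val_ea, mul_one]
      exact RZ.le_one_iff.2 (h2 y).1
    · have h8 := le_nm (z.ea T) p.V (τ • z.sv T) x
      rwa [h6, h3.val_ea, mul_one] at h8
  have h8 : τ • z.sv T ≠ 0 := fun h0 => by
    rw [h0, nm_zero] at h7
    exact zero_ne_one h7
  have h9 : (sz (τ • z.sv T) (z.ea T)).val p.V = 1 := by rw [val_sz h8, h7]
  have h10 : z.dv T = -sz (τ • z.sv T) (z.ea T) + pr ℂ τ := by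
    rw [sz_smul (smul_ne_zero_iff.1 h8).2 (smul_ne_zero_iff.1 h8).1, Cfg.dv]
    abel
  have h11 : (fun y => p.r ((τ • z.sv T) y)) = w := _root_.funext fun y => (h2 y).2
  rw [h10, map_add, hB.c1_pr, add_zero, hB.pb_c1_res p (by rw [val_neg, h9, inv_one]),
    Pl.res_neg h9, res_sz p.toPl (h3.val_ea T) h7, h11, Cfg.ea_red0 T h3]

theorem pb_dv {B : Th} (hB : B.Ax) [Algebra.EssFiniteType ℂ L] [Algebra.EssFiniteType ℂ E]
    {p : LP L E} (h : GR p.toPl η.f s g) (cp : Cp d g)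
    (h1 : ∀ a, Ends.PR p.toPl (C τ * pf (scf s η.f) (T.F a)) (pol u a))
    (hu : psi T (rdat η p.toPl cp) u ≠ 0) : B.pb p (B.c1 (η.cfg.dv T)) =
      B.c1 (-sz (psi T (rdat η p.toPl cp) u) ((rdat η p.toPl cp).cfg.ea T)) := by
  have h5 : (rdat η p.toPl cp).cfg.ea T =
      ((η.cfg.gau fun q => gc p.toPl s d (η.x q)).red0 p.toPl).ea T := by
    unfold Cfg.ea
    rw [red0_y h cp]
  rw [← Cfg.dv_gau T η.cfg_nz fun q => gc_ne (d := d) h (η.x q), h5]
  exact pb_dv0 hB (pr_cfg h cp) hu (sv_red h1 cp)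

theorem on_pt {g : (j : J) → io j → K[X]} (hg : ∀ j i, (g j i).natDegree ≤ d j)
    (h : ∀ a, pf g (T.F a) = 0) (t : Option K) : T.On (pt d g t) := fun a => by
  rw [← (hv_pf (T.hom a) hg).2, h, hv_zero]

/-- **the contribution of a component of good reduction** -/
theorem termStmt : TermStmt := by
  intro B hB J _ _ io _ _ A _ T c d S N hS hN I M L _ _ _ _ _ η m hη W hW K _ _ _ _ _ _ _ g s x cp
    hon h hx τ h1 u h2 hu
  have := Geo.essFT_Rf hW
  have h3 := pr_pol h1 h2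
  have h4 := KS_map S cp.1 (IsScalarTower.toAlgHom ℂ K (Rf W))
  refine ⟨h4 ▸ mem_KS S (lnr_plV W) h h3, fun Φ r hΦ hr hd => ?_⟩
  have cp' : Cp d (mpf (algebraMap K (Rf W)) g) := cp.map _
  have h5 := geqN_red h cp' hη
  have h6 := nrmUp_red (lnr_plV W) h cp' hη
  have h7 : ∀ a, (rdat η (plV W) cp').Nrm (T.k a) := fun a => h6 _ (hN.k_le a)
  have h8 : (rdat η (plV W) cp').cfg.On T := fun q =>
    on_pt cp'.1 (fun a => (pf_map (IsScalarTower.toAlgHom ℂ K (Rf W)) g _).trans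
      (by rw [hon, Polynomial.map_zero])) _
  have h9 := h5.on.1 h8
  have h10 : ∀ q, S.Reg c ((rdat η (plV W) cp').cfg.y q) := fun q => by
    obtain ⟨e, he, h10, -⟩ := h5
    rw [h10]
    exact S.reg_scl c (he q) ((Bub96.tl_red hη (plV W)).reg hS hN h9 q)
  have h11 := hΦ.nat K (Rf W) (LP.hom (IsScalarTower.toAlgHom ℂ K (Rf W))) (fun q => pt d g (x q))
    (fun q => prim_hom _ (nz_pt cp _)) fun q => on_pt cp.1 hon _
  have h12 : (fun q => redP (LP.hom (IsScalarTower.toAlgHom ℂ K (Rf W))).toPl (pt d g (x q))) =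
      fun q => (rdat η (plV W) cp').cfg.y (m q) := _root_.funext fun q => by
    rw [redP_hom, ← pt_map]
    exact congrArg (pt d _) (hx q).symm
  rw [trm, ← exc_congr (cpz_geqN hB hN.k_le h5 (η.cfg_nz.red _)),
    ← hΦ.geqN h5 (η.cfg_nz.red _) h9, ← h12, ← h11,
    pb_dv hB (p := LP.at W) h cp' h3 fun h0 => hu (psi_inj h7 u h0), exc,
    Eb_eq S (fun b => h6 _ (hN.e_le b)) h8 h10]
  refine Eq.trans ?_ (itg_iso hB (fun V u => nm_psi (algebraMap K (Rf W)) cp rfl (fun j => ?_) h7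
    (fun a => V.2 a) u) hr hd hu _)
  · rw [← h4]
    rfl
  · obtain ⟨i, l, h0⟩ := h.one j
    exact ⟨i, l, (algebraMap K (Rf W)).injective (by rwa [map_one, ← coeff_map])⟩

end Crest.Agent.X262.EndsZ
end
end

-- ▼ part X262/NumPar/Main
section

/-!
# Row 262, road B, NUM-PAR (helper92): the points of the swept variety

* `inj_of_trdeg` : a surjection of domains which keeps the transcendence degree is injective;
* `exists_hom`   : the field homomorphism attached to a specialisation of the same dimension;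
* `rel_ext`      : relations with coefficients in the base field specialise;
* `par_of_rel`   : a point with all the relations of the generic point of a line lies on it;
* `parStmt`      : `Ends.ParStmt`.
-/

set_option autoImplicit false
set_option linter.unusedSectionVars false
set_option linter.style.haveILetI false

noncomputable section

namespace Crest.Agent.X262.NumPar

open Polynomial Crest.Agent.X277 Crest.Agent.X277.BD Crest.Agent.X262.Vb Crest.Agent.X262.Hb
  Crest.Agent.X262.Ends Crest.Agent.X262.Vb37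
open Crest.Agent.X262.Bub96 (hv)
open IntermediateField (adjoin)
open Set (range)

variable {K E : Type} [Field K] [Algebra ℂ K] [Field E] [Algebra ℂ E]

/-- descent of the evaluation at `w` to the ring generated by `z` -/
theorem exists_desc {σ : Type} {z : σ → K} {w : σ → E}
    (h : ∀ P : MvPolynomial σ ℂ, MvPolynomial.aeval z P = 0 → MvPolynomial.aeval w P = 0) :
    ∃ ψ : (MvPolynomial.aeval (R := ℂ) z).range →ₐ[ℂ] (MvPolynomial.aeval (R := ℂ) w).range,
      Function.Surjective ψ ∧ ∀ P, ψ ((MvPolynomial.aeval z).rangeRestrict P) =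
        (MvPolynomial.aeval w).rangeRestrict P :=
  ⟨_, AlgHom.liftOfSurjective_surjective _ (MvPolynomial.aeval z).rangeRestrict_surjective _
    (fun P hP => Subtype.ext (h P (congrArg Subtype.val hP)))
    (MvPolynomial.aeval w).rangeRestrict_surjective, AlgHom.liftOfSurjective_apply _ _ _ _⟩

/-- a surjection of domains which keeps the transcendence degree is injective -/
theorem inj_of_trdeg {A B : Type} [CommRing A] [IsDomain A] [Algebra ℂ A] [CommRing B] [IsDomain B]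
    [Algebra ℂ B] (ψ : A →ₐ[ℂ] B) (h : Function.Surjective ψ)
    (hA : Algebra.trdeg ℂ A < Cardinal.aleph0) (hB : Algebra.trdeg ℂ A ≤ Algebra.trdeg ℂ B) :
    Function.Injective ψ := by
  obtain ⟨t, h2⟩ := exists_isTranscendenceBasis ℂ B
  choose x hx using fun i : t => h i
  have h3 : AlgebraicIndependent ℂ (ψ ∘ x) := by
    convert h2.1
    exact _root_.funext hx
  have h4 := h3.of_comp.isTranscendenceBasis_of_trdeg_le hA (hB.trans h2.cardinalMk_eq_trdeg.ge)
  refine (injective_iff_map_eq_zero _).2 fun a ha => by_contra fun h0 => ?_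
  obtain ⟨⟨b, hb⟩, h5, h6⟩ := (Submodule.ne_bot_iff _).1 (Ideal.comap_ne_bot_of_algebraic_mem
    (I := RingHom.ker ψ) h0 ha (h4.isAlgebraic.isAlgebraic a))
  rw [Algebra.adjoin_range_eq_range_aeval] at hb
  obtain ⟨p, rfl⟩ := hb
  have h7 : MvPolynomial.aeval (ψ ∘ x) p = 0 :=
    (MvPolynomial.comp_aeval_apply x ψ p).symm.trans h5
  exact h6 (Subtype.ext (by simp [algebraicIndependent_iff.1 h3 p h7]))

open scoped IntermediateField.algebraAdjoinAdjoin in
theorem trdeg_adjoin {σ : Type} (w : σ → E) : Algebra.trdeg ℂ (adjoin ℂ (range w)) =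
    Algebra.trdeg ℂ (MvPolynomial.aeval (R := ℂ) w).range := by
  have : FaithfulSMul ℂ (Algebra.adjoin ℂ (range w)) :=
    (faithfulSMul_iff_algebraMap_injective _ _).2 (algebraMap ℂ _).injective
  rw [← trdeg_add_eq ℂ (Algebra.adjoin ℂ (range w)), trdeg_eq_zero (R := Algebra.adjoin ℂ _),
    add_zero, Algebra.adjoin_range_eq_range_aeval]

/-- the field homomorphism attached to a specialisation which keeps the dimension -/
theorem exists_hom {σ : Type} {z : σ → K} {w : σ → E}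
    (h : ∀ P : MvPolynomial σ ℂ, MvPolynomial.aeval z P = 0 → MvPolynomial.aeval w P = 0)
    (hz : adjoin ℂ (range z) = ⊤) (h1 : Algebra.trdeg ℂ K < Cardinal.aleph0)
    (h2 : Algebra.trdeg ℂ K ≤ Algebra.trdeg ℂ (adjoin ℂ (range w))) :
    ∃ β : K →ₐ[ℂ] E, ∀ t, β (z t) = w t := by
  obtain ⟨ψ, h3, h4⟩ := exists_desc h
  have h5 := trdeg_le_of_injective (MvPolynomial.aeval (R := ℂ) z).range.val Subtype.val_injective
  have h6 := Subtype.val_injective.comp
    (inj_of_trdeg ψ h3 (h5.trans_lt h1) (h5.trans (h2.trans_eq (trdeg_adjoin w))))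
  have : IsFractionRing (MvPolynomial.aeval (R := ℂ) z).range K :=
    IsFractionRing.of_field _ _ fun x => by
      obtain ⟨r, s, rfl⟩ := (IntermediateField.mem_adjoin_range_iff ℂ z x).1
        (hz ▸ IntermediateField.mem_top)
      exact ⟨⟨_, r, rfl⟩, ⟨_, s, rfl⟩, rfl⟩
  refine ⟨IsFractionRing.liftAlgHom (g := (Subalgebra.val _).comp ψ) h6, fun t => ?_⟩
  have h7 := congrArg Subtype.val (h4 (MvPolynomial.X t))
  have h8 : z t = algebraMap _ K ((MvPolynomial.aeval (R := ℂ) z).rangeRestrict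
    (MvPolynomial.X t)) := (MvPolynomial.aeval_X z t).symm
  rw [h8, IsFractionRing.liftAlgHom_apply, IsFractionRing.lift_algebraMap]
  exact h7.trans (MvPolynomial.aeval_X w t)

/-- relations with coefficients in the base field specialise -/
theorem rel_ext {L : Type} [Field L] [Algebra ℂ L] [Algebra K L] [Algebra K E] [IsScalarTower ℂ K L]
    [IsScalarTower ℂ K E] {σ τ : Type} (s : σ → τ) {z : σ → K} {W : τ → L} {w : τ → E}
    (hz : adjoin ℂ (range z) = ⊤) (h1 : ∀ t, W (s t) = algebraMap K L (z t))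
    (h2 : ∀ t, w (s t) = algebraMap K E (z t))
    (h : ∀ P : MvPolynomial τ ℂ, MvPolynomial.aeval W P = 0 → MvPolynomial.aeval w P = 0)
    (P : MvPolynomial τ K) (hP : MvPolynomial.aeval W P = 0) : MvPolynomial.aeval w P = 0 := by
  let u : τ → L × E := fun t => (W t, w t)
  let G := (MvPolynomial.aeval (R := ℂ) u).range
  have h3 : ∀ p : MvPolynomial σ ℂ, algebraMap K (L × E) (MvPolynomial.aeval z p) ∈ G := fun p =>
    ⟨MvPolynomial.rename s p, by
      rw [← MvPolynomial.aeval_algebraMap_apply]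
      exact (MvPolynomial.aeval_rename s u p).trans (congrArg (MvPolynomial.aeval · p)
        (_root_.funext fun t => Prod.ext (h1 t) (h2 t)))⟩
  have h4 : ∀ P : MvPolynomial τ K, ∃ b : K, b ≠ 0 ∧ algebraMap K (L × E) b ∈ G ∧
      algebraMap K (L × E) b * MvPolynomial.aeval u P ∈ G := fun P => by
    induction P using MvPolynomial.induction_on with
    | C c =>
      obtain ⟨r, s, rfl⟩ := (IntermediateField.mem_adjoin_range_iff ℂ z c).1
        (hz ▸ IntermediateField.mem_top)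
      by_cases h0 : MvPolynomial.aeval z s = 0
      · exact ⟨1, one_ne_zero, map_one (algebraMap K (L × E)) ▸ one_mem G, by simp [h0]⟩
      · exact ⟨_, h0, h3 s, by
          rw [MvPolynomial.aeval_C, ← map_mul, mul_div_cancel₀ _ h0]; exact h3 r⟩
    | add p p' hp hp' =>
      obtain ⟨b, h4, h5, h6⟩ := hp
      obtain ⟨b', h7, h8, h9⟩ := hp'
      refine ⟨b * b', mul_ne_zero h4 h7, by rw [map_mul]; exact mul_mem h5 h8, ?_⟩
      convert add_mem (mul_mem h8 h6) (mul_mem h5 h9) using 1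
      rw [map_mul, map_add]
      ring
    | mul_X p t hp =>
      obtain ⟨b, h4, h5, h6⟩ := hp
      refine ⟨b, h4, h5, ?_⟩
      rw [map_mul, MvPolynomial.aeval_X, ← mul_assoc]
      exact mul_mem h6 ⟨MvPolynomial.X t, MvPolynomial.aeval_X u t⟩
  obtain ⟨b, h5, -, q, h6⟩ := h4 P
  have h7 := congrArg (AlgHom.fst K L E) h6
  have h8 := congrArg (AlgHom.snd K L E) h6
  rw [map_mul, AlgHom.commutes, MvPolynomial.comp_aeval_apply] at h7 h8
  have h9 := h q (((MvPolynomial.comp_aeval_apply u (AlgHom.fst ℂ L E) q).symm.trans h7).trans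
    (mul_eq_zero_of_right _ hP))
  exact (mul_eq_zero.1 (h8.symm.trans ((MvPolynomial.comp_aeval_apply u (AlgHom.snd ℂ L E) q).trans
    h9))).resolve_left ((_root_.map_ne_zero _).2 h5)

variable {J : Type} [Fintype J] [DecidableEq J] {io : J → Type} [∀ j, Fintype (io j)]
  [∀ j, DecidableEq (io j)] {d ν : J → ℕ} {j₁ : J} {f : (j : J) → io j → K[X]}

theorem bas_eq {y : Pnt io E} {i : ∀ j, io j} (hi : ∀ j, ν j ≠ 0 → y j (i j) ≠ 0) :
    bas ν y = adjoin ℂ (range fun t : {v : Vr io // ν v.1 ≠ 0} =>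
      y t.1.1 t.1.2 / y t.1.1 (i t.1.1)) := by
  refine le_antisymm (IntermediateField.adjoin_le_iff.2 ?_) (IntermediateField.adjoin.mono _ _ _ ?_)
  · rintro _ ⟨j, s, s', hj, rfl⟩
    rw [← div_div_div_cancel_right₀ (hi j hj)]
    exact div_mem (IntermediateField.subset_adjoin _ _ ⟨⟨⟨j, s⟩, hj⟩, rfl⟩)
      (IntermediateField.subset_adjoin _ _ ⟨⟨⟨j, s'⟩, hj⟩, rfl⟩)
  · rintro _ ⟨t, rfl⟩
    exact ⟨_, _, _, t.2, rfl⟩

omit [Algebra ℂ K] in
/-- coprime linear forms span -/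
theorem exists_span (hf : Cp d f) (h1 : d j₁ = 1) : ∃ (s s' : io j₁) (a b a' b' : K),
    C a * f j₁ s + C b * f j₁ s' = X ∧ C a' * f j₁ s + C b' * f j₁ s' = 1 := by
  obtain ⟨s, hs⟩ := hf.2.1 j₁
  obtain ⟨s', hs'⟩ := cp_hv hf j₁ (some (-((f j₁ s).coeff 0 / (f j₁ s).coeff 1)))
  have h2 := fun s => eq_X_add_C_of_natDegree_le_one (h1 ▸ hf.1 j₁ s)
  rw [h1] at hs
  rw [hv, h2 s'] at hs'
  simp only [eval_add, eval_mul, eval_C, eval_X] at hs'
  obtain ⟨D, hD⟩ : ∃ D, D * ((f j₁ s).coeff 1 * (f j₁ s').coeff 0 -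
      (f j₁ s').coeff 1 * (f j₁ s).coeff 0) = 1 :=
    ⟨_, inv_mul_cancel₀ fun h => hs' (by field_simp; linear_combination h)⟩
  have h3 := congrArg C hD
  simp only [map_mul, map_sub, map_one] at h3
  refine ⟨s, s', D * (f j₁ s').coeff 0, -(D * (f j₁ s).coeff 0), -(D * (f j₁ s').coeff 1),
    D * (f j₁ s).coeff 1, ?_, ?_⟩ <;> simp only [map_mul, map_neg]
  · linear_combination X * h3 + C D * C ((f j₁ s').coeff 0) * h2 s -
      C D * C ((f j₁ s).coeff 0) * h2 s'
  · linear_combination h3 - C D * C ((f j₁ s').coeff 1) * h2 s +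
      C D * C ((f j₁ s).coeff 1) * h2 s'

omit [Algebra ℂ K] [Algebra ℂ E] in
/-- a point with all the relations of the generic point of a line lies on the line -/
theorem par_of_rel [Algebra K E] (hf : Cp d f) (h1 : d j₁ = 1) {i : ∀ j, io j}
    (h0 : ∀ j, f j (i j) ≠ 0) {w : Vr io → E}
    (h : ∀ P : MvPolynomial (Vr io) K, MvPolynomial.aeval (fun v : Vr io =>
      algebraMap K[X] (RatFunc K) (f v.1 v.2) / algebraMap K[X] (RatFunc K) (f v.1 (i v.1))) P = 0 →
      MvPolynomial.aeval w P = 0) :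
    ∃ (t : Option E) (c : J → E), (∀ j, c j ≠ 0) ∧
      ∀ j s, w ⟨j, s⟩ = c j * hv (d j) ((f j s).map (algebraMap K E)) t := by
  obtain ⟨s, s', a, b, a', b', h2, h3⟩ := exists_span hf h1
  have h0' : ∀ j, algebraMap K[X] (RatFunc K) (f j (i j)) ≠ 0 := fun j =>
    RatFunc.algebraMap_ne_zero (h0 j)
  set W : Vr io → RatFunc K := fun v =>
    algebraMap K[X] (RatFunc K) (f v.1 v.2) / algebraMap K[X] (RatFunc K) (f v.1 (i v.1))
  let l : K → K → MvPolynomial (Vr io) K := fun a b =>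
    MvPolynomial.C a * MvPolynomial.X ⟨j₁, s⟩ + MvPolynomial.C b * MvPolynomial.X ⟨j₁, s'⟩
  let H : ℕ → K[X] → MvPolynomial (Vr io) K := fun n g =>
    ∑ m ∈ Finset.range (n + 1), MvPolynomial.C (g.coeff m) * l a b ^ m * l a' b' ^ (n - m)
  have h4 : ∀ (R : Type) [Field R] [Algebra K R] (u : Vr io → R) n g,
      MvPolynomial.aeval u (H n g) = hev n (g.map (algebraMap K R))
        ![MvPolynomial.aeval u (l a b), MvPolynomial.aeval u (l a' b')] := fun R _ _ u n g => by
    simp [H, hev]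
  have h5 : ∀ a b, MvPolynomial.aeval W (l a b) = (algebraMap K[X] (RatFunc K) (f j₁ (i j₁)))⁻¹ *
      algebraMap K[X] (RatFunc K) (C a * f j₁ s + C b * f j₁ s') := fun a b => by
    simp only [l, W, map_add, map_mul, MvPolynomial.aeval_C, MvPolynomial.aeval_X,
      RatFunc.algebraMap_C, RatFunc.algebraMap_eq_C]
    ring
  have h6 : ∀ n g, g.natDegree ≤ n → MvPolynomial.aeval W (H n g) =
      (algebraMap K[X] (RatFunc K) (f j₁ (i j₁)))⁻¹ ^ n * algebraMap K[X] (RatFunc K) g :=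
    fun n g hg => by
      rw [h4, h5, h5, h2, h3, ← RatFunc.aeval_X_left_eq_algebraMap g, aeval_def, eval₂_eq_eval_map,
        show eval _ _ = _ from (hev_hx (natDegree_map_le.trans hg) (some _)).symm, ← hev_smul]
      simp [hx]
  set p : Fin 2 → E := ![MvPolynomial.aeval w (l a b), MvPolynomial.aeval w (l a' b')]
  have h7 : ∀ j s s', w ⟨j, s⟩ * hev (d j) ((f j s').map (algebraMap K E)) p =
      w ⟨j, s'⟩ * hev (d j) ((f j s).map (algebraMap K E)) p := fun j s s' => by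
    have h7 := h (MvPolynomial.X ⟨j, s⟩ * H (d j) (f j s') -
      MvPolynomial.X ⟨j, s'⟩ * H (d j) (f j s)) (by
        simp only [map_sub, map_mul, MvPolynomial.aeval_X, h6 _ _ (hf.1 j _), W]
        ring)
    simpa only [map_sub, map_mul, MvPolynomial.aeval_X, h4, sub_eq_zero] using h7
  have h8 : ∀ j, w ⟨j, i j⟩ = 1 := fun j => by
    have h8 := h (MvPolynomial.X ⟨j, i j⟩ - 1) (by simp [W, h0' j])
    rwa [map_sub, MvPolynomial.aeval_X, map_one, sub_eq_zero] at h8
  have h9 : p ≠ 0 := fun hp => by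
    have h9 := h (H 1 (f j₁ (i j₁)) - 1) (by
      rw [map_sub, h6 _ _ (h1 ▸ hf.1 j₁ _), pow_one, inv_mul_cancel₀ (h0' _), map_one, sub_self])
    rw [map_sub, h4, map_one, sub_eq_zero] at h9
    have h10 := hev_smul 1 ((f j₁ (i j₁)).map (algebraMap K E)) 0 p
    rw [zero_smul, ← hp, pow_one, zero_mul] at h10
    exact one_ne_zero (h9.symm.trans h10)
  choose m hm using fun j => cp_hev (hf.map (algebraMap K E)) j h9
  obtain ⟨u, t, hu, ht⟩ := exists_hx h9
  refine ⟨t, fun j => w ⟨j, m j⟩ / hev (d j) ((f j (m j)).map (algebraMap K E)) p * u ^ d j,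
    fun j => mul_ne_zero (div_ne_zero (fun h10 => hm j ?_) (hm j)) (pow_ne_zero _ hu),
    fun j s => ?_⟩
  · simpa [h8, h10] using h7 j (i j) (m j)
  · rw [mul_assoc, ← hev_hx (natDegree_map_le.trans (hf.1 j s)), ← hev_smul, ← ht,
      div_mul_eq_mul_div, ← h7, mul_div_cancel_right₀ _ (hm j)]

/-- **PAR** -/
theorem parStmt : ParStmt := by
  intro J _ _ io _ _ A _ T d ν j₁ K _ _ _ f hL E _ _ y hy
  choose i hi using hy.1
  have h0 : ∀ j, f j (i j) ≠ 0 := fun j h => hi j (by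
    simpa [pv] using hy.2 (MvPolynomial.X ⟨j, i j⟩) _ (MvPolynomial.isWeightedHomogeneous_X ℂ _ _)
      (by simpa [pf] using h))
  have h0' : ∀ j, algebraMap K[X] (RatFunc K) (f j (i j)) ≠ 0 := fun j =>
    RatFunc.algebraMap_ne_zero (h0 j)
  let W : Vr io → RatFunc K := fun v =>
    algebraMap K[X] (RatFunc K) (f v.1 v.2) / algebraMap K[X] (RatFunc K) (f v.1 (i v.1))
  let w : Vr io → E := fun v => y v.1 v.2 / y v.1 (i v.1)
  let z : {v : Vr io // ν v.1 ≠ 0} → K := fun t =>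
    (f t.1.1 t.1.2).coeff 0 / (f t.1.1 (i t.1.1)).coeff 0
  have h1 : ∀ P : MvPolynomial (Vr io) ℂ, MvPolynomial.aeval W P = 0 →
      MvPolynomial.aeval w P = 0 := fun P hP => by
    obtain ⟨q, κ, h1, h2⟩ := EndsZ.hmg i id P
    have h3 := h2 (RatFunc K) (fun j s => algebraMap K[X] (RatFunc K) (f j s)) W
      fun t => (mul_div_cancel₀ _ (h0' _)).symm
    rw [hP, mul_zero] at h3
    have h4 : pf f q = 0 := (map_eq_zero_iff _ (RatFunc.algebraMap_injective K)).1
      ((MvPolynomial.aeval_algebraMap_apply (RatFunc K) _ q).symm.trans h3)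
    exact (mul_eq_zero.1 ((h2 E y w fun t => (mul_div_cancel₀ _ (hi _)).symm).symm.trans
      (hy.2 q κ h1 h4))).resolve_left (Finset.prod_ne_zero_iff.2 fun j _ => pow_ne_zero _ (hi j))
  have h2 : ∀ j s, ν j ≠ 0 → f j s = C ((f j s).coeff 0) := fun j s hj =>
    eq_C_of_natDegree_le_zero (hL.zero j hj ▸ hL.cp.1 j s)
  have h3 : ∀ t, W t.1 = algebraMap K (RatFunc K) (z t) := fun t =>
    (congrArg₂ (algebraMap K[X] (RatFunc K) · / algebraMap K[X] (RatFunc K) ·) (h2 _ _ t.2)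
      (h2 _ _ t.2)).trans (map_div₀ (algebraMap K (RatFunc K)) _ _).symm
  have h4 : ∀ P : MvPolynomial _ ℂ, MvPolynomial.aeval z P = 0 →
      MvPolynomial.aeval (fun t : {v : Vr io // ν v.1 ≠ 0} => w t.1) P = 0 := fun P hP =>
    (MvPolynomial.aeval_rename Subtype.val w P).symm.trans (h1 _ (by
      rw [MvPolynomial.aeval_rename, show W ∘ Subtype.val = _ ∘ z from _root_.funext h3,
        MvPolynomial.aeval_algebraMap_apply, hP, map_zero]))
  have h5 : adjoin ℂ (range z) = ⊤ := (bas_eq (y := fun j s => (f j s).coeff 0) fun j hj h =>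
    h0 j (by rw [h2 _ _ hj, h, map_zero])).symm.trans hL.gen
  rw [bas_eq fun j _ => hi j, ← hL.dm]
  have := essFT_adjoin' (Set.finite_range fun t : {v : Vr io // ν v.1 ≠ 0} => w t.1)
  refine ⟨?_, fun h6 => ?_⟩
  · have h6 := EndsZ.trdeg_le_of_rel h4
    rwa [trdeg_eq_dim, trdeg_eq_dim, Nat.cast_le] at h6
  · obtain ⟨β, h7⟩ := exists_hom h4 h5 (trdeg_eq_dim (k := ℂ) (F := K) ▸ Cardinal.natCast_lt_aleph0)
      (by rwa [trdeg_eq_dim, trdeg_eq_dim, Nat.cast_le])
    letI := β.toRingHom.toAlgebra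
    haveI : IsScalarTower ℂ K E := IsScalarTower.of_algebraMap_eq fun c => (β.commutes c).symm
    obtain ⟨t, c, h8, h9⟩ := par_of_rel hL.cp hL.one h0
      (rel_ext Subtype.val h5 h3 (fun t => (h7 t).symm) h1)
    exact ⟨β, t, fun j => y j (i j) * c j, fun j => mul_ne_zero (hi j) (h8 j), fun j s =>
      (mul_div_cancel₀ _ (hi j)).symm.trans (by rw [mul_assoc]; exact congrArg _ (h9 j s))⟩

end Crest.Agent.X262.NumPar
end
end

-- ▼ part X262/NumPar/Sq
section

/-! # Row 262, road B, NUM-PAR (helper92): `Ends.SqStmt` unconditionally -/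

namespace Crest.Agent.X262.NumPar

/-- **SQ** -/
theorem sqStmt : Ends.SqStmt := EndsZ.sq_of parStmt

end Crest.Agent.X262.NumPar
end

-- ▼ part X262/Mob85/Main
section

/-!
# Row 262, road B, ENDS (helper85): curves of the swept variety

* `dim_bas_le`, `exists_lift`, `exists_mat`, `exists_cst`;
* `mob_of` : `Ends.ParStmt → Ends.MobStmt`.
-/

set_option autoImplicit false
set_option linter.unusedSectionVars false

noncomputable section

namespace Crest.Agent.X262.Mob85

open Crest.Agent.X277 Crest.Agent.X277.BD Polynomial Matrix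
open Crest.Agent.X262.Vb Crest.Agent.X262.Vb37 Crest.Agent.X262.Ends
open Crest.Agent.X262.Bub96 (hv)

variable {J : Type} [Fintype J] [DecidableEq J] {io : J → Type} [∀ j, Fintype (io j)]
  [∀ j, DecidableEq (io j)] {K E L : Type} [Field K] [Algebra ℂ K] [Field E] [Algebra ℂ E]
  [Field L] [Algebra ℂ L]

theorem eft_bas (ν : J → ℕ) (y : Pnt io E) : Algebra.EssFiniteType ℂ (bas ν y) :=
  IntermediateField.essFiniteType_iff.2 (IntermediateField.fg_adjoin_of_finite
    ((Set.finite_range fun x : Σ j, io j × io j => y x.1 x.2.1 / y x.1 x.2.2).subset (by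
      rintro _ ⟨j, i, i', -, rfl⟩
      exact ⟨⟨j, i, i'⟩, rfl⟩)))

theorem dim_bas_le (α : E →ₐ[ℂ] L) (ν : J → ℕ) {y : Pnt io E} {y' : Pnt io L}
    (h : ∀ j, ν j ≠ 0 → ∀ i, y' j i = α (y j i)) : dim ℂ (bas ν y) ≤ dim ℂ (bas ν y') := by
  have := eft_bas ν y
  have := eft_bas ν y'
  have h1 : (bas ν y).map α ≤ bas ν y' := by
    rw [bas, IntermediateField.adjoin_map]
    refine IntermediateField.adjoin.mono _ _ _ ?_
    rintro _ ⟨_, ⟨j, i, i', hj, rfl⟩, rfl⟩
    exact ⟨j, i, i', hj, by rw [h j hj, h j hj, map_div₀]⟩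
  exact dim_le ((IntermediateField.inclusion h1).comp
    (IntermediateField.equivMap (bas ν y) α).toAlgHom)

theorem exists_lift (α : E →ₐ[ℂ] L) (β : K →ₐ[ℂ] L) (h : ∀ x, β x ∈ α.range) :
    ∃ γ : K →ₐ[ℂ] E, ∀ x, α (γ x) = β x :=
  ⟨(AlgEquiv.ofInjective α α.injective).symm.toAlgHom.comp (β.codRestrict α.range h), fun x =>
    congrArg Subtype.val ((AlgEquiv.ofInjective α α.injective).apply_symm_apply ⟨β x, h x⟩)⟩

theorem hev_one (p : E[X]) (w : Fin 2 → E) : hev 1 p w = p.coeff 1 * w 0 + p.coeff 0 * w 1 := by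
  simp [hev, Finset.sum_range_succ, add_comm]

theorem hev_gen {n : ℕ} {p : E[X]} (h : p.natDegree ≤ n) :
    hev n (p.map (algebraMap E (RatFunc E))) (hx (some RatFunc.X)) =
      algebraMap E[X] (RatFunc E) p := by
  rw [hev_hx (natDegree_map_le.trans h), hv, eval_map_algebraMap,
    RatFunc.aeval_X_left_eq_algebraMap]

/-- two linear forms with a nonzero determinant determine the point of the line -/
theorem exists_mat {p q p' q' : E[X]} (hp : p.natDegree ≤ 1) (hq : q.natDegree ≤ 1)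
    (h : p.coeff 0 * q.coeff 1 ≠ q.coeff 0 * p.coeff 1) {w : Fin 2 → RatFunc E}
    (h1 : algebraMap E[X] (RatFunc E) p = hev 1 (p'.map (algebraMap E (RatFunc E))) w)
    (h2 : algebraMap E[X] (RatFunc E) q = hev 1 (q'.map (algebraMap E (RatFunc E))) w) :
    ∃ μ : Matrix (Fin 2) (Fin 2) E, μ.det ≠ 0 ∧
      w = μ.map (algebraMap E (RatFunc E)) *ᵥ hx (some RatFunc.X) := by
  have hC : ∀ c : E, algebraMap E[X] (RatFunc E) (C c) = algebraMap E (RatFunc E) c := fun c =>
    (IsScalarTower.algebraMap_apply E E[X] (RatFunc E) c).symm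
  rw [hev_one, coeff_map, coeff_map] at h1 h2
  have hD : p'.coeff 1 * q'.coeff 0 - p'.coeff 0 * q'.coeff 1 ≠ 0 := fun hD => by
    have hD' := congrArg (algebraMap E (RatFunc E)) hD
    rw [map_sub, map_mul, map_mul, map_zero] at hD'
    have key : ∀ a b : E, C b * p = C a * q → a = 0 := fun a b e => by
      have e0 := congrArg (coeff · 0) e
      have e1 := congrArg (coeff · 1) e
      simp only [coeff_C_mul] at e0 e1
      exact (mul_eq_zero.1 (by linear_combination p.coeff 1 * e0 - p.coeff 0 * e1)).resolve_right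
        (sub_ne_zero.2 h)
    have a0 := key (p'.coeff 0) (q'.coeff 0) (RatFunc.algebraMap_injective E (by
      rw [map_mul, map_mul, hC, hC, h1, h2]; linear_combination w 0 * hD'))
    have a1 := key (p'.coeff 1) (q'.coeff 1) (RatFunc.algebraMap_injective E (by
      rw [map_mul, map_mul, hC, hC, h1, h2]; linear_combination -w 1 * hD'))
    rw [a0, a1, map_zero, zero_mul, zero_mul, add_zero, map_eq_zero_iff _
      (RatFunc.algebraMap_injective E)] at h1
    simp [h1] at h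
  have hD' := (_root_.map_ne_zero (algebraMap E (RatFunc E))).2 hD
  rw [map_sub, map_mul, map_mul] at hD'
  rw [← hev_gen hp, hev_one, coeff_map, coeff_map] at h1
  rw [← hev_gen hq, hev_one, coeff_map, coeff_map] at h2
  refine ⟨(p'.coeff 1 * q'.coeff 0 - p'.coeff 0 * q'.coeff 1)⁻¹ •
    !![q'.coeff 0 * p.coeff 1 - p'.coeff 0 * q.coeff 1, q'.coeff 0 * p.coeff 0 - p'.coeff 0 * q.coeff 0;
      p'.coeff 1 * q.coeff 1 - q'.coeff 1 * p.coeff 1, p'.coeff 1 * q.coeff 0 - q'.coeff 1 * p.coeff 0],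
    ?_, ?_⟩
  · rw [det_smul, det_fin_two_of]
    refine mul_ne_zero (pow_ne_zero _ (inv_ne_zero hD)) fun h0 => mul_ne_zero hD (sub_ne_zero.2 h) ?_
    linear_combination -h0
  · simp only [hx, cons_val_zero, cons_val_one] at h1 h2
    generalize algebraMap E (RatFunc E) = a at hD' h1 h2 ⊢
    have hI := mul_inv_cancel₀ hD'
    funext i
    fin_cases i
    · simp [hx, mulVec, dotProduct, Fin.sum_univ_two]
      linear_combination (a (p'.coeff 0) * h2 - a (q'.coeff 0) * h1) *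
        (a (p'.coeff 1) * a (q'.coeff 0) - a (p'.coeff 0) * a (q'.coeff 1))⁻¹ - w 0 * hI
    · simp [hx, mulVec, dotProduct, Fin.sum_univ_two]
      linear_combination (a (q'.coeff 1) * h1 - a (p'.coeff 1) * h2) *
        (a (p'.coeff 1) * a (q'.coeff 0) - a (p'.coeff 0) * a (q'.coeff 1))⁻¹ - w 1 * hI

/-- a multiple of a coprime tuple of the same degree is a constant multiple -/
theorem exists_cst {ι : Type} [Fintype ι] {n : ℕ} {g m : ι → E[X]} (hg : ∀ i, (g i).natDegree ≤ n)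
    (h0 : ∃ i, g i ≠ 0) (h1 : ∃ i, (m i).coeff n ≠ 0) (h2 : Ideal.span (Set.range m) = ⊤)
    {c : RatFunc E}
    (h : ∀ i, algebraMap E[X] (RatFunc E) (g i) = c * algebraMap E[X] (RatFunc E) (m i)) :
    ∃ e : E, e ≠ 0 ∧ ∀ i, g i = C e * m i := by
  obtain ⟨u, hu⟩ := Ideal.mem_span_range_iff_exists_fun.1 ((Ideal.eq_top_iff_one _).1 h2)
  have h3 : algebraMap E[X] (RatFunc E) (∑ i, u i * g i) = c := by
    rw [← mul_one c, ← map_one (algebraMap E[X] (RatFunc E)), ← hu, map_sum, map_sum,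
      Finset.mul_sum]
    exact Finset.sum_congr rfl fun i _ => by rw [map_mul, map_mul, h, mul_left_comm]
  have h4 : ∀ i, g i = (∑ i, u i * g i) * m i := fun i =>
    RatFunc.algebraMap_injective E (by rw [map_mul, h3, h])
  generalize ∑ i, u i * g i = p at h4
  obtain ⟨i0, hi0⟩ := h0
  have h5 : p ≠ 0 := fun e => hi0 (by rw [h4, e, zero_mul])
  obtain ⟨i, hi⟩ := h1
  have h6 := hg i
  have h7 := le_natDegree_of_ne_zero hi
  rw [h4, natDegree_mul h5 fun e => hi (by rw [e, coeff_zero])] at h6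
  have h8 := eq_C_of_natDegree_eq_zero (show p.natDegree = 0 by omega)
  exact ⟨p.coeff 0, fun e => h5 (by rw [h8, e, C_0]), fun i => by rw [← h8, ← h4]⟩

/-- **MOB** -/
theorem mob_of (hP : ParStmt) : MobStmt := by
  intro J _ _ io _ _ A _ T d ν j₁ K _ _ _ f hL E _ _ g hd h0 hS hb ⟨i₁, i₂, hm⟩
  let a := algebraMap E[X] (RatFunc E)
  let α : E →ₐ[ℂ] RatFunc E := IsScalarTower.toAlgHom ℂ E (RatFunc E)
  have hy : ∀ j, ν j ≠ 0 → ∀ i, a (g j i) = α ((g j i).coeff 0) := fun j hj i => by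
    have h := eq_C_of_natDegree_le_zero ((hd j i).trans (hL.zero j hj).le)
    rw [h, coeff_C_zero]
    exact (IsScalarTower.algebraMap_apply E E[X] (RatFunc E) _).symm
  obtain ⟨β', t, c, hc, h1⟩ := (hP T d ν j₁ f hL (RatFunc E) (fun j i => a (g j i))
    ⟨fun j => (h0 j).imp fun i hi => (map_ne_zero_iff _ (RatFunc.algebraMap_injective E)).2 hi,
      fun q κ hq h => by
        have h2 := MvPolynomial.comp_aeval_apply (fun v : Vr io => g v.1 v.2)
          (IsScalarTower.toAlgHom ℂ E[X] (RatFunc E)) q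
        rw [show MvPolynomial.aeval (fun v : Vr io => g v.1 v.2) q = 0 from hS q κ hq h,
          map_zero] at h2
        exact h2.symm⟩).2 (hb.trans (dim_bas_le α ν hy))
  have h2 : ∀ x, β' x ∈ α.range := fun x => by
    have h3 : bas ν (fun j i => (f j i).coeff 0) ≤ α.fieldRange.comap β' := by
      refine IntermediateField.adjoin_le_iff.2 ?_
      rintro _ ⟨j, i, i', hj, rfl⟩
      have h4 : ∀ i, α ((g j i).coeff 0) = c j * β' ((f j i).coeff 0) := fun i => by
        have h5 := eq_C_of_natDegree_le_zero ((hL.cp.1 j i).trans (hL.zero j hj).le)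
        rw [← hy j hj, h1, hL.zero j hj]
        congr 1
        rw [h5]
        cases t <;> simp [hv]
      exact ⟨(g j i).coeff 0 / (g j i').coeff 0, by
        change α _ = β' _
        rw [map_div₀, map_div₀, h4, h4, mul_div_mul_left _ _ (hc j)]⟩
    exact h3 (hL.gen ▸ IntermediateField.mem_top)
  obtain ⟨β, hβ⟩ := exists_lift α β' h2
  have h3 : ∀ j i, a (g j i) = c j * (c j₁ ^ d j)⁻¹ * hev (d j)
      (((f j i).map (β : K →+* E)).map (algebraMap E (RatFunc E))) (c j₁ • hx t) := fun j i => by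
    rw [hev_smul, mul_assoc, inv_mul_cancel_left₀ (pow_ne_zero _ (hc j₁)), Polynomial.map_map,
      hev_hx (natDegree_map_le.trans (hL.cp.1 j i)), h1]
    congr 3
    exact RingHom.ext fun x => (hβ x).symm
  have h4 : ∀ i, a (g j₁ i) = hev 1
      (((f j₁ i).map (β : K →+* E)).map (algebraMap E (RatFunc E))) (c j₁ • hx t) := fun i => by
    rw [h3, hL.one, pow_one, mul_inv_cancel₀ (hc j₁), one_mul]
  obtain ⟨μ, hμ, hw⟩ := exists_mat (hL.one ▸ hd j₁ i₁) (hL.one ▸ hd j₁ i₂) hm (h4 i₁) (h4 i₂)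
  have cp := cp_mob (hL.cp.map (β : K →+* E)) hμ (c := fun _ => 1) fun _ => one_ne_zero
  simp only [C_1, one_mul] at cp
  choose e he he' using fun j => exists_cst (hd j) (h0 j) (cp.2.1 j) (cp.2.2 j)
    (c := c j * (c j₁ ^ d j)⁻¹) fun i => by
      rw [← hev_gen (natDegree_mob _ _ _), mob_map, hev_mob, ← hw]
      exact h3 j i
  exact ⟨β, μ, e, hμ, he, he'⟩

end Crest.Agent.X262.Mob85
end
end

-- ▼ part X262/Ex19/Val
section

/-!
# Row 262, road B, ENDS (helper19), part 1: a Rees valuation along a component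

* `le_dim`     : independent elements of a subfield;
* `exists_val` : a divisorial valuation centred on a component of `V(s)` through a given prime,
  whose residue field is algebraic over the field of the centre and of the normal direction.
-/

set_option autoImplicit false

open MvPolynomial IsLocalRing

noncomputable section

namespace Crest.Agent.X262.Ex19

open Crest.Agent.X277 Crest.Agent.X277.BD Crest.Agent.X277.Pst Crest.Agent.X277.BD.Cyc
open Crest.Agent.R276.DivVal_858 (ResInd)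

variable {L : Type} [Field L] [Algebra ℂ L] [Algebra.EssFiniteType ℂ L]

theorem le_dim (S : IntermediateField ℂ L) {ι : Type} [Finite ι] {x : ι → L}
    (hx : AlgebraicIndependent ℂ x) (h : ∀ i, x i ∈ S) : Nat.card ι ≤ dim ℂ S := by
  have := R276.FGSub_595.essFiniteType_of_tower ℂ S L
  have h1 := (AlgebraicIndependent.of_comp S.val (x := fun i => (⟨x i, h i⟩ : S))
    hx).cardinalMk_le_trdeg
  rw [trdeg_eq_dim, ← Nat.cast_card] at h1
  exact_mod_cast h1

theorem exists_val {σ ι : Type} [Finite σ] [Fintype ι] (φ : MvPolynomial σ ℂ →ₐ[ℂ] L)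
    (hφ : Function.Injective φ) (hd : dim ℂ L = Nat.card σ) (s : ι → MvPolynomial σ ℂ)
    (hs : s ≠ 0) (P₀ : Ideal (MvPolynomial σ ℂ)) [P₀.IsPrime] (h0 : ∀ i, s i ∈ P₀) :
    ∃ (W : RZ ℂ L) (τ : L), Dvs W ∧ (∀ r, φ r ∈ W.1) ∧ (∀ r, W.v (φ r) < 1 → r ∈ P₀) ∧
      (∀ i, W.v (φ (s i)) < 1) ∧ (∀ i, τ * φ (s i) ∈ W.1) ∧
      (fun i => (plV W).r (τ * φ (s i))) ≠ 0 ∧
      ∀ S : IntermediateField ℂ (Rf W), (∀ v, (plV W).r (φ (X v)) ∈ S) →
        qf ℂ (fun i => (plV W).r (τ * φ (s i))) ≤ S → dim ℂ (Rf W) ≤ dim ℂ S := by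
  classical
  obtain ⟨P, hP, hle⟩ := Ideal.exists_minimalPrimes_le
    (Ideal.span_le.2 (Set.range_subset_iff.2 h0) : Ideal.span (Set.range s) ≤ P₀)
  have := hP.1.1
  have hsP : ∀ i, s i ∈ P := fun i => hP.1.2 (Ideal.subset_span ⟨i, rfl⟩)
  let O := Localization.AtPrime P
  let a := algebraMap (MvPolynomial σ ℂ) O
  have hu : ∀ y : P.primeCompl, IsUnit (φ.toRingHom y) := fun y =>
    Ne.isUnit fun h => y.2 (by rw [hφ (h.trans (map_zero φ).symm)]; exact P.zero_mem)
  let _ : Algebra O L := (IsLocalization.lift hu).toAlgebra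
  have ha : ∀ r, algebraMap O L (a r) = φ r := IsLocalization.lift_eq hu
  have hm : ∀ r, a r ∈ maximalIdeal O ↔ r ∈ P := IsLocalization.AtPrime.to_map_mem_maximal_iff O P
  have hinj : Function.Injective (algebraMap O L) := (injective_iff_map_eq_zero _).2 fun x hx => by
    obtain ⟨⟨r, y⟩, rfl⟩ := IsLocalization.mk'_surjective P.primeCompl x
    have h1 := congrArg (algebraMap O L) (IsLocalization.mk'_spec O r y)
    rw [map_mul, hx, zero_mul, ha] at h1
    rw [hφ (h1.symm.trans (map_zero φ).symm)]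
    exact IsLocalization.mk'_zero _
  obtain ⟨i₀, hi₀⟩ := Function.ne_iff.1 hs
  obtain ⟨l, t, V, h1, h2, h3, h4, h5, h6, h7⟩ := Ends.rees (k := ℂ) hinj (s := fun i => a (s i))
    (fun p hp h => by
      have h8 : p.under (MvPolynomial σ ℂ) ≤ P := fun r hr => (hm r).1 (le_maximalIdeal hp.ne_top hr)
      rw [← IsLocalization.map_under P.primeCompl O p, le_antisymm h8
        (hP.2 ⟨inferInstance, Ideal.span_le.2 (Set.range_subset_iff.2 h)⟩ h8),
        Localization.AtPrime.map_eq_maximalIdeal])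
    (fun i => (hm _).2 (hsP i)) fun h => hi₀ (hφ (by
      have h8 := (hm _).2 (hsP i₀)
      rw [h, Ideal.mem_bot] at h8
      rw [← ha, h8, map_zero, Pi.zero_apply, map_zero]))
  have hV : ∀ r, φ r ∈ V := fun r => ha r ▸ h4 _
  let W : RZ ℂ L := ⟨V, fun c => φ.commutes c ▸ hV _⟩
  have hc : ∀ r, V.valuation (φ r) < 1 ↔ r ∈ P := fun r => by
    rw [← hm, ← ha, ← aeval_C (fun j : Fin l => algebraMap O L (t j.succ) / algebraMap O L (t 0)),
      h7]
    exact ⟨fun h => by simpa using h 0, fun h n => by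
      rw [coeff_C]; split_ifs; exacts [h, zero_mem _]⟩
  obtain ⟨κ, _, j, hj, hk⟩ := R003.card_le_height_add ℂ σ P
  let y : Fin l ⊕ κ → L := Sum.elim (fun k => algebraMap O L (t k.succ) / algebraMap O L (t 0))
    fun i => φ (X (j i))
  have h8 : ∀ k, algebraMap O L (t k) / algebraMap O L (t 0) ∈ V := fun k =>
    (RZ.le_iff (V := W) h3).1 (h6 k)
  have hy : ResInd ℂ V y := by
    refine ⟨fun i => by rcases i with k | i; exacts [h8 _, hV _], fun Q hQ => ?_⟩
    let ψ : MvPolynomial κ ℂ →+* O := a.comp (rename j : _ →ₐ[ℂ] _)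
    have e : aeval y Q = aeval (fun k : Fin l => algebraMap O L (t k.succ) / algebraMap O L (t 0))
        (MvPolynomial.map ψ (sumAlgEquiv ℂ _ _ Q)) := by
      clear hQ
      induction Q using MvPolynomial.induction_on with
      | C c => simp [ψ, ha]
      | add p q hp hq => simp only [map_add, hp, hq]
      | mul_X p n hp => rcases n with k | i <;> simp [hp, y, ψ, ha]
    obtain ⟨n, hn⟩ := MvPolynomial.ne_zero_iff.1 ((map_ne_zero_iff _
      (sumAlgEquiv ℂ (Fin l) κ).injective).2 hQ)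
    rw [e]
    refine le_antisymm (Ends.val_aeval_le _ (fun x => V.valuation_le_one_iff _ |>.2 (h4 x))
      (fun k => V.valuation_le_one_iff _ |>.2 (h8 _)) _) (not_lt.1 fun h => hn (hj _ ?_))
    have h9 := (h7 _).1 h n
    rw [coeff_map] at h9
    exact (hm _).1 h9
  have hcard : dim ℂ L ≤ Nat.card (Fin l ⊕ κ) + 1 := by
    have h9 : P.height ≤ (l + 1 : ℕ) := by
      rw [← Localization.AtPrime.under_maximalIdeal (I := P),
        IsLocalization.height_under P.primeCompl]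
      exact h1
    have h10 := hk.trans (add_le_add h9 le_rfl)
    rw [hd, Nat.card_sum, Nat.card_eq_fintype_card (α := Fin l), Fintype.card_fin]
    have h11 : Nat.card σ ≤ l + 1 + Nat.card κ := by exact_mod_cast h10
    omega
  have hne : V ≠ ⊤ := fun h => hi₀ (hφ (by
    have h9 := (hc _).2 (hsP i₀)
    by_contra h10
    rw [Pi.zero_apply, map_zero] at h10
    have h11 := (V.valuation_le_one_iff (φ (s i₀))⁻¹).2 (h ▸ trivial)
    rw [map_inv₀, inv_le_one₀ (RZ.pos (V := W) h10)] at h11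
    exact h11.not_gt h9))
  have hW : Dvs W := by
    have := Fintype.ofFinite κ
    obtain ⟨e⟩ := Function.Embedding.nonempty_of_card_le (α := Fin (dim ℂ L - 1)) (β := Fin l ⊕ κ)
      (by rw [Fintype.card_fin, ← Nat.card_eq_fintype_card]; omega)
    exact R276.DivVal_858.isDiv_iff.2 ⟨W.2, hne, y ∘ e, fun i => hy.1 _, fun Q hQ => by
      rw [← aeval_rename]
      exact hy.2 _ ((map_ne_zero_iff _ (rename_injective _ e.injective)).2 hQ)⟩
  have hτ : ∀ i, (algebraMap O L (t 0))⁻¹ * φ (s i) ∈ V := fun i => by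
    rw [← ha, ← div_eq_inv_mul]
    exact (RZ.le_iff (V := W) h3).1 (h5 i)
  have hsum : ∀ k, ∃ c : ι → ℂ, (plV W).r (algebraMap O L (t k) / algebraMap O L (t 0)) =
      ∑ i, c i • (plV W).r ((algebraMap O L (t 0))⁻¹ * φ (s i)) := fun k => by
    obtain ⟨c, hc⟩ := (Submodule.mem_span_range_iff_exists_fun ℂ).1 (h2 k)
    refine ⟨c, ?_⟩
    have e := (Geo.r_aeval (lnr_plV W) hτ (∑ i, C (c i) * X i)).2
    simp only [map_sum, map_mul, aeval_C, aeval_X, ← Algebra.smul_def] at e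
    rw [← e, ← hc, map_sum, Finset.sum_div]
    congr 1
    refine Finset.sum_congr rfl fun i _ => ?_
    rw [Algebra.smul_def, Algebra.smul_def, map_mul,
      IsScalarTower.algebraMap_apply ℂ (MvPolynomial σ ℂ) O, ha, ha, φ.commutes]
    ring
  obtain ⟨c, hc0⟩ := hsum 0
  rw [div_self h3, Pl.r_one] at hc0
  have hu0 : (fun i => (plV W).r ((algebraMap O L (t 0))⁻¹ * φ (s i))) ≠ 0 := fun h =>
    one_ne_zero (hc0.trans (Finset.sum_eq_zero fun i _ => by rw [congrFun h i]; simp))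
  refine ⟨W, _, hW, hV, fun r h => hle ((hc r).1 h), fun i => (hc _).2 (hsP i), hτ, hu0,
    fun S hS hq => ?_⟩
  set u := fun i => (plV W).r ((algebraMap O L (t 0))⁻¹ * φ (s i))
  obtain ⟨x, hx⟩ := Function.ne_iff.1 hu0
  have hx' : u x ≠ 0 := hx
  have h9 : (u x)⁻¹ ∈ S := by
    rw [← one_div, hc0, Finset.sum_div]
    exact sum_mem fun i _ => by
      rw [smul_div_assoc]; exact S.smul_mem (hq (div_mem_qf u x i))
  have h10 : ∀ i, u i ∈ S := fun i => by
    simpa [hx'] using div_mem (hq (div_mem_qf u x i)) h9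
  have := Geo.essFT_Rf hW
  have h11 := le_dim S ((Geo.resInd_iff (lnr_plV W) hy.1).1 hy) fun i => by
    rcases i with k | i
    · obtain ⟨c, hc⟩ := hsum k.succ
      exact hc ▸ sum_mem fun i _ => S.smul_mem (h10 i)
    · exact hS _
  have h12 := Geo.dim_Rf' hW
  omega

end Crest.Agent.X262.Ex19
end
end

-- ▼ part X262/Ex19/Main
section

/-!
# Row 262, road B, ENDS (helper19), part 2: `ExStmt`

* `cp_gen` : coprimality of a family of forms passes to generisations;
* `ex_of`  : `MobStmt → ExStmt`.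
-/

set_option autoImplicit false
set_option linter.unusedSectionVars false

open Polynomial hiding funext

noncomputable section

namespace Crest.Agent.X262.Ex19

open Crest.Agent.X277 Crest.Agent.X277.BD Crest.Agent.X277.Pst Crest.Agent.X277.BD.Cyc
open Crest.Agent.X262.Vb Crest.Agent.X262.Vb37 Crest.Agent.X262.Ends
open Crest.Agent.X262.Bub96 (hv Tr)
open Crest.Agent.X262.Bub96.Tr (dot)

variable {J : Type} [Fintype J] [DecidableEq J] {io : J → Type} [∀ j, Fintype (io j)]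
  [∀ j, DecidableEq (io j)] {d : J → ℕ}

theorem cp_gen {R K E : Type} [CommRing R] [Field K] [Field E] (φ : R →+* K) (ψ : R →+* E)
    (h : RingHom.ker ψ ≤ RingHom.ker φ) {F : (j : J) → io j → R[X]}
    (h1 : ∀ j i, (F j i).natDegree ≤ d j) (h2 : ∀ j, ∃ i, (F j i).coeff (d j) = 1)
    (hc : Cp d fun j i => (F j i).map φ) : Cp d fun j i => (F j i).map ψ := by
  let α := algebraMap E (AlgebraicClosure E)
  refine cp_of_closed α (fun j i => natDegree_map_le.trans (h1 j i)) fun j t => ?_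
  obtain ⟨i₀, hi₀⟩ := h2 j
  rcases t with _ | t
  · exact ⟨i₀, by simp [hv, hi₀]⟩
  by_contra! h0
  have := RingHom.ker_isPrime φ
  obtain ⟨V, hV, hP⟩ := exists_centre (α.comp ψ) (RingHom.ker φ)
    fun r hr => h (α.injective (hr.trans (map_zero α).symm))
  let χ : R →+* V := (α.comp ψ).codRestrict V hV
  have h3 : ∀ i, ((F j i).map χ).eval₂ (algebraMap V _) t = 0 := fun i => by
    rw [eval₂_map, ← h0 i, hv, Polynomial.map_map, eval_map]
    rfl
  obtain ⟨t₁, rfl⟩ := IsIntegrallyClosed.isIntegral_iff.1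
    (⟨_, (monic_of_natDegree_le_of_coeff_eq_one _ (h1 j i₀) hi₀).map χ, h3 i₀⟩ : IsIntegral V t)
  let ρ := (IsLocalRing.residue V).comp χ
  have hρ : ∀ r, ρ r = 0 ↔ φ r = 0 := fun r =>
    ((IsLocalRing.residue_eq_zero_iff _).trans (V.valuation_lt_one_iff _)).trans (hP r)
  let a := algebraMap R (RingHom.ker φ).ResidueField
  let l₁ := Ideal.ResidueField.lift (RingHom.ker φ) φ le_rfl fun r hr => Ne.isUnit hr
  let l₂ := Ideal.ResidueField.lift (RingHom.ker φ) ρ (fun r hr => (hρ r).2 hr)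
    fun r hr => Ne.isUnit (mt (hρ r).1 hr)
  have e₁ : l₁.comp a = φ := RingHom.ext fun r => by simp [l₁, a]
  have e₂ : l₂.comp a = ρ := RingHom.ext fun r => by simp [l₂, a]
  have h4 : Cp d fun j i => (F j i).map a :=
    cp_of_closed ((algebraMap K (AlgebraicClosure K)).comp l₁)
      (fun j i => natDegree_map_le.trans (h1 j i)) fun j t => by
        simpa only [Polynomial.map_map, RingHom.comp_assoc, e₁] using
          cp_hv (hc.map (algebraMap K (AlgebraicClosure K))) j t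
  obtain ⟨i, hi⟩ := cp_hv (h4.map l₂) j (some (IsLocalRing.residue V t₁))
  refine hi ?_
  have h5 : ((F j i).map χ).eval t₁ = 0 := Subtype.ext ((eval₂_at_apply _ _).symm.trans (h3 i))
  rw [Polynomial.map_map, e₂, hv, ← Polynomial.map_map, eval_map, eval₂_at_apply, h5, map_zero]

section pf

variable {E E' : Type} [Field E] [Algebra ℂ E] [Field E'] [Algebra ℂ E']
  {q : MvPolynomial (Vr io) ℂ} {κ : J → ℕ}

theorem hv_pf (h : MH q κ) {g : (j : J) → io j → E[X]} (hg : ∀ j i, (g j i).natDegree ≤ d j) :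
    (pf g q).natDegree ≤ dot κ d ∧ ∀ t, hv (dot κ d) (pf g q) t = pv (pt d g t) q := by
  have h1 : (∑ j, (κ j : ℤ) * d j) = (dot κ d : ℕ) := by simp only [dot]; push_cast; rfl
  have h2 := (Tree87.MZ.of_MH h).sb hg
  rw [h1] at h2
  exact ⟨Tree87.DL_nat.1 h2.1, fun t => (Tree87.ev_eq_hv _ _ _).symm.trans (h2.2 t)⟩

theorem pf_map {R : Type} [CommRing R] [Algebra ℂ R] (r : R →ₐ[ℂ] E) (g : (j : J) → io j → R[X])
    (q : MvPolynomial (Vr io) ℂ) : pf (fun j i => (g j i).map (r : R →+* E)) q =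
      (MvPolynomial.aeval (fun v : Vr io => g v.1 v.2) q).map (r : R →+* E) :=
  (MvPolynomial.comp_aeval_apply (fun v : Vr io => g v.1 v.2) (mapAlgHom r) q).symm

theorem pf_eq_zero (h : MH q κ) {g : (j : J) → io j → E[X]} (hg : ∀ j i, (g j i).natDegree ≤ d j)
    (h0 : ∀ t, pv (pt d g (some t)) q = 0) : pf g q = 0 :=
  have := inf_of_alg E
  Polynomial.funext fun t => ((hv_pf h hg).2 (some t)).trans ((h0 t).trans eval_zero.symm)

theorem pf_scf (h : MH q κ) {g : (j : J) → io j → E[X]} (hg : ∀ j i, (g j i).natDegree ≤ d j)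
    {s : J → E} (hs : ∀ j, s j ≠ 0) (h0 : pf g q = 0) : pf (scf s g) q = 0 :=
  pf_eq_zero h (fun j i => (natDegree_C_mul_le _ _).trans (hg j i)) fun t => by
    have e : pt d (scf s g) (some t) = fun j i => s j * pt d g (some t) j i :=
      funext fun j => funext fun i => hv_C_mul _ _ _ _
    rw [e, (Tree87.MZ.of_MH h).pv_scl hs, ← (hv_pf h hg).2, h0]
    simp [hv]

end pf

theorem fm_gen {M K : Type} [Fintype M] [Field K] [Algebra ℂ K] (η : Dat io d M K)
    {p0 : (j : J) → io j × Fin (d j + 1)} (a b c : M)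
    (h0 : ∀ j, (η.f j (p0 j).1).coeff (p0 j).2 ≠ 0) :
    fm p0 a b c (gen η p0 a b c) = scf (fun j => ((η.f j (p0 j).1).coeff (p0 j).2)⁻¹) η.f := by
  funext j i
  ext l
  rw [scf, coeff_C_mul]
  by_cases hl : l < d j + 1
  · rw [coeff_fm p0 a b c _ j i ⟨l, hl⟩, cf]
    split_ifs with h
    · have := h0 j
      rw [← h] at this ⊢
      exact (inv_mul_cancel₀ this).symm
    · exact div_eq_inv_mul _ _
  · rw [coeff_eq_zero_of_natDegree_lt ((natDegree_fm p0 a b c _ j i).trans_lt (by omega)),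
      coeff_eq_zero_of_natDegree_lt ((η.cp.1 j i).trans_lt (by omega)), mul_zero]

theorem exists_minor {K : Type} [Field K] {f : (j : J) → io j → K[X]} (h : Cp d f) {j : J}
    (h1 : d j = 1) :
    ∃ i i', (f j i).coeff 0 * (f j i').coeff 1 ≠ (f j i').coeff 0 * (f j i).coeff 1 := by
  by_contra! h0
  obtain ⟨i₀, hi₀⟩ := h.2.1 j
  rw [h1] at hi₀
  obtain ⟨i, hi⟩ := cp_hv h j (some (-(f j i₀).coeff 0 / (f j i₀).coeff 1))
  refine hi ?_
  rw [hv, eq_X_add_C_of_natDegree_le_one (p := f j i) (h1 ▸ h.1 j i)]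
  simp only [eval_add, eval_mul, eval_C, eval_X]
  field_simp
  linear_combination h0 i i₀

/-- **a component of good reduction with generic normal direction** -/
theorem ex_of (hM : MobStmt) : ExStmt := by
  intro J _ _ io _ _ A _ T d ν j₁ K _ _ _ f hT hL M K₀ L _ _ _ _ _ _ _ ξ θ hu hc hθ
  classical
  obtain ⟨a, b, c, hn⟩ := hu.1
  choose i₀ hi₀ using hL.cp.2.1
  let p0 : (j : J) → io j × Fin (d j + 1) := fun j => (i₀ j, Fin.last _)
  have h0 : ∀ j, (ξ.f j (p0 j).1).coeff (p0 j).2 ≠ 0 := fun j => univ_coeff_ne hu j _ le_rfl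
  have h0' : ∀ j, ((ξ.map θ).f j (p0 j).1).coeff (p0 j).2 ≠ 0 := fun j => by
    rw [Dat.map, coeff_map]
    exact (map_ne_zero θ).2 (h0 j)
  let R := MvPolynomial (Ix p0 a b c) ℂ
  let F : (j : J) → io j → R[X] := fm p0 a b c MvPolynomial.X
  have F1 : ∀ j i, (F j i).natDegree ≤ d j := natDegree_fm p0 a b c _
  have F2 : ∀ j, (F j (i₀ j)).coeff (d j) = 1 := fun j =>
    (coeff_fm p0 a b c _ j (i₀ j) (Fin.last _)).trans (dif_pos rfl)
  have F3 : ∀ {S : Type} [CommRing S] [Algebra ℂ S] (G : Ix p0 a b c → S) j i,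
      (F j i).map (MvPolynomial.aeval G : R →ₐ[ℂ] S) = fm p0 a b c G j i := fun G j i => by
    rw [map_fm]
    congr 1
    exact funext (MvPolynomial.aeval_X G)
  let sA : Cx T d → R := fun x =>
    (MvPolynomial.aeval (fun v : Vr io => F v.1 v.2) (T.F x.1)).coeff x.2
  have hsA : ∀ {E : Type} [Field E] [Algebra ℂ E] (r : R →ₐ[ℂ] E) x,
      eqc T d (fun j i => (F j i).map (r : R →+* E)) x = r (sA x) := fun r x => by
    rw [eqc, pf_map, coeff_map]
    rfl
  -- the generic point and the special point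
  let φ : R →ₐ[ℂ] L := MvPolynomial.aeval (gen (ξ.map θ) p0 a b c)
  let η : Dat io d M K := ⟨f, fun _ => none, hL.cp⟩
  let φ₀ : R →ₐ[ℂ] K := MvPolynomial.aeval (gen η p0 a b c)
  let s : J → L := fun j => (((ξ.map θ).f j (p0 j).1).coeff (p0 j).2)⁻¹
  have e : (fun j i => (F j i).map (φ : R →+* L)) = scf s (ξ.map θ).f :=
    (funext fun j => funext (F3 _ j)).trans (fm_gen _ a b c h0')
  have e₀ : (fun j i => (F j i).map (φ₀ : R →+* K)) = scf (fun j => ((f j (i₀ j)).coeff (d j))⁻¹) f :=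
    (funext fun j => funext (F3 _ j)).trans (fm_gen η (p0 := p0) a b c hi₀)
  have hφ : Function.Injective φ := by
    have e1 : gen (ξ.map θ) p0 a b c = θ ∘ gen ξ p0 a b c := funext fun x => by
      rcases x with ⟨j, p⟩ | q
      · simp [Vb37.gen, Dat.map]
      · rcases h : ξ.x q.1 with _ | t <;> simp [Vb37.gen, Dat.map, h]
    have := (indep_gen hu hn h0).2.map' (f := θ) θ.injective
    rwa [← e1] at this
  have hs : sA ≠ 0 := fun h => by
    obtain ⟨α, hα⟩ := hT
    obtain ⟨y, hy⟩ : ∃ y : Vr io → ℂ,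
        MvPolynomial.eval y (T.F α * ∏ j, MvPolynomial.X ⟨j, i₀ j⟩) ≠ 0 := by
      by_contra! h1
      exact mul_ne_zero hα (Finset.prod_ne_zero_iff.2 fun j _ => MvPolynomial.X_ne_zero _)
        (MvPolynomial.funext fun y => (h1 y).trans (map_zero _).symm)
    rw [map_mul, map_prod] at hy
    have hy0 : ∀ j, y ⟨j, i₀ j⟩ ≠ 0 := fun j => by
      simpa using Finset.prod_ne_zero_iff.1 (right_ne_zero_of_mul hy) j (Finset.mem_univ j)
    let G : Ix p0 a b c → ℂ := Sum.elim (fun x => (y ⟨x.1, i₀ x.1⟩)⁻¹ * y ⟨x.1, x.2.1.1⟩) 0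
    have h1 := hsA (MvPolynomial.aeval G) ⟨α, Fin.last _⟩
    rw [h, Pi.zero_apply, map_zero] at h1
    let r : R →ₐ[ℂ] ℂ := MvPolynomial.aeval G
    have h2 := (hv_pf (T.hom α) (g := fun j i => (F j i).map (r : R →+* ℂ))
      fun j i => natDegree_map_le.trans (F1 j i)).2 none
    have h3 : pt d (fun j i => (F j i).map (r : R →+* ℂ)) none =
        fun j i => (y ⟨j, i₀ j⟩)⁻¹ * y ⟨j, i⟩ := funext fun j => funext fun i => by
      rw [pt, F3]
      refine (coeff_fm p0 a b c G j i (Fin.last _)).trans ?_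
      rw [cf]
      split_ifs with h
      · rw [show i = i₀ j from congrArg Prod.fst h, inv_mul_cancel₀ (hy0 j)]
      · rfl
    rw [h3, (Tree87.MZ.of_MH (T.hom α)).pv_scl (fun j => inv_ne_zero (hy0 j))
      fun j i => y ⟨j, i⟩] at h2
    exact mul_ne_zero (Finset.prod_ne_zero_iff.2 fun j _ => zpow_ne_zero _ (inv_ne_zero (hy0 j)))
      (left_ne_zero_of_mul hy) (h2.symm.trans h1)
  have := RingHom.ker_isPrime φ₀
  obtain ⟨W, τ, w1, w2, w3, w4, w5, w6, w7⟩ := exists_val φ hφ (by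
      have h1 := hu.2.2
      rw [trdeg_eq_dim, Nat.cast_inj] at h1
      rw [(deg_pos_iff θ).1 hθ, h1, card_Ix p0 (Nm3.ne hn).1 (Nm3.ne hn).2.1 (Nm3.ne hn).2.2])
    sA hs (RingHom.ker φ₀) fun x => by
      rw [RingHom.mem_ker, ← hsA, e₀, eqc, pf_scf (T.hom _) hL.cp.1
        (fun j => inv_ne_zero (hi₀ j)) (hL.on _), coeff_zero]
  let ρ : R →ₐ[ℂ] Rf W :=
    ⟨(plV W).φ.comp ((φ : R →+* L).codRestrict W.1 w2), fun c =>
      ((plV W).r_eq (w2 _)).symm.trans ((congrArg _ (φ.commutes c)).trans (lnr_plV W c))⟩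
  have hρ : ∀ r, (plV W).r (φ r) = ρ r := fun r => (plV W).r_eq (w2 r)
  have hk : ∀ r, ρ r = 0 → φ₀ r = 0 := fun r h =>
    w3 r ((Pl.r_eq_zero (p := plV W) (w2 r)).1 ((hρ r).trans h))
  let g : (j : J) → io j → (Rf W)[X] := fun j i => (F j i).map (ρ : R →+* Rf W)
  have g1 : ∀ j i, (g j i).natDegree ≤ d j := fun j i => natDegree_map_le.trans (F1 j i)
  have g2 : ∀ j, (g j (i₀ j)).coeff (d j) = 1 := fun j => by rw [coeff_map, F2, map_one]
  have e1 : ∀ j i l, s j * ((ξ.map θ).f j i).coeff l = φ ((F j i).coeff l) := fun j i l =>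
    ((coeff_map _ _).symm.trans ((congrArg (coeff · l) (congrFun (congrFun e j) i)).trans
      (coeff_C_mul _))).symm
  have e2 : ∀ j i l, φ₀ ((F j i).coeff l) = ((f j (i₀ j)).coeff (d j))⁻¹ * (f j i).coeff l :=
    fun j i l => (coeff_map _ _).symm.trans
      ((congrArg (coeff · l) (congrFun (congrFun e₀ j) i)).trans (coeff_C_mul _))
  have := Geo.essFT_Rf w1
  refine ⟨W, s, g, τ, fun x => (plV W).r (τ * φ (sA x)), w1,
    ⟨fun j i l => e1 j i l ▸ w2 _, fun j i l => by rw [e1, hρ, coeff_map]; rfl,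
      fun j => ⟨_, _, g2 j⟩⟩,
    hM T d ν j₁ f hL _ g g1 (fun j => ⟨i₀ j, fun h => one_ne_zero ((g2 j).symm.trans
      (by rw [h, coeff_zero]))⟩) ?_ ?_ ?_,
    fun y => by rw [← e, hsA]; exact w5 y, fun y => by rw [← e, hsA], w6,
    w7 _ (fun v => (le_sup_left : cfl g ≤ _) ?_) le_sup_right⟩
  · -- the curve satisfies the relations of the line
    intro q κ hq h1
    let α := IsScalarTower.toAlgHom ℂ (Rf W) (AlgebraicClosure (Rf W))
    have hcp : Cp d g := cp_gen (φ₀ : R →+* K) (ρ : R →+* Rf W) hk F1 (fun j => ⟨_, F2 j⟩) (by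
      rw [e₀]
      have := inf_of_alg K
      unfold scf
      simpa [mob_one (hL.cp.1 _ _)] using
        cp_mob hL.cp (g := 1) (by simp) fun j => inv_ne_zero (hi₀ j))
    have hcp' := hcp.map (α : Rf W →+* AlgebraicClosure (Rf W))
    have hon : ∀ x, pf g (T.F x) = 0 := fun x => Polynomial.ext fun l => by
      by_cases hl : l < dot (T.k x) d + 1
      · exact (hsA ρ ⟨x, l, hl⟩).trans ((hρ _).symm.trans
          ((Pl.r_eq_zero (p := plV W) (w2 _)).2 (w4 _)))
      · exact coeff_eq_zero_of_natDegree_lt ((hv_pf (T.hom x) g1).1.trans_lt (by omega))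
    refine map_injective _ α.injective ((pf_map α g q).symm.trans ?_)
    rw [Polynomial.map_zero]
    refine pf_eq_zero hq hcp'.1 fun t => hL.sw q κ hq h1 _ _
      ⟨_, _, _, inferInstance, AlgHom.id ℂ _, Tr.leaf d _, fun _ => ((), some t), fun _ _ => 1,
        ⟨hcp'.1, cp_hv hcp'⟩, rfl, fun u x => ?_, fun _ _ => one_ne_zero,
        fun _ j i => (one_mul _).symm⟩
    refine ((hv_pf (T.hom x) hcp'.1).2 u.2).symm.trans ?_
    rw [pf_map]
    change hv _ ((pf g (T.F x)).map _) _ = 0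
    rw [hon]
    rcases u.2 with _ | t <;> simp [hv]
  · -- the base point is generic
    let w : {v : Vr io // ν v.1 ≠ 0} → R := fun v => (F v.1.1 v.1.2).coeff 0
    have h1 : IntermediateField.adjoin ℂ (Set.range fun v => φ₀ (w v)) = ⊤ := by
      rw [eq_top_iff, ← hL.gen, bas, IntermediateField.adjoin_le_iff]
      rintro _ ⟨j, i, i', hj, rfl⟩
      rw [← mul_div_mul_left _ _ (inv_ne_zero (hi₀ j)), ← e2, ← e2]
      exact div_mem (IntermediateField.subset_adjoin _ _ ⟨⟨⟨j, i⟩, hj⟩, rfl⟩)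
        (IntermediateField.subset_adjoin _ _ ⟨⟨⟨j, i'⟩, hj⟩, rfl⟩)
    have : Algebra.IsAlgebraic (Algebra.adjoin ℂ (Set.range fun v => φ₀ (w v))) K := by
      rw [← IntermediateField.isAlgebraic_adjoin_iff_top, h1, Algebra.isAlgebraic_iff_isIntegral]
      exact Algebra.isIntegral_of_surjective IntermediateField.topEquiv.surjective
    obtain ⟨t, ht, hb⟩ := exists_isTranscendenceBasis_subset (R := ℂ)
      (Set.range fun v => φ₀ (w v))
    choose v hv using fun x : t => ht x.2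
    have h2 := hb.cardinalMk_eq_trdeg
    rw [trdeg_eq_dim, hL.dm] at h2
    have : Finite t := ((Set.finite_range _).subset ht).to_subtype
    rw [← show Nat.card t = ∑ j, ν j by rw [Nat.card, h2, Cardinal.toNat_natCast]]
    refine le_dim _ (x := fun x => ρ (w (v x))) (algebraicIndependent_iff.2 fun Q hQ =>
      hb.1.eq_zero_of_aeval_eq_zero Q ?_) fun x => IntermediateField.subset_adjoin _ _
        ⟨_, (v x).1.2, i₀ _, (v x).2, ?_⟩
    · rw [← MvPolynomial.comp_aeval_apply] at hQ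
      have h3 := hk _ hQ
      rwa [MvPolynomial.comp_aeval_apply, funext hv] at h3
    · have h3 := g2 (v x).1.1
      rw [hL.zero _ (v x).2] at h3
      beta_reduce
      rw [h3, div_one, coeff_map]
      rfl
  · obtain ⟨i, i', h⟩ := exists_minor hL.cp hL.one
    refine ⟨i, i', fun h1 => h ?_⟩
    have h2 := hk ((F j₁ i).coeff 0 * (F j₁ i').coeff 1 - (F j₁ i').coeff 0 * (F j₁ i).coeff 1) (by
      simpa only [map_sub, map_mul, sub_eq_zero, g, coeff_map, RingHom.coe_coe] using h1)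
    rw [map_sub, map_mul, map_mul, e2, e2, e2, e2] at h2
    have := hi₀ j₁
    field_simp at h2
    linear_combination h2
  · rcases v with ⟨j, p, hp⟩ | ⟨q, hq⟩
    · refine IntermediateField.subset_adjoin _ _ ⟨j, p.1, i₀ j, p.2, d j, ?_⟩
      rw [g2, div_one, hρ, coeff_map, coeff_fm, cf, dif_neg hp]
      rfl
    · have h3 : ({q, a, b, c} : Finset M).card = 4 := by
        rw [Finset.card_insert_of_notMem (by simp [hq]), Finset.card_eq_three.mpr
          ⟨a, b, c, (Nm3.ne hn).1, (Nm3.ne hn).2.1, (Nm3.ne hn).2.2, rfl⟩]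
      have h4 := Finset.card_le_univ ({q, a, b, c} : Finset M)
      omega

end Crest.Agent.X262.Ex19
end
end

-- ▼ part X262/Top/Root
section

/-!
# Row 262, top level (helper70): the roots
-/

set_option autoImplicit false

namespace Crest.Agent.X262.Top.Final

theorem mob : Ends.MobStmt := Mob85.mob_of NumPar.parStmt

theorem num : Ends.NumStmt :=
  Num64.numStmt_of Rb6.rbStmt NumPos.posStmt (Good3.good_of EndsZ.vanStmt NumPar.sqStmt mob)
    EndsZ.termStmt (Ex19.ex_of mob)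

theorem root (C : Coh.Th) (A : C.Ax) (hK : Gwb.KUNP C) : Chn.RootStmt C :=
  Gwb.root_open A hK PD.Dg.ptStmt Str37.axSStmt Dg87.deg0Stmt Wv65.wdvvStmt
    (Emb.embStmt_of Sym65.twoStmt Emb96.lftStmt)
    (fun _ _ _ _ V _ => Gwb.Vir.hyp V End66.endStmt) (fun _ _ _ _ V _ => PrdA.prod V)
    (fun _ _ _ _ V _ => Gwb.Vir.conc V Cd62.concF) Ms2.mstStmt num

end Crest.Agent.X262.Top.Final
end

-- ▼ part X262/Nf68/Emp
section

/-!
# Row 262, G4 / CERT (helper68), part 3: the conditions `Emp` for the example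
-/

set_option autoImplicit false

namespace Crest.Agent.X262.Nf68

theorem empM : Ex91.Emp (Ex91.lz Ex91.eM) := ⟨qtM, nlM, rk2M, rk3M⟩

theorem empN : Ex91.Emp (Ex91.lz Ex91.eN) := ⟨qtN, nlN, rk2N, rk3N⟩

theorem cert_of (hc : Top.SmCub (Pf19.cub Nc29.om)) (hl : Pf19.NoLine ℂ Nc29.om)
    (hn : Pf19.NoConic ℂ Nc29.om) : St91.CertStmt := Ex91.cert_of empM empN hc hl hn

end Crest.Agent.X262.Nf68
end

-- ▼ part X262/Nc29/Main
section

/-!
# Row 262, G4 / CERT (helper29), part 3: `noLine`, `noConic`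
-/

set_option autoImplicit false

noncomputable section

namespace Crest.Agent.X262.Nc29

open Crest.Agent.X262.Cert63 Crest.Agent.X262.Pf19 IsLocalRing Module

section Ring

variable {R : Type} [CommRing R]

/-- `ω_r (y, e_c)` -/
def ml (y : ℕ → R) (r c : ℕ) : R :=
  oz r 0 (c % 6) * y 0 + oz r 1 (c % 6) * y 1 + (oz r 2 (c % 6) * y 2 + oz r 3 (c % 6) * y 3) +
    (oz r 4 (c % 6) * y 4 + oz r 5 (c % 6) * y 5)

/-- `ω_r (k_m, k_n)` -/
def mk (a b : ℕ → R) (i j r m n : ℕ) : R :=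
  oz r m n - oz r m i * a n - oz r m j * b n - oz r i n * a m - oz r j n * b m +
    oz r i i * (a m * a n) + oz r i j * (a m * b n) + oz r j i * (b m * a n) + oz r j j * (b m * b n)

/-- `ω_r (k_m, k_n)` -/
def mc (a b : ℕ → R) (i j r c : ℕ) : R := mk a b i j r (c / 6 % 6) (c % 6)

theorem oz_row {r : ℕ} (h : 6 ≤ r) (i j : ℕ) : oz r i j = 0 := by
  rw [oz, List.getD_eq_default tab _ h]
  rfl

variable {x : ℕ → R}

theorem ev_tm (hq : ((100 + 1 : ℕ) : R) = 0) (z : ℤ) (e : E) : (tm z e).ev x = z * e.ev x := by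
  unfold tm
  rcases h : Nat.beq (Int.natAbs z) 0 with _ | _
  · rw [cond_false, E.ev_mul', ev_zm hq]
  · rw [cond_true, Int.natAbs_eq_zero.1 (Nat.eq_of_beq_eq_true h)]
    simp

theorem ev_sv {i m t : ℕ} (h : m < i → x t = 0) : (sv i m t).ev x = x t := by
  unfold sv
  rcases h1 : Nat.ble i m with _ | _
  · rw [cond_false, h (not_le.1 fun h2 => by simp [Nat.ble_eq_true_of_le h2] at h1)]
    simp
  · rfl

theorem ev_su {i m : ℕ} (h : m < i → x m = 0) (h' : x i = 1) : (su i m).ev x = x m := by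
  unfold su
  rcases h1 : Nat.beq i m with _ | _
  · exact ev_sv h
  · rw [cond_true, ← Nat.eq_of_beq_eq_true h1, h']
    simp

theorem Ct.false [Nontrivial R] (hq : ((100 + 1 : ℕ) : R) = 0) {c : Ct} {r : ℕ}
    {P : ℤ → ℕ → ℕ → E} (hc : c.ok r P = true) {M : ℕ → ℕ → R}
    (hP : ∀ s r c, (P s r c).ev x = s * M r c) (h : Rk3 M) : False :=
  false_of_cm (x := x) (fun r c => by rw [hP]; simp) (fun r c => by rw [hP]; simp) h hc hq

theorem lin_false [Nontrivial R] (hq : ((100 + 1 : ℕ) : R) = 0) (i : Fin 6)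
    (h : ∀ m < i.val, x m = 0) (h' : x i = 1) : ¬ Rk3 (ml x) := fun h1 => by
  obtain ⟨c, hc⟩ := ok_l i
  refine Ct.false (x := x) hq hc (fun s r c => ?_) h1
  simp only [pl, ml, E.ev_add', ev_tm hq, ev_su (h _) h', Int.cast_mul]
  ring

theorem con_false [Nontrivial R] (hq : ((100 + 1 : ℕ) : R) = 0) {i j : Fin 6} (hij : i < j)
    {a b : ℕ → R} (ha : ∀ m < i.val, a m = 0) (hb : ∀ m < j.val, b m = 0) :
    ¬ Rk3 (mc a b i j) := fun h1 => by
  obtain ⟨c, hc⟩ := ok_c i j hij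
  let x : ℕ → R := fun t => if t < 6 then a t else b (t - 6)
  have e1 : ∀ t, (sv i (t % 6) (t % 6)).ev x = a (t % 6) := fun t => by
    have : x (t % 6) = a (t % 6) := if_pos (Nat.mod_lt _ (by norm_num))
    rw [ev_sv fun h => this.trans (ha _ h), this]
  have e2 : ∀ t, (sv j t (6 + t)).ev x = b t := fun t => by
    have : x (6 + t) = b t := (if_neg (by omega)).trans (by rw [Nat.add_sub_cancel_left])
    rw [ev_sv fun h => this.trans (hb _ h), this]
  refine Ct.false (x := x) hq hc (fun s r c => ?_) h1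
  simp only [pc, pk, mc, mk, E.ev_add', E.ev_mul', ev_tm hq, ev_zm hq, e1, e2, Int.cast_mul,
    Int.cast_neg]
  ring

end Ring

theorem rk_le {U : Type} [AddCommGroup U] [Module ℂ U] (T : (Fin 6 → ℂ) →ₗ[ℂ] U)
    {u : Fin 3 → Fin 6 → ℂ} (hu : LinearIndependent ℂ u) (h : ∀ l, T (u l) = 0) :
    finrank ℂ (LinearMap.range T) ≤ 3 := by
  have h1 := T.finrank_range_add_finrank_ker
  have h2 : finrank ℂ (Submodule.span ℂ (Set.range u)) ≤ finrank ℂ (LinearMap.ker T) :=
    Submodule.finrank_mono (Submodule.span_le.2 (Set.range_subset_iff.2 h))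
  rw [finrank_span_eq_card hu, Fintype.card_fin] at h2
  rw [finrank_fintype_fun_eq_card, Fintype.card_fin] at h1
  omega

theorem w_ee (r m n : Fin 6) :
    w om (Pi.single m (1 : ℂ)) (Pi.single n 1) r = oz r m n := by
  simp [w_apply, Pi.single_apply, om]

/-- **no line** -/
theorem noLine : NoLine ℂ om := fun u h1 h2 hu => by
  obtain ⟨V, hV⟩ := exists_pl (p := 100 + 1) (by norm_num)
  obtain ⟨i, y, hi, hy, h0⟩ := exists_fst V Fin.val (hu.ne_zero 0)
  let Y : ℕ → V := fun m => y (Fin.ofNat 6 m)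
  have hY : ∀ m : Fin 6, Y m = y m := fun m => congrArg y (Fin.ofNat_val_eq_self m)
  have h3 : Rk3 fun r c => V.subtype (ml Y r c) := by
    refine rk3_of (LinearMap.range (w om (u 0))) (rk_le _ hu fun l => ?_) (fun c => ?_)
      fun r c hr => by simp [ml, oz_row hr]
    · fin_cases l
      exacts [skew.self _, h1, h2]
    · refine ⟨(u 0 i)⁻¹ • Pi.single (Fin.ofNat 6 c) 1, funext fun r => ?_⟩
      have e : ∀ m : Fin 6, ((Y m : V) : ℂ) = u 0 m / u 0 i := fun m => by rw [hY, hy]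
      have e0 : ((Y 0 : V) : ℂ) = _ := e 0
      have e1 : ((Y 1 : V) : ℂ) = _ := e 1
      have e2 : ((Y 2 : V) : ℂ) = _ := e 2
      have e3 : ((Y 3 : V) : ℂ) = _ := e 3
      have e4 : ((Y 4 : V) : ℂ) = _ := e 4
      have e5 : ((Y 5 : V) : ℂ) = _ := e 5
      simp [w_apply, Pi.single_apply, om, ml, Fin.sum_univ_six, e0, e1, e2, e3, e4, e5]
      ring
  refine lin_false hV i (x := fun m => residue V (Y m)) (fun m hm => ?_) ?_ ?_
  · exact h0 _ (by rwa [Fin.val_ofNat, Nat.mod_eq_of_lt (hm.trans i.2)])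
  · rw [hY, show y i = 1 from Subtype.ext (by rw [hy, div_self hi]; rfl), map_one]
  · convert h3.sp V.subtype_injective (residue V) using 3
    simp only [ml, map_add, map_mul, map_intCast]

theorem exists_quot {k : Fin 4 → Fin 6 → ℂ} (hk : LinearIndependent ℂ k) :
    ∃ α β : Fin 6 → ℂ, wd α β ≠ 0 ∧ ∀ m i j : Fin 6, ∀ a b : ℂ, α m - a * α i - b * α j = 0 →
      β m - a * β i - b * β j = 0 → (Pi.single m 1 - a • Pi.single i 1 - b • Pi.single j 1 :
        Fin 6 → ℂ) ∈ Submodule.span ℂ (Set.range k) := by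
  set K := Submodule.span ℂ (Set.range k)
  have h1 := K.finrank_quotient_add_finrank
  rw [finrank_span_eq_card hk, finrank_fintype_fun_eq_card, Fintype.card_fin,
    Fintype.card_fin] at h1
  let e : ((Fin 6 → ℂ) ⧸ K) ≃ₗ[ℂ] ℂ × ℂ := LinearEquiv.ofFinrankEq _ _ (by simp; omega)
  let T : (Fin 6 → ℂ) →ₗ[ℂ] ℂ × ℂ := e.toLinearMap ∘ₗ K.mkQ
  have hT : Function.Surjective T := e.surjective.comp K.mkQ_surjective
  refine ⟨fun m => (T (Pi.single m 1)).1, fun m => (T (Pi.single m 1)).2, fun h => ?_,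
    fun m i j a b h2 h3 => ?_⟩
  · obtain ⟨s, hs⟩ := hT (1, 0)
    obtain ⟨t, ht⟩ := hT (0, 1)
    have h2 : (T s).1 * (T t).2 - (T s).2 * (T t).1 = 0 := by
      rw [pi_eq_sum_univ' s, pi_eq_sum_univ' t]
      simp only [map_sum, map_smul, Prod.fst_sum, Prod.snd_sum, Prod.smul_fst, Prod.smul_snd,
        smul_eq_mul, Finset.sum_mul_sum, ← Finset.sum_sub_distrib]
      refine Finset.sum_eq_zero fun m _ => Finset.sum_eq_zero fun n _ => ?_
      have h3 : (T (Pi.single m 1)).1 * (T (Pi.single n 1)).2 -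
        (T (Pi.single n 1)).1 * (T (Pi.single m 1)).2 = 0 := congrFun h (m, n)
      linear_combination s m * t n * h3
    simp [hs, ht] at h2
  · rw [← Submodule.Quotient.mk_eq_zero, ← e.map_eq_zero_iff]
    change T _ = 0
    rw [map_sub, map_sub, map_smul, map_smul]
    exact Prod.ext h2 h3

theorem w_mem {k : Fin 4 → Fin 6 → ℂ} {u v : Fin 6 → ℂ} (hu : u ∈ Submodule.span ℂ (Set.range k))
    (hv : v ∈ Submodule.span ℂ (Set.range k)) :
    w om u v ∈ LinearMap.range (Fintype.linearCombination ℂ (cols om k)) := by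
  set W := LinearMap.range (Fintype.linearCombination ℂ (cols om k))
  have h1 : ∀ j, cols om k j ∈ W := fun j => ⟨Pi.single j 1, by simp⟩
  have h2 : ∀ {s t}, w om (k s) (k t) ∈ W → w om (k t) (k s) ∈ W := fun h => by
    rw [skew.swap]; exact W.neg_mem h
  have h3 : ∀ s, w om (k s) (k s) ∈ W := fun s => by rw [skew.self]; exact W.zero_mem
  have h4 : ∀ s t, w om (k s) (k t) ∈ W := fun s t => by
    fin_cases s <;> fin_cases t
    exacts [h3 _, h1 0, h1 1, h1 2, h2 (h1 0), h3 _, h1 3, h1 4, h2 (h1 1), h2 (h1 3), h3 _, h1 5,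
      h2 (h1 2), h2 (h1 4), h2 (h1 5), h3 _]
  obtain ⟨a, rfl⟩ := (Submodule.mem_span_range_iff_exists_fun ℂ).1 hu
  obtain ⟨b, rfl⟩ := (Submodule.mem_span_range_iff_exists_fun ℂ).1 hv
  simp only [map_sum, map_smul, LinearMap.sum_apply, LinearMap.smul_apply]
  exact W.sum_mem fun t _ => W.smul_mem _ (W.sum_mem fun s _ => W.smul_mem _ (h4 s t))

/-- **no conic** -/
theorem noConic : NoConic ℂ om := fun k hk β h1 hβ => by
  obtain ⟨V, hV⟩ := exists_pl (p := 100 + 1) (by norm_num)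
  obtain ⟨p, q, h2, h3⟩ := exists_quot hk
  obtain ⟨⟨i, j⟩, y, hi, hy, h0⟩ := exists_fst V (fun m : Fin 6 × Fin 6 => 6 * m.1.val + m.2.val) h2
  have hij : i < j := by
    rcases lt_trichotomy i j with h | rfl | h
    · exact h
    · exact absurd (sub_self _) hi
    · have h4 : y (j, i) = -1 := Subtype.ext (by
        rw [hy, div_eq_iff hi]
        simp [wd])
      have h5 := h0 (j, i) (by have := i.2; have := j.2; have : j.val < i.val := h; dsimp only; omega)
      simp [h4] at h5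
  let a : ℕ → V := fun m => y (Fin.ofNat 6 m, j)
  let b : ℕ → V := fun m => y (i, Fin.ofNat 6 m)
  have h4 : ∀ m : Fin 6, (Pi.single m 1 - (a m : ℂ) • Pi.single i 1 - (b m : ℂ) • Pi.single j 1 :
      Fin 6 → ℂ) ∈ Submodule.span ℂ (Set.range k) := fun m => by
    have hi' : (p i * q j - p j * q i) * (p i * q j - p j * q i)⁻¹ = 1 := mul_inv_cancel₀ hi
    refine h3 m i j _ _ ?_ ?_ <;> simp only [a, b, Fin.ofNat_val_eq_self, hy, wd]
    · linear_combination -p m * hi'
    · linear_combination -q m * hi'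
  have h5 : Rk3 fun r c => V.subtype (mc a b i j r c) := by
    refine rk3_of _ (rk_le (Fintype.linearCombination ℂ (cols om k)) hβ h1) (fun c => ?_)
      fun r c hr => by simp [mc, mk, oz_row hr]
    convert w_mem (h4 (Fin.ofNat 6 (c / 6))) (h4 (Fin.ofNat 6 c)) using 1
    ext r
    simp only [map_sub, map_smul, LinearMap.sub_apply, LinearMap.smul_apply, Pi.sub_apply,
      Pi.smul_apply, w_ee, smul_eq_mul, mc, mk, map_add, map_mul, map_intCast, Fin.val_ofNat,
      ValuationSubring.coe_subtype]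
    ring
  refine con_false hV hij (a := fun m => residue V (a m)) (b := fun m => residue V (b m))
    (fun m hm => h0 _ ?_) (fun m hm => h0 _ ?_) ?_
  · rw [Fin.val_ofNat, Nat.mod_eq_of_lt (hm.trans i.2)]
    dsimp only
    omega
  · rw [Fin.val_ofNat, Nat.mod_eq_of_lt (hm.trans j.2)]
    dsimp only
    omega
  · convert h5.sp V.subtype_injective (residue V) using 3
    simp only [mc, mk, map_add, map_sub, map_mul, map_intCast]

end Crest.Agent.X262.Nc29
end
end

-- ▼ part X262/St91/Fin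
section

/-!
# Row 262, G4 / START (helper91): the unconditional statements
-/

set_option autoImplicit false

namespace Crest.Agent.X262.St91

/-- **CERT** -/
theorem certStmt : CertStmt := Nf68.cert_of Cert21.smCub Nc29.noLine Nc29.noConic


end Crest.Agent.X262.St91
end

-- ▼ part X262/Top/Final

/-!
# Row 262, top level (helper70): the theorem
-/

set_option autoImplicit false

namespace Crest.Agent.X262.Top.Final

theorem main : Top.Main := main_of1 root St91.certStmt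

end Crest.Agent.X262.Top.Final
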