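import Crest.Agent.X262.Geo.Val
import Crest.Agent.X262.Loc95.Prj
import Crest.Agent.X262.Mod79.QP
import Crest.Agent.X262.Loc95.Slc
import Crest.Agent.X262.Fam17.Pl
import Crest.Agent.X262.Bnd.Defs
import Crest.Agent.X262.Loc95.Can

-- ▼ part X262/Top/Deg
section

/-!
# Row 262, TOP (helper70): divisors over a divisor of the base

`α : M → F` a field embedding, `V` a valuation ring of `F`, `rv α V` its restriction.

* `rι α V`     : the embedding of the residue fields; `lin_rs_pb` : restriction and pull-back;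
* `dg_fac`     : the degree on `V` of classes from the base times other classes;
* `prm_rv`     : a nonzero degree forces the restriction to be a prime of the base;
* `exists_over`: a class of nonzero degree on the generic fibre has nonzero degree on some
  divisor over a given prime of the base;
* `sum_over_le`: the degrees on the divisors over a prime are bounded by the generic degree.
-/

set_option autoImplicit false
set_option linter.unusedSectionVars false

noncomputable section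

namespace Crest.Agent.X262.Top

open Crest.Agent.X277 Crest.Agent.X277.BD Crest.Agent.X277.Pst
open Crest.Agent.X277.BD.Cyc (Rf plV lnr_plV surj_plV)
open Crest.Agent.X262.Mod (IsMod Car)
open Crest.Agent.X262.Geo Crest.Agent.X262.Loc
open List (replicate)

variable {k M F : Type} [Field k] [Field M] [Field F] [Algebra k M] [Algebra k F]

/-- the restriction of a valuation ring -/
abbrev rv (α : M →ₐ[k] F) (V : RZ k F) : RZ k M := cm (α : M →+* F) (alg_ov α) V

variable (α : M →ₐ[k] F) (V : RZ k F)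

/-- residues of the elements of the restricted ring -/
def rφ : (rv α V).1 →+* Rf V where
  toFun x := (plV V).r (α x)
  map_one' := by simp
  map_mul' x y := by
    rw [MulMemClass.coe_mul, map_mul]
    exact Pl.r_mul (p := plV V) x.2 y.2
  map_zero' := by simp
  map_add' x y := by
    rw [AddMemClass.coe_add, map_add]
    exact Pl.r_add (p := plV V) x.2 y.2

theorem rφ_eq_zero (x : (rv α V).1) : rφ α V x = 0 ↔ (rv α V).v x < 1 := by
  have h := v_cm_lt_iff (j := (α : M →+* F)) (h := alg_ov α) (W := V) (x := x) (y := 1)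
  rw [map_one, map_one, map_one] at h
  exact (Pl.r_eq_zero (p := plV V) x.2).trans h.symm

theorem ker_le : RingHom.ker (plV (rv α V)).φ ≤ RingHom.ker (rφ α V) := fun x hx =>
  (rφ_eq_zero α V x).2 (((plV (rv α V)).ker x).1 hx)

/-- the embedding of the residue fields, as a ring homomorphism -/
def rψ : Rf (rv α V) →+* Rf V :=
  (plV (rv α V)).φ.liftOfSurjective (surj_plV _) ⟨rφ α V, ker_le α V⟩

theorem rψ_r {x : M} (hx : x ∈ (rv α V).1) :
    rψ α V ((plV (rv α V)).r x) = (plV V).r (α x) := by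
  rw [(plV (rv α V)).r_eq hx]
  exact RingHom.liftOfSurjective_comp_apply _ _ _ _

/-- the embedding of the residue fields -/
def rι : Rf (rv α V) →ₐ[k] Rf V where
  toRingHom := rψ α V
  commutes' c := by
    have h := rψ_r α V ((rv α V).2 c)
    rw [lnr_plV, α.commutes, lnr_plV] at h
    exact h

variable {α V}

theorem rι_r {x : M} (hx : x ∈ (rv α V).1) :
    rι α V ((plV (rv α V)).r x) = (plV V).r (α x) := rψ_r α V hx

theorem mem_range_rι {s : Rf V} :
    s ∈ (rι α V).fieldRange ↔ ∃ x, α x ∈ V.1 ∧ (plV V).r (α x) = s := by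
  refine ⟨?_, fun ⟨x, h1, h2⟩ => ⟨_, (rι_r h1).trans h2⟩⟩
  rintro ⟨y, rfl⟩
  obtain ⟨x, rfl⟩ := surj_plV _ y
  exact ⟨x, x.2, (rι_r x.2).symm.trans (congrArg (rι α V) (Pl.r_coe _ x))⟩

theorem cm_rι (W : RZ k (Rf V)) :
    (plV (rv α V)).cm (rv (rι α V) W) = rv α ((plV V).cm W) :=
  Subtype.ext (ValuationSubring.ext _ _ fun x => and_congr_right fun hx => by
    change rι α V ((plV (rv α V)).r x) ∈ W.1 ↔ (plV V).r (α x) ∈ W.1
    rw [rι_r hx])

theorem res_pb {c : BD k M} (hc : c.val (rv α V) = 1) :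
    (plV V).res (pb α c) = pb (rι α V) ((plV (rv α V)).res c) := by
  refine ext' fun W => ?_
  have h1 := c.v_gen (rv α ((plV V).cm W))
  have h2 := Pl.val_res (p := plV (rv α V)) (W := rv (rι α V) W) hc
    (g := c.gen (rv α ((plV V).cm W))) (by rw [cm_rι]; exact h1)
  have h3 := Pl.unit_of_gen (p := plV (rv α V)) (W := rv (rι α V) W) hc
    (g := c.gen (rv α ((plV V).cm W))) (by rw [cm_rι]; exact h1)
  rw [pb, pb, Pl.val_res (p := plV V) (val_mp_eq_one.2 hc) (val_mp h1).symm, val_mp h2.symm]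
  exact congrArg W.v (rι_r (RZ.le_one_iff.1 h3.le)).symm

variable (α V) in
/-- restriction of a class from the base -/
theorem lin_rs_pb (a : BD k M) :
    Lin ((plV V).rs (pb α a)) (pb (rι α V) ((plV (rv α V)).rs a)) := by
  have h := Pl.lin_rs (p := plV V) (a := pb α a) (val_mp (a.v_gen (rv α V))).symm
  have h1 := res_pb (Pl.val_sub_gen (p := plV (rv α V)) (a.v_gen _))
  rw [map_sub, pb_pr] at h1
  exact h1 ▸ h

theorem forall₂_rs_pb (l : List (BD k M)) : List.Forall₂ Lin ((l.map (pb α)).map (plV V).rs)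
    ((l.map (plV (rv α V)).rs).map (pb (rι α V))) := by
  induction l with
  | nil => exact List.Forall₂.nil
  | cons a l ih => exact List.Forall₂.cons (lin_rs_pb α V a) ih

variable [CharZero k]

theorem essFT_hom {E L : Type} [Field E] [Field L] [Algebra k E] [Algebra k L]
    [Algebra.EssFiniteType k L] (ι : E →ₐ[k] L) : Algebra.EssFiniteType k E :=
  @Algebra.EssFiniteType.of_surjective k ι.fieldRange E _ _ _ _ _
    (AlgEquiv.ofInjectiveField ι).symm.toAlgHom (AlgEquiv.ofInjectiveField ι).symm.surjective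
    (eftSub ι.fieldRange)

/-- the degree on `V` of classes from the base times other classes -/
theorem dg_fac [Algebra.EssFiniteType k (Rf V)] (L : IntermediateField k (Rf V))
    (ι : Rf (rv α V) →ₐ[k] L) (hι : L.val.comp ι = rι α V) (l : List (BD k F))
    {lam : List (BD k M)} (hlam : lam.length = dim k L) :
    dg V (l ++ lam.map (pb α)) =
      deg ι * dg (rv α V) lam * bnum ((l.map (plV V).rs).map (up L)) := by
  have := essFT_hom (rι α V)
  rw [dg_eq, dg_eq, List.map_append, bnum_comm, bnum_congr (forall₂_rs_pb lam), bnum_comm,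
    ← bnum_pb, ← bnum_prj_val L _ (by simpa using hlam), ← hι, List.map_map, List.map_map,
    List.map_map]
  congr 3
  exact funext fun a => (pb_pb _ _ _).symm

variable [Algebra.EssFiniteType k M] [Algebra.EssFiniteType k F]

theorem dvs_rv (hV : Dvs V) (h0 : (rv α V).1 ≠ ⊤) {l : List (BD k F)} {lam : List (BD k M)}
    (hlam : dim k M = lam.length + 1) (h : dg V (l ++ lam.map (pb α)) ≠ 0) :
    Dvs (rv α V) ∧ dg (rv α V) lam ≠ 0 := by
  have := essFT_Rf hV
  have := essFT_hom (rι α V)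
  have h1 : lam.length ≤ dim k (Rf (rv α V)) := by
    by_contra hc
    refine h ?_
    rw [dg_eq, List.map_append, bnum_comm, bnum_congr (forall₂_rs_pb lam),
      bnum_pb_zero _ (by simpa using hc)]
  obtain ⟨y, hy⟩ := exists_resInd (V := rv α V) rfl
  have h6 : Gj.dm k M - 1 ≤ dim k (Rf (rv α V)) := by
    rw [dm_eq, hlam]
    exact h1
  have h2 : Dvs (rv α V) := R276.DivVal_858.isDiv_iff.2 ⟨(rv α V).2, h0,
    fun i => y (Fin.castLE h6 i), (resInd_iff (lnr_plV _) fun i => hy.1 _).2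
      (((resInd_iff (lnr_plV _) hy.1).1 hy).comp _ (Fin.castLE_injective h6))⟩
  refine ⟨h2, fun h3 => h ?_⟩
  have h4 := dim_Rf' h2
  let e := AlgEquiv.ofInjectiveField (rι α V)
  have h5 : dim k (rι α V).fieldRange = dim k (Rf (rv α V)) :=
    le_antisymm (dim_le e.symm.toAlgHom) (dim_le e.toAlgHom)
  rw [dg_fac (rι α V).fieldRange e.toAlgHom rfl l (by omega), h3, mul_zero, zero_mul]

/-- a nonzero degree forces the restriction to be a prime of the base -/
theorem prm_rv {h : BD k M} (hh : h.Free) (hV : Dvs V) (h0 : (rv α V).1 ≠ ⊤) {d : ℕ}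
    (hd : dim k M = d + 1) {l : List (BD k F)}
    (h1 : dg V (l ++ replicate d (pb α h)) ≠ 0) : Prm h (rv α V) := by
  rw [← List.map_replicate] at h1
  obtain ⟨h2, h3⟩ := dvs_rv hV h0 (by simpa using hd) h1
  exact prm_of_dg hh h2 hd h3

/-- a prime of a model as a b-divisor -/
theorem exists_single {h : BD k M} (hh : IsMod h) {w : RZ k M} (hw : Dvs w) :
    ∃ D : BD k M, 0 ≤ D ∧ od w D = 1 ∧ ∀ u, Prm h u → u ≠ w → od u D = 0 := by
  obtain ⟨D, h1, h2, h3⟩ := hh.exists_single ⟨w, hw⟩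
  exact ⟨D, h1, h2, fun u hu h4 => h3 ⟨u, hu.dvs⟩ hu fun e => h4 (congrArg Subtype.val e)⟩

theorem bnum_single {h D : BD k M} (hh : h.Free) {w : RZ k M} (hw : Dvs w) (h2 : od w D = 1)
    (h3 : ∀ u, Prm h u → u ≠ w → od u D = 0) {d : ℕ} (hd : dim k M = d + 1) :
    bnum (D :: replicate d h) = dg w (replicate d h) := by
  obtain ⟨T, h4, h5, -, h6⟩ := exists_cyc D (replicate d h) {w} (by simpa using hw)
  rw [h6, Finset.sum_eq_single_of_mem w (h4 (by simp)), h2, one_mul]
  intro u hu h7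
  by_cases h8 : Prm h u
  · rw [h3 u h8 h7, zero_mul]
  · rw [dg_eq_zero hh (h5 u hu) h8 hd, mul_zero]

theorem od_pb_pos {D : BD k M} (hV : Dvs V) (hw : Dvs (rv α V)) (h : 0 < od (rv α V) D) :
    0 < od V (pb α D) := by
  rw [← map_zero (od V), od_lt_iff hV, ← not_le, ← map_zero (pb α), pb, val_mp_le_iff, not_le,
    ← od_lt_iff hw, map_zero]
  exact h

variable [Algebra M F] [IsScalarTower k M F] [CharZero M] [Algebra.EssFiniteType M F]

local notation "α₀" => IsScalarTower.toAlgHom k M F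

theorem bnum_over {h D : BD k M} (hh : h.Free) {w : RZ k M} (hw : Dvs w) (h2 : od w D = 1)
    (h3 : ∀ u, Prm h u → u ≠ w → od u D = 0) {d : ℕ} (hd : dim k M = d + 1)
    (l : List (BD k F)) : bnum (pb α₀ D :: (l ++ replicate d (pb α₀ h))) =
      dg w (replicate d h) * bnum (l.map (up M)) := by
  rw [← bnum_single hh hw h2 h3 hd, ← bnum_prj l (by simp [hd]), List.map_cons,
    List.map_replicate]
  exact bnum_perm List.perm_middle.symm

/-- a class of nonzero degree on the generic fibre has nonzero degree on a divisor over `w` -/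
theorem exists_over {h : BD k M} (hh : IsMod h) {w : RZ k M} (hw : Prm h w) {d : ℕ}
    (hd : dim k M = d + 1) {l : List (BD k F)} (hl : bnum (l.map (up M)) ≠ 0) :
    ∃ V, Dvs V ∧ rv α₀ V = w ∧ dg V (l ++ replicate d (pb α₀ h)) ≠ 0 := by
  obtain ⟨D, -, h2, h3⟩ := exists_single hh hw.dvs
  by_contra hc
  refine mul_ne_zero (dg_pos hh hw hd).ne' hl ?_
  rw [← bnum_over hh.free hw.dvs h2 h3 hd l]
  refine bnum_eq_zero fun V hV h4 => by_contra fun h5 => hc ⟨V, hV, ?_, h5⟩
  have h6 : D.val (rv α₀ V) ≠ 1 := fun e => h4 ((od_eq_zero hV).2 (val_mp_eq_one.2 e))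
  have h7 := prm_rv hh.free hV (fun e => h6 (by
    rw [show rv α₀ V = RZ.top k M from Subtype.ext e, val_top])) hd h5
  exact by_contra fun h8 => h6 ((od_eq_zero h7.dvs).1 (h3 _ h7 h8))


end Crest.Agent.X262.Top
end
end

-- ▼ part X262/Top/Deg2
section

/-!
# Row 262, TOP (helper70): divisors over a divisor of the base, part 2

* `exists_mult` : the degree on the generic fibre as a sum over the divisors over `w`;
* `car_rs`, `cen_le`, `r_mem_cen` : the field of the centre;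
* `ιL`, `dg_facL`, `range_eq_of_deg` : degrees over a subfield containing the residues of the base;
* `eq_of_dim`, `dim_ac`, `ratFunc_congr` : field theory;
* `prm_bs` : a vertical prime which is Cartier on the base lies over a prime of the base.
-/

set_option autoImplicit false
set_option linter.unusedSectionVars false

noncomputable section

namespace Crest.Agent.X262.Top

open Crest.Agent.X277 Crest.Agent.X277.BD Crest.Agent.X277.Pst
open Crest.Agent.X277.BD.Cyc (Rf plV lnr_plV surj_plV)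
open Crest.Agent.X262.Mod (IsMod Car RNef)
open Crest.Agent.X262.Geo Crest.Agent.X262.Loc
open List (replicate)

variable {k M F : Type} [Field k] [Field M] [Field F] [Algebra k M] [Algebra k F]

theorem ratFunc_congr (e : M ≃ₐ[k] F) : Nonempty (RatFunc M ≃ₐ[k] RatFunc F) :=
  ⟨IsFractionRing.algEquivOfAlgEquiv (Polynomial.mapAlgEquiv e)⟩

/-- the trivial valuation ring: the field embeds into the residue field -/
def topHom (w : RZ k M) (h : ∀ x, x ∈ w.1) : M →ₐ[k] Rf w where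
  toRingHom := (plV w).φ.comp ((RingHom.id M).codRestrict w.1 h)
  commutes' _ := rfl

variable {α : M →ₐ[k] F} {V : RZ k F} {H a : BD k F}

theorem loc_pb {h : BD k M} {x : M} (hx : x ∈ loc h (rv α V)) : α x ∈ loc (pb α h) V := by
  obtain ⟨m, g, h1, h2, h3⟩ := hx
  refine ⟨m, α g, ?_, ?_, ?_⟩
  · rw [← map_nsmul]
    exact pb_mem_Sec h1
  · rw [← map_nsmul]
    exact v_eq_val_mp.2 h2
  · rw [← map_nsmul, ← map_mul]
    exact pb_mem_Sec h3

theorem car_rs (h : Car H a) (V : RZ k F) : Car ((plV V).rs H) ((plV V).rs a) := by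
  obtain ⟨c, h1, h2⟩ := h
  exact ⟨c, (((Pl.lin_rs_add _ _).trans ((Fam.lin_rs_nsmul _ c H).add Lin.rfl)).symm.free
    (Pl.free_rs h1)), (((Fam.lin_rs_sub _ _ _).trans (by
      rw [sub_eq_add_neg, sub_eq_add_neg]
      exact (Fam.lin_rs_nsmul _ c H).add Lin.rfl)).symm.free (Pl.free_rs h2))⟩

theorem r_mem_cen (hH : H.Free) {y : F} (hy : y ∈ loc H V) : (plV V).r y ∈ cen H V := by
  obtain ⟨m, g, h1, h2, h3⟩ := hy
  have h0 := ne_of_val h2
  have h4 := Pl.val_sub_gen (p := plV V) h2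
  have h5 := div_mem_cf (Pl.r_mem_Sec (p := plV V) h4 ((mem_Sec_sub_pr h0).2 h3))
    (Pl.r_mem_Sec (p := plV V) h4 (g := 1) ((mem_Sec_sub_pr h0).2 (by rwa [one_mul])))
  rw [Pl.r_one, div_one, ← Lin.cf_eq (Pl.lin_rs (p := plV V) h2),
    Lin.cf_eq (Fam.lin_rs_nsmul _ m H)] at h5
  exact Gfm.cf_le_of_free (n := m) (Pl.free_rs hH) (by simpa using Free.zero) h5

theorem cen_le (hH : H.Free) {L : IntermediateField k (Rf V)} (hL : ∀ x, IsAlgebraic L x → x ∈ L)
    (h : ∀ y ∈ loc H V, (plV V).r y ∈ L) : cen H V ≤ L := by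
  classical
  obtain ⟨r, s, h0, h1, h2⟩ := hH.exists_fam
  obtain ⟨i, hi⟩ := h2 V
  have h3 : ∀ j, s j / s i ∈ loc H V := fun j =>
    div_mem_loc (m := 1) (by simpa using h1 j) (by simpa using h1 i) (by simpa using hi)
  have h4 : H - pr k (s i) = mxf k fun j => s j / s i := by
    refine eq_mxf (fun j => (mem_Sec_sub_pr (h0 i)).2 (by rw [div_mul_cancel₀ _ (h0 i)]; exact h1 j))
      fun W => ?_
    obtain ⟨j, hj⟩ := h2 W
    exact ⟨j, by rw [map_div₀, hj, val_sub, val_pr (h0 i)]⟩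
  have h5 : Lin ((plV V).rs H) (mxf k fun j => (plV V).r (s j / s i)) := by
    have h6 := Pl.lin_rs (p := plV V) hi
    rwa [h4, mxf, Pl.res_mx (p := plV V) (fun y hy => by
      obtain ⟨j, -, rfl⟩ := Finset.mem_image.1 hy; exact mem_of_loc (h3 j))
      ⟨1, by simpa using ⟨i, div_self (h0 i)⟩, map_one _⟩, Finset.image_image] at h6
  intro x hx
  rw [cen, Lin.cf_eq h5, cf_mxf ⟨i, by simp [div_self (h0 i)]⟩] at hx
  refine hL x (isAlg_mono (IntermediateField.adjoin_le_iff.2 ?_) hx)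
  rintro _ ⟨j, j', rfl⟩
  exact div_mem (h _ (h3 j')) (h _ (h3 j))

/-- the residues of the base inside a larger field -/
def ιL {L : IntermediateField k (Rf V)} (hL : (rι α V).fieldRange ≤ L) : Rf (rv α V) →ₐ[k] L :=
  (rι α V).codRestrict L.toSubalgebra fun x => hL ⟨x, rfl⟩

variable [CharZero k]

theorem surj_of_deg {E L : Type} [Field E] [Field L] [Algebra k E] [Algebra k L] {ι : E →ₐ[k] L}
    (h : deg ι = 1) : Function.Surjective ι := by
  let _ := ι.toRingHom.toAlgebra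
  exact fun x => (Algebra.finrank_eq_one_iff_bijective_algebraMap.1 h).2 x

theorem dg_facL [Algebra.EssFiniteType k (Rf V)] {L : IntermediateField k (Rf V)}
    (hL : (rι α V).fieldRange ≤ L) (x : BD k F) {h : BD k M} {d : ℕ} (hd : dim k L = d) :
    dg V (x :: replicate d (pb α h)) =
      deg (ιL hL) * dg (rv α V) (replicate d h) * bnum [up L ((plV V).rs x)] := by
  have h1 := dg_fac L (ιL hL) rfl [x] (lam := replicate d h) (by simp [hd])
  rwa [List.map_replicate] at h1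

/-- if `H` has degree zero against nef classes, then so have the classes of its model -/
theorem dg_car0 {l : List (BD k F)} (hl : ∀ x ∈ l, Nef x) (h0 : dg V (H :: l) = 0)
    (ha : Car H a) : dg V (a :: l) = 0 := by
  obtain ⟨c, h1, h2⟩ := ha
  have h4 : 0 ≤ dg V (_ :: l) := dg_nonneg (List.forall_mem_cons.2 ⟨h1.nef, hl⟩)
  have h5 : 0 ≤ dg V (_ :: l) := dg_nonneg (List.forall_mem_cons.2 ⟨h2.nef, hl⟩)
  rw [dg_add, dg_nsmul, h0] at h4
  rw [dg_sub, dg_nsmul, h0] at h5
  omega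

variable [Algebra.EssFiniteType k F]

theorem eq_of_dim {L L' : IntermediateField k F} (hL : ∀ x, IsAlgebraic L x → x ∈ L)
    (h : L ≤ L') (hd : dim k L' ≤ dim k L) : L' = L := by
  refine le_antisymm (fun x hx => hL x ?_) h
  let _ := (IntermediateField.inclusion h).toRingHom.toAlgebra
  have : IsScalarTower L L' F := IsScalarTower.of_algebraMap_eq fun _ => rfl
  have h1 := hd.antisymm (dim_le (IntermediateField.inclusion h))
  have : Module.Finite L L' :=
    Module.finite_of_finrank_pos ((deg_pos_iff (IntermediateField.inclusion h)).2 h1)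
  exact (Algebra.IsAlgebraic.isAlgebraic (R := L) (⟨x, hx⟩ : L')).algebraMap

theorem dim_of_alg {L L' : IntermediateField k F} (h : ∀ x ∈ L', IsAlgebraic L x) :
    dim k L' ≤ dim k L := by
  let C := (algebraicClosure L F).restrictScalars k
  have h1 : L ≤ C := fun x hx =>
    mem_algebraicClosure_iff.2 (isAlgebraic_algebraMap (⟨x, hx⟩ : L))
  have h2 : L' ≤ C := fun x hx => mem_algebraicClosure_iff.2 (h x hx)
  refine (dim_le (IntermediateField.inclusion h2)).trans (le_of_eq ?_)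
  have : Algebra.EssFiniteType L (algebraicClosure L F) := eftSub _
  have : Module.Finite L (algebraicClosure L F) := Algebra.finite_of_essFiniteType_of_isAlgebraic
  exact (deg_pos_iff (IntermediateField.inclusion h1)).1
    (Module.finrank_pos (R := L) (M := algebraicClosure L F))

theorem prm_of_dg3 (hH : H.Free) (hV : Dvs V) (hd : dim k F = 4) (ha : a.Free) (h : Car H a)
    (h1 : dg V [H, a, a] ≠ 0) : Prm H V := by
  refine prm_of_dg hH hV (d := 3) hd fun h0 => h1 ?_
  have h2 : dg V [a, H, H] = 0 := dg_car0 (by simpa using hH.nef) h0 h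
  have h3 : dg V [a, a, H] = 0 := dg_car0 (by simpa using ⟨ha.nef, hH.nef⟩)
    ((dg_perm (List.Perm.swap _ _ _)).trans h2) h
  exact (dg_perm (List.perm_append_comm (l₁ := [H]) (l₂ := [a, a]))).trans h3

variable [Algebra.EssFiniteType k M]

theorem dvs_of_dim' {w : RZ k M} [Algebra.EssFiniteType k (Rf w)]
    (hd : dim k M = dim k (Rf w) + 1) : Dvs w :=
  dvs_of_dim (fun h => by
    have := dim_le (topHom w fun x => h ▸ trivial)
    omega) hd

theorem dim_range (hV : Dvs V) : dim k (rι α V).fieldRange = dim k (Rf (rv α V)) := by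
  have := essFT_Rf hV
  have := essFT_hom (rι α V)
  exact le_antisymm (dim_le (AlgEquiv.ofInjectiveField (rι α V)).symm.toAlgHom)
    (dim_le (AlgEquiv.ofInjectiveField (rι α V)).toAlgHom)

section tower

variable [Algebra M F] [IsScalarTower k M F] [CharZero M] [Algebra.EssFiniteType M F]

local notation "α₀" => IsScalarTower.toAlgHom k M F

/-- the degree on the generic fibre as a sum over the divisors over `w` -/
theorem exists_mult {h : BD k M} (hh : IsMod h) {w : RZ k M} (hw : Dvs w) {d : ℕ}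
    (hd : dim k M = d + 1) : ∃ e : RZ k F → ℤ, (∀ V, Dvs V → rv α₀ V = w → 0 < e V) ∧
      ∀ (l : List (BD k F)) (S : Finset (RZ k F)), (∀ V ∈ S, Dvs V) →
        (∀ V, Dvs V → rv α₀ V = w → V ∉ S → dg V (l ++ replicate d (pb α₀ h)) = 0) →
        ∑ V ∈ S, e V * dg V (l ++ replicate d (pb α₀ h)) =
          dg w (replicate d h) * bnum (l.map (up M)) := by
  obtain ⟨D, -, h2, h3⟩ := exists_single hh hw
  refine ⟨fun V => od V (pb α₀ D), ?_, fun l S hS h0 => ?_⟩
  · rintro V hV rfl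
    exact od_pb_pos hV hw (by omega)
  obtain ⟨T, h4, h5, h6, h7⟩ := exists_cyc (pb α₀ D) (l ++ replicate d (pb α₀ h)) S hS
  rw [← bnum_over hh.free hw h2 h3 hd l, h7]
  refine Finset.sum_subset h4 fun V hV h8 => mul_eq_zero_of_right _ (by_contra fun h9 => ?_)
  have h10 : D.val (rv α₀ V) ≠ 1 := fun e =>
    h6 V hV h8 ((od_eq_zero (h5 V hV)).2 (val_mp_eq_one.2 e))
  have h11 := prm_rv hh.free (h5 V hV) (fun e => h10 (by
    rw [show rv α₀ V = RZ.top k M from Subtype.ext e, val_top])) hd h9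
  exact h9 (h0 V (h5 V hV)
    (by_contra fun h12 => h10 ((od_eq_zero h11.dvs).1 (h3 _ h11 h12))) h8)

end tower

variable {A : BD k F}

/-- a vertical class which is Cartier on the base comes from the base -/
theorem exists_pb_eq (hA : A.Free) (ha : Car A a) (h0 : up (cf A) a = 0) :
    ∃ a0 : BD k (cf A), RNef (bs A) a0 ∧ a = pb (cf A).val a0 := by
  obtain ⟨c, h1, h2⟩ := ha
  have h3 : cf (c • A + a) ≤ cf A := Gfm.cf_le_of_free (n := c + c) hA (by
    convert h2 using 1
    rw [add_nsmul]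
    abel)
  obtain ⟨a1, h4, h5⟩ := exists_pb_of_le h1 ((sf_le_cf _).trans h3)
  obtain ⟨f, hf, h6⟩ := h5.add ((lin_bs hA).nsmul c).neg
  rw [add_neg_cancel_comm, ← map_nsmul, ← map_neg, ← map_add] at h6
  have h7 : f ∈ cf A := Gfm.mem_cf_of_Sec_zero (by
    rw [← h0, h6, map_add, up_pb _ fun _ => rfl, zero_add, up_pr]
    exact mem_Sec_pr f)
  refine ⟨a1 + -(c • bs A) + pr k (⟨f, h7⟩ : cf A), ⟨c, ?_⟩, ?_⟩
  · rw [← add_assoc, add_add_neg_cancel'_right]
    exact (h4.add (free_pr _)).nef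
  · rw [map_add, pb_pr]
    exact h6

/-- over a prime of the base of a fibration in curves there is a prime of the total space -/
theorem exists_prm_over (hH : IsMod H) (hA : A.Free) (hc : Car H A) (hd : dim k F = 4)
    (h1 : dim (cf A) F = 1) {u : RZ k (cf A)} (hu : Prm (bs A) u) :
    ∃ V, Prm H V ∧ rv (cf A).val V = u := by
  have : CharZero (cf A) := algebraRat.charZero _
  have h2 := dim_cf_add A
  obtain ⟨V, h3, h4, h5⟩ := exists_over (F := F) (isMod_iff_va.2 (va_bs hA)) hu (d := 2)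
    (by omega) (l := [H]) ((big_iff_deg h1).1 (Gfm.isMod_up _ hH).big).ne'
  exact ⟨V, prm_of_dg3 hH.free h3 hd ((va_bs hA).free.pb _) (hc.of_lin (lin_bs hA).symm) h5, h4⟩

/-- a vertical prime which is Cartier on the base lies over a prime of the base -/
theorem prm_bs (hH : IsMod H) (hA : A.Free) (hc : Car H A) (hd : dim k F = 4)
    (h1 : dim (cf A) F = 1) (ha : Car A a) (h0 : up (cf A) a = 0) (h2 : 1 < a.val V)
    (h3 : ∀ W, Prm H W → W ≠ V → a.val W = 1) : Prm (bs A) (rv (cf A).val V) := by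
  obtain ⟨a0, h4, rfl⟩ := exists_pb_eq hA ha h0
  by_contra h5
  have h6 : a0 ≤ 0 := Mod.neg (isMod_iff_va.2 (va_bs hA)) h4 fun u hu => by
    obtain ⟨W, h7, rfl⟩ := exists_prm_over hH hA hc hd h1 hu
    exact (val_mp_eq_one.1 (h3 W h7 fun e => h5 (e ▸ hu))).le
  have h7 := pb_le_iff (α := (cf A).val).2 h6 V
  rw [map_zero] at h7
  exact h2.not_ge h7

end Crest.Agent.X262.Top
end
end

-- ▼ part X262/Top/T3a

/-!
# Row 262, TOP (helper70): conic bundles, the divisors over a surface with `p_g > 0`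

* `vert`, `one` : a Mori conic bundle has at most one prime over a valuation of the base;
* `dg_rc`       : exceptional divisors over `w` have degree zero;
* `dg_cmp`      : two models with the same primes have the same anticanonical degrees;
* `t3`          : `Bnd.T3Stmt` from `J1Stmt`, `RCStmt`, `PGStmt` and smooth models.
-/

set_option autoImplicit false
set_option linter.unusedSectionVars false

open scoped KaehlerDifferential

noncomputable section

namespace Crest.Agent.X262.Top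

open Crest.Agent.X277 Crest.Agent.X277.Lef Crest.Agent.X277.BD Crest.Agent.X277.Pst
open Crest.Agent.X277.BD.Br (On oP kP)
open Crest.Agent.X277.BD.Cyc (Rf plV lnr_plV surj_plV)
open Crest.Agent.X262.Mod (IsMod Car RNef RSa EqOn LeOn Gz)
open Crest.Agent.X262.Geo Crest.Agent.X262.Loc Crest.Agent.X262.Sark Crest.Agent.X262.Bnd
open List (replicate)

variable {K : Type} [Field K] [Algebra ℂ K] {b : Bs 4 K} {A H a : BD ℂ K} {V V' : RZ ℂ K}

variable (K) in
/-- every b-divisor lives on a smooth model -/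
def Sm : Prop := ∀ a : BD ℂ K, ∃ P : PModel ℂ K, a ∈ On P

theorem dim_four (b : Bs 4 K) : dim ℂ K = 4 := by simpa using Module.finrank_eq_card_basis b

theorem PG2.dim_eq {F : Type} [Field F] [Algebra ℂ F] (h : PG2 F) : dim ℂ F = 2 := by
  obtain ⟨-, c, -⟩ := h
  simpa using Module.finrank_eq_card_basis c

theorem rsd_eq (M : IntermediateField ℂ K) (V : RZ ℂ K) : rsd M V = (rι M.val V).fieldRange := by
  refine le_antisymm (IntermediateField.adjoin_le_iff.2 ?_) fun s hs => ?_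
  · rintro _ ⟨x, hx, rfl⟩
    by_cases h : x ∈ V.1
    · exact mem_range_rι.2 ⟨⟨x, hx⟩, h, rfl⟩
    · rw [show (plV V).r x = 0 from dif_neg h]
      exact zero_mem _
  · obtain ⟨x, -, rfl⟩ := mem_range_rι.1 hs
    exact IntermediateField.subset_adjoin _ _ ⟨x, x.2, rfl⟩

theorem r_mem_ctr {y : K} (hy : y ∈ loc H V) : (plV V).r y ∈ ctr H V :=
  IntermediateField.subset_adjoin _ _ ⟨y, hy, rfl⟩

theorem ctr_le_cen (hH : H.Free) : ctr H V ≤ cen H V := IntermediateField.adjoin_le_iff.2 <| by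
  rintro _ ⟨y, hy, rfl⟩
  exact r_mem_cen hH hy

theorem ctr_le_cl : ctr H V ≤ cl H V := fun x hx =>
  mem_algebraicClosure_iff.2 (isAlgebraic_algebraMap (⟨x, hx⟩ : ctr H V))

theorem gz_of_rv (hA : A.Free) (h : rv (cf A).val V = rv (cf A).val V') : Gz A V V' := by
  refine Mod.gz_of_loc hA fun x hx => ?_
  have h1 := mem_of_loc hx
  obtain ⟨m, g, h2, h3, h4⟩ := hx
  have h5 := div_mem_cf h4 h2
  rw [mul_div_cancel_right₀ _ (ne_of_val h3)] at h5
  have h6 : (⟨x, Gfm.cf_le_of_free (n := m) hA (by simpa using Free.zero) h5⟩ : cf A) ∈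
    (rv (cf A).val V).1 := h1
  rwa [h] at h6

theorem flips {Z Z' : TM b} (h : Relation.ReflTransGen (Flip b A) Z Z') : SameP Z.H Z'.H := by
  induction h with
  | refl => exact SameP.rfl
  | tail _ h ih =>
    obtain ⟨X, -, h1, h2, -⟩ := h
    exact ih.trans (h1.symm.trans h2)

variable [Algebra.EssFiniteType ℂ K]

theorem eqOn_κ (hS : Sm K) {Z Z' : TM b} (h : SameP Z.H Z'.H) :
    EqOn Z.H (Z'.r • Z.κ) (Z.r • Z'.κ) := fun V hV => by
  obtain ⟨P, hP⟩ := hS Z.H
  have h1 := (car_of_on hP).prm hV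
  rw [val_nsmul, val_nsmul, Z.κ_eq P V h1 hV, Z'.κ_eq P V h1 ((h V).1 hV), val_nsmul, val_nsmul,
    ← pow_mul, ← pow_mul, mul_comm]

theorem deg_κ (hS : Sm K) (hA : A.Free) (hd : dim (cf A) K = 1) (Z : TM b) (hc : Car Z.H A) :
    bnum [up (cf A) Z.κ] = Z.r * (2 * gn (cf A) K - 2) := by
  obtain ⟨δ, h⟩ := exists_rel hd b
  obtain ⟨P, hP⟩ := hS A
  rw [up_eq_of_kEq hA hP hd h Z.mod.free hc Z.κ_eq, bnum_nsmul, deg_kC hd (h.ne hd), cst_cf,
    Nat.cast_one, mul_one]

theorem deg_neg (Y : MFS b) (hd : dim (cf Y.A) K = 1) : bnum [up (cf Y.A) Y.κ] < 0 := by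
  obtain ⟨q, l, hq, h⟩ := Y.anti
  have h1 := (nef_iff_deg hd).1 (h.up (cf Y.A)).nef
  have h2 := (big_iff_deg hd).1 (Gfm.isMod_up (cf Y.A) Y.mod).big
  rw [map_sub, map_sub, map_nsmul, map_nsmul, bnum_sub, bnum_sub, bnum_nsmul, bnum_nsmul,
    (lin_up_cf Y.A_free).bnum_eq, bnum_zero] at h1
  exact neg_of_mul_neg_right (a := (q : ℤ)) (by omega) (Int.natCast_nonneg _)

/-- a multiple of a vertical prime comes from the base -/
theorem vert (Y : MFS b) (hd : dim (cf Y.A) K = 1) (hV : Prm Y.H V)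
    (h0 : (rv (cf Y.A).val V).1 ≠ ⊤) : ∃ a, Car Y.A a ∧ 0 ≤ a ∧ up (cf Y.A) a = 0 ∧
      1 < a.val V ∧ ∀ W, Prm Y.H W → W ≠ V → a.val W = 1 := by
  obtain ⟨D, h1, h2, h3⟩ := exists_single Y.mod hV.dvs
  obtain ⟨m, hm, a, h4, h5⟩ := Y.qf D
  obtain ⟨m', hm', c, h6⟩ := Y.rho a h4
  have h7 : ∀ W, Prm Y.H W → W ≠ V → a.val W = 1 := fun W hW h => by
    rw [h5 W hW, val_nsmul, (od_eq_zero hW.dvs).1 (h3 W hW h), one_pow]
  have h8 : up (cf Y.A) a = 0 := BD.ext' fun W => by
    by_cases hW : W.1 = ⊤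
    · rw [show W = RZ.top _ _ from Subtype.ext hW, val_top, val_top]
    · rw [val_up]
      refine h7 _ (prm_dn Y.mod.free Y.A_free Y.A_car hd hW) fun e => h0 ?_
      exact top_unique fun x _ => e ▸ W.2 x
  have h9 := (Gfm.lin_up_of_car Y.A_free h6 le_rfl).bnum_eq []
  rw [map_sub, map_nsmul, h8, smul_zero, zero_sub, map_zsmul, bnum_neg, bnum_zsmul, bnum_zero,
    neg_eq_zero, mul_eq_zero] at h9
  rw [h9.resolve_right (deg_neg Y hd).ne, zero_smul, sub_zero] at h6
  refine ⟨m' • a, h6, nsmul_nonneg (h4.nonneg Y.mod fun W hW => ?_) _,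
    by rw [map_nsmul, h8, smul_zero], ?_, fun W hW h => by rw [val_nsmul, h7 W hW h, one_pow]⟩
  · rw [h5 W hW]
    exact nsmul_nonneg h1 m W
  · rw [val_nsmul, h5 V hV, ← val_nsmul, ← val_zero V, ← od_lt_iff hV.dvs, map_zero, map_nsmul,
      map_nsmul, h2]
    positivity

/-- at most one prime over a valuation of the base -/
theorem one (Y : MFS b) (hA : cf Y.A = cf A) (hd : dim (cf A) K = 1) (hV : Prm Y.H V)
    (hV' : Prm Y.H V') (h0 : (rv (cf A).val V).1 ≠ ⊤)
    (h : rv (cf A).val V' = rv (cf A).val V) : V' = V := by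
  rw [← hA] at hd h0 h
  obtain ⟨a, h1, h2, -, h3, h4⟩ := vert Y hd hV h0
  by_contra hc
  have h5 := h1.neg.rsa.val_eq_one (neg_nonpos.2 h2) (gz_of_rv Y.A_free h)
    (by rw [val_neg, h4 V' hV' hc, inv_one])
  rw [val_neg, inv_eq_one] at h5
  exact h3.ne' h5

theorem range_le_ctr (hA : A.Free) (hc : Car H A) (h : Prm (bs A) (rv (cf A).val V)) :
    (rι (cf A).val V).fieldRange ≤ ctr H V := fun s hs => by
  obtain ⟨x, h1, rfl⟩ := mem_range_rι.1 hs
  have h2 := isMod_iff_va.2 (va_bs hA)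
  exact r_mem_ctr ((hc.of_lin (lin_bs hA).symm).loc_le V (loc_pb (Neg.le_loc h2.free h2.bir h h1)))

theorem dim_cl (hV : Dvs V) : dim ℂ (cl H V) = dim ℂ (ctr H V) := by
  have := essFT_Rf hV
  exact le_antisymm (dim_of_alg fun x hx => mem_algebraicClosure_iff.1 hx)
    (dim_le (IntermediateField.inclusion ctr_le_cl))

theorem fdg_eq (hV : Dvs V) (L : IntermediateField ℂ (Rf V)) (a : BD ℂ K) :
    haveI := essFT_Rf hV
    fdg V L a = bnum [up L ((plV V).rs a)] := by
  have := essFT_Rf hV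
  exact dif_pos (eftTop L)

variable {M : IntermediateField ℂ K} {w : RZ ℂ M} {h : BD ℂ M}

theorem pg_range (hPG : PGStmt) (hw : PG2 (Rf w)) (hV : Dvs V) (h1 : rv M.val V = w) :
    PG2 (rι M.val V).fieldRange := by
  subst h1
  have := essFT_Rf hV
  exact hPG _ _ (AlgEquiv.ofInjectiveField (rι M.val V)).toAlgHom hw
    ((dim_range hV).trans (PG2.dim_eq hw))

/-- exceptional divisors over `w` have degree zero -/
theorem dg_rc (hRC : RCStmt) (hPG : PGStmt) (hw : PG2 (Rf w)) (U : TM b) (hV : Dvs V)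
    (h1 : rv M.val V = w) (h2 : ¬ Prm U.H V) (ha : Car U.H a) :
    dg V (a :: replicate 2 (pb M.val h)) = 0 := by
  have := essFT_Rf hV
  have h3 := pg_range hPG hw hV h1
  let L := (algebraicClosure (rι M.val V).fieldRange (Rf V)).restrictScalars ℂ
  have h4 : (rι M.val V).fieldRange ≤ L := fun x hx =>
    mem_algebraicClosure_iff.2 (isAlgebraic_algebraMap (⟨x, hx⟩ : (rι M.val V).fieldRange))
  have h5 : dim ℂ L = 2 := le_antisymm
    ((dim_of_alg fun x hx => mem_algebraicClosure_iff.1 hx).trans (PG2.dim_eq h3).le)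
    ((PG2.dim_eq h3).ge.trans (dim_le (IntermediateField.inclusion h4)))
  have h6 : cen U.H V ≤ L := cen_le U.mod.free
    (fun x hx => mem_algebraicClosure_iff.2 (alg_cl hx))
    fun y hy => mem_algebraicClosure_iff.2 (hRC K b U V _ hV h2 h3 _ (r_mem_ctr hy))
  rw [dg_facL h4 a h5, (Gfm.lin_up_of_car (Pl.free_rs U.mod.free) (car_rs ha V) h6).bnum_eq,
    bnum_zero, mul_zero]

theorem two_sum (hh : IsMod h) (hw : Dvs w) (hM : dim ℂ M = 3) (hV : Dvs V) (hV' : Dvs V')
    (h1 : rv M.val V = w) (h2 : rv M.val V' = w) (hne : V ≠ V') : ∃ e e' : ℤ, 0 < e ∧ 0 < e' ∧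
      ∀ x, (∀ W, Dvs W → rv M.val W = w → W ≠ V → W ≠ V' →
        dg W (x :: replicate 2 (pb M.val h)) = 0) →
      e * dg V (x :: replicate 2 (pb M.val h)) + e' * dg V' (x :: replicate 2 (pb M.val h)) =
        dg w (replicate 2 h) * bnum [up M x] := by
  classical
  have : CharZero M := algebraRat.charZero _
  obtain ⟨e, h3, h4⟩ := exists_mult (F := K) hh hw (d := 2) hM
  refine ⟨e V, e V', h3 V hV h1, h3 V' hV' h2, fun x hx => ?_⟩
  have h5 := h4 [x] {V, V'} (by simpa using ⟨hV, hV'⟩) fun W h6 h7 h8 =>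
    hx W h6 h7 (fun e => h8 (by simp [e])) fun e => h8 (by simp [e])
  rwa [Finset.sum_pair hne] at h5

/-- the degree of the anticanonical class on an extracted divisor -/
theorem dg_j1 (hJ : J1Stmt) {Z Y : TM b} (hE : Ext Z Y V) (hc : dim ℂ (ctr Y.H V) = 2)
    (hL : (rι M.val V).fieldRange ≤ ctr Y.H V) (hd : dim ℂ (Rf (rv M.val V)) = 2) :
    ∃ f : ℕ, 0 < f ∧ dg V (Z.κ :: replicate 2 (pb M.val h)) =
      -(f * dg (rv M.val V) (replicate 2 h) * Z.r) ∧
      (f = 1 → Nonempty (Rf V ≃ₐ[ℂ] RatFunc (Rf (rv M.val V)))) := by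
  have hV := ((hE.prm V).2 (Or.inr rfl)).dvs
  have := essFT_Rf hV
  have := essFT_hom (rι M.val V)
  obtain ⟨⟨e⟩, h1, -⟩ := hJ K b Z Y V hE hc
  have h2 := (dim_cl (H := Y.H) hV).trans hc
  refine ⟨deg (ιL (hL.trans ctr_le_cl)), (deg_pos_iff _).2 (h2.trans hd.symm), ?_, fun h3 => ?_⟩
  · rw [← h1, fdg_eq hV, ← dg_facL _ _ h2, dg_neg, neg_neg]
  · obtain ⟨e'⟩ := ratFunc_congr (AlgEquiv.ofBijective _ ⟨RingHom.injective _, surj_of_deg h3⟩)
    exact ⟨(e.restrictScalars ℂ).trans e'.symm⟩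

variable {w : RZ ℂ (cf A)} {h : BD ℂ (cf A)}

/-- models with the same primes have the same anticanonical degrees -/
theorem dg_cmp (hS : Sm K) (hRC : RCStmt) (hPG : PGStmt) (hA : A.Free) (hd : dim (cf A) K = 1)
    (hw : PG2 (Rf w)) (hw' : Dvs w) (hh : IsMod h) {Z U : TM b} (hs : SameP Z.H U.H)
    (hc : Car Z.H A) (hn : RSa A (-U.κ)) (hV : Prm Z.H V) (hV' : Prm Z.H V')
    (h1 : rv (cf A).val V = w) (h2 : rv (cf A).val V' = w) (hne : V ≠ V')
    (h3 : ∀ W, Prm Z.H W → rv (cf A).val W = w → W = V ∨ W = V') :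
    Z.r * dg V' (U.κ :: replicate 2 (pb (cf A).val h)) =
      U.r * dg V' (Z.κ :: replicate 2 (pb (cf A).val h)) := by
  have h4 := eqOn_κ hS hs
  have h5 : 0 ≤ Z.r • U.κ - U.r • Z.κ := by
    have h6 := (Z.car.nsmul U.r).neg.le_of_rnef Z.mod
      (((hn.rnef hA).trans hc).nsmul Z.r) (by rw [smul_neg]; exact h4.le.neg)
    rwa [smul_neg, neg_le_neg_iff, ← sub_nonneg] at h6
  have h6 : ∀ W, Prm Z.H W → 0 ≤ dg W ((Z.r • U.κ - U.r • Z.κ) ::
      replicate 2 (pb (cf A).val h)) := fun W hW => dg_nonneg_of h5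
    (by rw [val_sub, h4 W hW, div_self (val_ne _ _)]) (all_rp (hh.free.pb _).nef _)
  have h7 := dim_cf_add A
  obtain ⟨e, e', he, he', h8⟩ := two_sum hh hw' (by rw [dim_four b] at h7; omega) hV.dvs hV'.dvs
    h1 h2 hne
  have h9 := h8 (Z.r • U.κ - U.r • Z.κ) fun W hW h9 h10 h11 => by
    have h12 : ¬ Prm Z.H W := fun h => (h3 W h h9).elim h10 h11
    rw [dg_sub, dg_nsmul, dg_nsmul, dg_rc hRC hPG hw Z hW h9 h12 Z.car,
      dg_rc hRC hPG hw U hW h9 (mt (hs W).2 h12) U.car, mul_zero, mul_zero, sub_zero]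
  rw [map_sub, up_eq_of_eqOn Z.mod.free hA hc hd h4, sub_self, bnum_zero, mul_zero] at h9
  have h10 := mul_nonneg he.le (h6 V hV)
  have h11 := (mul_eq_zero.1 (le_antisymm (by omega) (mul_nonneg he'.le (h6 V' hV')))).resolve_left
    he'.ne'
  rwa [dg_sub, dg_nsmul, dg_nsmul, sub_eq_zero] at h11

theorem arith {e e' f f' : ℤ} (he : 0 < e) (he' : 0 < e') (hf : 0 < f) (hf' : 0 < f')
    (h : e * f + e' * f' = 2) : f = 1 ∧ f' = 1 := by
  constructor <;> nlinarith [mul_pos he hf, mul_pos he' hf']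

/-- **the two components of the fibre** -/
theorem t3 (hS : Sm K) (hJ : J1Stmt) (hRC : RCStmt) (hPG : PGStmt) {Z Z' : TM b}
    (d : DivE b A Z) (hs : SameP Z.H Z'.H) (h3 : dim ℂ (cf A) = 3) (hE : Srf d.Y.H d.E)
    (hr : PG2 (rsd (cf A) d.E)) : IsEmpty (FibE b A Z') ∧ ∀ d' : DivE b A Z',
      d'.E = d.E ∨ (Srf d'.Y.H d'.E ∧ Nonempty (Rf d.E ≃ₐ[ℂ] Rf d'.E)) := by
  obtain ⟨Y, E, rfl, c1, nE, p1, U, fl, nf⟩ := d
  dsimp only at hE hr ⊢
  have : CharZero (cf Y.A) := algebraRat.charZero _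
  have hA := Y.A_free
  have h4 := dim_four b
  have hd : dim (cf Y.A) K = 1 := by
    have := dim_cf_add Y.A
    omega
  have pE : Prm Z.H E := (p1 E).2 (Or.inr rfl)
  have := essFT_Rf pE.dvs
  have := essFT_hom (rι (cf Y.A).val E)
  rw [rsd_eq] at hr
  have d2 : dim ℂ (Rf (rv (cf Y.A).val E)) = 2 := (dim_range pE.dvs).symm.trans (PG2.dim_eq hr)
  have hw : PG2 (Rf (rv (cf Y.A).val E)) :=
    hPG _ _ (AlgEquiv.ofInjectiveField (rι (cf Y.A).val E)).symm.toAlgHom hr d2
  have hw' : Dvs (rv (cf Y.A).val E) := dvs_of_dim' (by omega)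
  obtain ⟨h, hh, -, -, h5, -⟩ := exists_model Free.zero {rv (cf Y.A).val E} (by simpa using hw') []
  replace h5 := h5 _ (Finset.mem_singleton_self _)
  obtain ⟨E', h6, h7, h8⟩ := exists_over (F := K) hh h5 (d := 2) h3 (l := [Y.κ]) (deg_neg Y hd).ne
  replace h7 : rv (cf Y.A).val E' = rv (cf Y.A).val E := h7
  have pE' : Prm Y.H E' := by_contra fun hc => h8 (dg_rc hRC hPG hw Y.toTM h6 h7 hc Y.car)
  have hne : E ≠ E' := fun e => nE (e ▸ pE')
  have qE' : Prm Z.H E' := (p1 E').2 (Or.inl pE')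
  have h9 : ∀ Y' : MFS b, cf Y'.A = cf Y.A → Prm Y'.H E → ¬ Prm Y'.H E' := fun Y' e q q' =>
    hne (one Y' e hd q q' hw'.ne_top h7).symm
  refine ⟨⟨fun f => h9 f.Y (eq_of_dim (fun _ => cf_cl) (Gfm.cf_le_of_car f.Y.A_free f.car) ?_)
    ((f.same E).2 ((hs E).1 pE)) ((f.same E').2 ((hs E').1 qE'))⟩, fun d' => ?_⟩
  · have := dim_cf_add f.Y.A
    have := Gfm.dim_cf_pos f.Y.A_free f.Y.nb
    omega
  refine or_iff_not_imp_left.2 fun hn => ?_
  obtain ⟨Y', E'', hA', c2, nE', p2, _, _, _⟩ := d'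
  dsimp only at hn ⊢
  obtain rfl : E' = E'' := ((p2 E').1 ((hs E').1 qE')).resolve_left
    (h9 Y' (by rw [hA']) (((p2 E).1 ((hs E).1 pE)).resolve_right (Ne.symm hn)))
  obtain ⟨a, a1, -, a2, a3, a4⟩ := vert Y hd pE' (h7 ▸ hw'.ne_top)
  have pw := prm_bs Y.mod hA Y.A_car h4 hd a1 a2 a3 a4
  have r1 := range_le_ctr hA Y.A_car (h7 ▸ pw)
  have r2 := range_le_ctr hA (hA' ▸ Y'.A_car) pw
  have := essFT_Rf h6
  have g2 := pg_range hPG hw h6 h7
  have d3 : dim ℂ (ctr Y'.H E') = 2 := le_antisymm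
    ((dim_le (IntermediateField.inclusion (ctr_le_cen (V := E') Y'.mod.free))).trans
      (dim_cen_le Y'.mod h6 nE' h4))
    ((PG2.dim_eq g2).ge.trans (dim_le (IntermediateField.inclusion r2)))
  refine ⟨hPG _ _ (IntermediateField.inclusion r2) g2 d3, ?_⟩
  obtain ⟨f, f1, f2, f3⟩ := dg_j1 (h := h) hJ ⟨c1, nE, p1⟩ (PG2.dim_eq hE) r1 d2
  obtain ⟨f', g1, g3, g4⟩ := dg_j1 (h := h) hJ ⟨c2, nE', p2⟩ d3 r2 (h7 ▸ d2)
  rw [h7] at g3 g4
  have k1 : ∀ W, Prm Z.H W → rv (cf Y.A).val W = rv (cf Y.A).val E → W = E ∨ W = E' :=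
    fun W hW e => ((p1 W).1 hW).symm.imp_right fun q =>
      one Y rfl hd pE' q (h7 ▸ hw'.ne_top) (e.trans h7.symm)
  have cZ : Car Z.H Y.A := c1.trans Z.mod.free Y.A_car
  have k2 := dg_cmp hS hRC hPG hA hd hw hw' hh (flips fl) cZ nf pE qE' rfl h7 hne k1
  have k3 := dg_cmp hS hRC hPG hA hd hw hw' hh (hs.symm.trans (flips fl))
    (c2.trans Z'.mod.free (hA' ▸ Y'.A_car)) nf ((hs E).1 pE) ((hs E').1 qE') rfl h7 hne
    fun W hW => k1 W ((hs W).2 hW)
  obtain ⟨e, e', he, he', k4⟩ := two_sum hh hw' h3 pE.dvs h6 rfl h7 hne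
  have k5 := k4 Z.κ fun W hW e1 e2 e3 =>
    dg_rc hRC hPG hw Z hW e1 (fun q => (k1 W q e1).elim e2 e3) Z.car
  have k6 : gn (cf Y.A) K = 0 := by
    have k7 := deg_neg Y hd
    rw [deg_κ hS hA hd Y.toTM Y.A_car] at k7
    have := neg_of_mul_neg_right k7 (Int.natCast_nonneg _)
    omega
  have δ := dg_pos hh h5 h3
  have r0 : (0 : ℤ) < Z.r := Int.natCast_pos.2 Z.r_pos
  have r0' : (0 : ℤ) < Z'.r := Int.natCast_pos.2 Z'.r_pos
  have r0c : (0 : ℤ) < U.r := Int.natCast_pos.2 U.r_pos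
  have k8 : dg E' (Z.κ :: replicate 2 (pb (cf Y.A).val h)) =
      -(f' * dg (rv (cf Y.A).val E) (replicate 2 h) * Z.r) :=
    mul_left_cancel₀ (mul_pos r0c r0').ne' (by
      rw [g3] at k3
      linear_combination (Z.r : ℤ) * k3 - (Z'.r : ℤ) * k2)
  rw [f2, k8, deg_κ hS hA hd Z cZ, k6, Nat.cast_zero] at k5
  obtain ⟨k9, k10⟩ := arith he he' (Int.natCast_pos.2 f1) (Int.natCast_pos.2 g1)
    (mul_left_cancel₀ (mul_pos δ r0).ne' (by linear_combination -k5))
  obtain ⟨e1⟩ := f3 (by exact_mod_cast k9)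
  obtain ⟨e2⟩ := g4 (by exact_mod_cast k10)
  exact ⟨e1.trans e2.symm⟩

end Crest.Agent.X262.Top
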